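import Vale.Agent.P283B.LS.Tw
import Vale.Agent.P283B.MONO.Va1

/-!
# P283B, block LS: zeros in the open disc, values on the polydisc, approximate preparation
-/

open Set Polynomial Filter Topology

noncomputable section

namespace Vale.Agent.P283B.Ls

open Mono

/-- **NP0** -/
theorem np0 : NP0 := fun Ω _ _ w f k hw h1 h2 h3 => by
  classical
  have gn : ∀ c : ℝ, 0 < c → c ≤ 1 → (∀ i < k, w (f.coeff i) ≤ c ^ k) →
      f.gaussNorm w c = c ^ k := fun c c0 c1 h => by
    refine le_antisymm ?_ (by simpa [h3] using f.le_gaussNorm w c0.le k)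
    obtain ⟨i, hi⟩ := f.exists_eq_gaussNorm w c
    rw [hi]
    rcases lt_or_ge i k with a | a
    · exact (mul_le_of_le_one_right (w.nonneg _) (pow_le_one₀ c0.le c1)).trans (h i a)
    · exact (mul_le_of_le_one_left (by positivity) (h1 i)).trans (pow_le_pow_of_le_one c0.le c1 a)
  have f0 : f ≠ 0 := fun e => by simp [e] at h3
  set B := f.roots.filter fun β => w β < 1 with hB
  set B' := f.roots.filter fun β => ¬ w β < 1 with hB'
  have sp : ∀ g : Ω → ℝ, (∀ ρ, ¬ w ρ < 1 → g ρ = w ρ) →
      (f.roots.map g).prod = (B'.map w).prod * (B.map g).prod := fun g hg => by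
    rw [← Multiset.filter_add_not (fun β => w β < 1) f.roots, Multiset.map_add, Multiset.prod_add,
      mul_comm, Multiset.map_congr rfl fun ρ hρ => hg ρ (Multiset.mem_filter.1 hρ).2]
  have cst : ∀ c : ℝ, (∀ β ∈ B, w β ≤ c) → (B.map fun ρ => max c (w ρ)).prod = c ^ B.card :=
    fun c h => by
      rw [Multiset.map_congr rfl fun ρ hρ => max_eq_left (h ρ hρ), Multiset.map_const',
        Multiset.prod_replicate]
  have one : w f.leadingCoeff * (B'.map w).prod = 1 := by
    have := gn 1 one_pos le_rfl fun i _ => by simpa using h1 i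
    rw [gn_roots hw one_pos, sp _ fun ρ h => max_eq_right (not_lt.1 h),
      cst 1 fun β h => (Multiset.mem_filter.1 h).2.le] at this
    simpa using this
  refine ⟨B, ?_, fun β h => ⟨(Multiset.mem_filter.1 h).2,
    (mem_roots f0).1 (Multiset.mem_filter.1 h).1⟩, fun y hy => ?_⟩
  · have t : Tendsto (fun c : ℝ => c ^ k) (𝓝 1) (𝓝 1) := by
      simpa using (continuous_pow k).tendsto (1 : ℝ)
    obtain ⟨c, ⟨⟨a, b⟩, c0⟩, c1⟩ := (((((eventually_all_finset B.toFinset).2 fun β h =>
      lt_mem_nhds (Multiset.mem_filter.1 (Multiset.mem_toFinset.1 h)).2).and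
      ((eventually_all_finset (Finset.range k)).2 fun i h =>
        t.eventually (lt_mem_nhds (h2 i (Finset.mem_range.1 h))))).and
      (lt_mem_nhds one_pos)).filter_mono nhdsWithin_le_nhds).and
      (self_mem_nhdsWithin (s := Iio (1 : ℝ))) |>.exists
    have c1 : c < 1 := c1
    have := gn c c0 c1.le fun i h => (b i (Finset.mem_range.2 h)).le
    rw [gn_roots hw c0, sp _ fun ρ h => max_eq_right (c1.le.trans (not_lt.1 h)),
      cst c fun β h => (a β (Multiset.mem_toFinset.2 h)).le, ← mul_assoc, one, one_mul] at this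
    exact pow_right_injective₀ c0 c1.ne this
  · rw [(IsAlgClosed.splits f).eval_eq_prod_roots, map_mul, map_multiset_prod, Multiset.map_map,
      sp _ fun ρ h => by
        rw [Function.comp_apply, w.map_sub, na_sub_lt hw (hy.trans_le (not_lt.1 h))],
      ← mul_assoc, one, one_mul]
    rfl

/-- **EV** -/
theorem ev_ok : EV := fun n Ω _ _ _ w E t u s η hη => by
  have hw := s.vs.na
  obtain ⟨q, q0, q1, q2, q3, q4⟩ : ∃ q : ℝ, 0 ≤ q ∧ q < 1 ∧ w t ≤ q ∧ (∀ j, w (η j) ≤ q) ∧
      ∀ r, w t ≤ r → (∀ j, w (η j) ≤ r) → q ≤ r := by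
    obtain ⟨o, -, h⟩ := Finset.exists_max_image Finset.univ
      (fun o : Option (Fin n) => w (o.elim t η)) Finset.univ_nonempty
    refine ⟨_, w.nonneg _, ?_, h none (Finset.mem_univ _), fun j => h (some j) (Finset.mem_univ _),
      fun r a b => ?_⟩ <;> cases o
    exacts [s.t1, hη _, a, b _]
  have c1 : ∀ c, w (algebraMap ℂ Ω c) ≤ 1 := fun c => by
    by_cases z : c = 0
    · simp [z]
    · exact (s.c1 c z).le
  let A : Pn n → Prop := fun p => w (ev t η p - algebraMap ℂ Ω (c0 p)) ≤ q
  have le : ∀ p, A p → w (ev t η p) ≤ 1 := fun p h => by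
    have := hw (ev t η p - algebraMap ℂ Ω (c0 p)) (algebraMap ℂ Ω (c0 p))
    rw [sub_add_cancel] at this
    exact this.trans (max_le (h.trans q1.le) (c1 _))
  have add : ∀ p p', A p → A p' → A (p + p') := fun p p' a b => by
    have := (hw _ _).trans (max_le a b)
    simpa only [A, map_add, add_sub_add_comm] using this
  have mul : ∀ p p', A p → A p' → A (p * p') := fun p p' a b => by
    have e : ev t η (p * p') - algebraMap ℂ Ω (c0 (p * p')) =
        ev t η p * (ev t η p' - algebraMap ℂ Ω (c0 p')) +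
          (ev t η p - algebraMap ℂ Ω (c0 p)) * algebraMap ℂ Ω (c0 p') := by
      simp only [map_mul]
      ring
    refine (congrArg w e).trans_le ((hw _ _).trans (max_le ?_ ?_)) <;> rw [map_mul]
    exacts [(mul_le_of_le_one_left (w.nonneg _) (le p a)).trans b,
      (mul_le_of_le_one_right (w.nonneg _) (c1 _)).trans a]
  have all : ∀ p, A p := fun p => by
    induction p using MvPolynomial.induction_on with
    | C a =>
      induction a using Polynomial.induction_on with
      | C a => simpa [A, ev, c0] using q0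
      | add a b x y => exact map_add (MvPolynomial.C (σ := Fin n)) a b ▸ add _ _ x y
      | monomial i a x =>
        rw [pow_succ, ← mul_assoc, map_mul]
        exact mul _ _ x (by simpa [A, ev, c0] using q2)
    | add a b x y => exact add _ _ x y
    | mul_X a j x => exact mul _ _ x (by simpa [A, ev, c0] using q3 j)
  refine ⟨q, q0, q1, q4, fun p => ⟨le p (all p), fun z => ?_, fun M => ?_⟩⟩
  · have := na_add_lt hw (x := algebraMap ℂ Ω (c0 p)) (((all p).trans_lt q1).trans_eq
      (s.c1 _ z).symm)
    rwa [add_sub_cancel, s.c1 _ z] at this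
  · induction M generalizing p with
    | zero => exact fun _ => by simpa using le p (all p)
    | succ M ih =>
      intro h
      rw [pow_succ] at h
      refine Submodule.mul_induction_on h (fun a ha b hb => ?_) fun a b x y => ?_
      · have := all b
        simp only [A, (RingHom.mem_ker).1 hb, map_zero, sub_zero] at this
        rw [map_mul, map_mul, pow_succ]
        exact mul_le_mul (ih a ha) this (w.nonneg _) (pow_nonneg q0 M)
      · rw [map_add]
        exact (hw _ _).trans (max_le x y)

/-- the lemma of Hensel up to a given order -/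
theorem hensel {R k : Type} [CommRing R] [Field k] (c : R →+* k) (hc : Function.Surjective c)
    (f : R[X]) {A B : k[X]} (m : A.Monic) (e : f.map c = A * B) (cp : IsCoprime A B) (M : ℕ) :
    ∃ W U : R[X], W.Monic ∧ W.map c = A ∧ U.map c = B ∧
      f - W * U ∈ (RingHom.ker c ^ (M + 1)).map (C : R →+* R[X]) := by
  have : Nontrivial R := c.domain_nontrivial
  have k1 : ∀ g : R[X], g ∈ (RingHom.ker c).map (C : R →+* R[X]) ↔ g.map c = 0 := fun g => by
    rw [← ker_mapRingHom]
    rfl
  induction M with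
  | zero =>
    obtain ⟨W, w1, -, w2⟩ := lifts_and_degree_eq_and_monic
      ((mem_lifts A).2 (map_surjective c hc A)) m
    obtain ⟨U, rfl⟩ := map_surjective c hc B
    exact ⟨W, U, w2, w1, rfl, by simp [k1, e, w1]⟩
  | succ M ih =>
    obtain ⟨W, U, w1, w2, u, h⟩ := ih
    obtain ⟨a, b, ab⟩ := cp
    obtain ⟨a, rfl⟩ := map_surjective c hc a
    obtain ⟨b, rfl⟩ := map_surjective c hc b
    set J := RingHom.ker c ^ (M + 1) with hJ
    have k2 : ∀ g : R[X], g ∈ J.map (C : R →+* R[X]) ↔ g.map (Ideal.Quotient.mk J) = 0 :=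
      fun g => by
        conv_lhs => rw [← J.mk_ker, ← ker_mapRingHom]
        rfl
    have le : J.map (C : R →+* R[X]) ≤ (RingHom.ker c).map C :=
      Ideal.map_mono (Ideal.pow_le_self M.succ_ne_zero)
    have eb := (k2 _).1 (Ideal.mul_mem_right b _ h)
    have r : ((f - W * U) * b) %ₘ W ∈ J.map (C : R →+* R[X]) :=
      (k2 _).2 (by rw [map_modByMonic _ w1, eb, zero_modByMonic])
    have q : ((f - W * U) * b) /ₘ W ∈ J.map (C : R →+* R[X]) :=
      (k2 _).2 (by rw [map_divByMonic _ w1, eb, zero_divByMonic])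
    have d := modByMonic_add_div ((f - W * U) * b) W
    have lt := degree_modByMonic_lt ((f - W * U) * b) w1
    generalize ((f - W * U) * b) %ₘ W = r' at r d lt
    generalize ((f - W * U) * b) /ₘ W = q' at q d
    have s := le (add_mem (Ideal.mul_mem_right a _ h) (Ideal.mul_mem_right U _ q))
    have o : 1 - (a * W + b * U) ∈ (RingHom.ker c).map (C : R →+* R[X]) :=
      (k1 _).2 (by simp [w2, u, ab])
    refine ⟨W + r', U + ((f - W * U) * a + q' * U), w1.add_of_left lt,
      by rw [Polynomial.map_add, w2, (k1 _).1 (le r), add_zero],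
      by rw [Polynomial.map_add, u, (k1 _).1 s, add_zero], ?_⟩
    rw [pow_succ, Ideal.map_mul]
    convert sub_mem (Ideal.mul_mem_mul h o) (Ideal.mul_mem_mul r s) using 1
    linear_combination (-U) * d

/-- **AW** -/
theorem aw : AW := fun n f M h => by
  have sur : Function.Surjective (c0 (n := n)) := fun a =>
    ⟨MvPolynomial.C (C a), by simp [c0, ev]⟩
  obtain ⟨B, e, nd⟩ := exists_eq_pow_rootMultiplicity_mul_and_not_dvd _ h 0
  rw [rootMultiplicity_eq_natTrailingDegree', C_0, sub_zero] at e
  rw [C_0, sub_zero] at nd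
  obtain ⟨W, U, w1, w2, u, k⟩ := hensel c0 sur f (monic_X_pow _) e
    ((irreducible_X.coprime_iff_not_dvd.2 nd).pow_left) M
  have d : W.natDegree = (f.map c0).natTrailingDegree := by
    rw [← w1.natDegree_map c0, w2, natDegree_X_pow]
  refine ⟨W, U, ⟨w1, d ▸ w2⟩, d, fun z => nd (X_dvd_iff.2 ?_), fun i =>
    Ideal.pow_le_pow_right M.le_succ (Ideal.mem_map_C_iff.1 k i)⟩
  rw [← u, coeff_map, z]

end Vale.Agent.P283B.Ls
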