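import Vale.Agent.P283B.LS.St
import Vale.Agent.P283B.LS.Np
import Vale.Agent.P283B.MONO.Br
import Vale.Agent.P287D.Gf.Res

/-!
# P283B, block LS: from the affine space to etale points which need not be closed
-/

set_option linter.unusedVariables false
set_option linter.unusedSectionVars false

open Set Polynomial
open Vale.Agent.P297Z

noncomputable section

namespace Vale.Agent.P283B.Ls.Ea

open P287D Wp Cb Mb

section bas

variable {M F ι R : Type} [Field M] [Algebra ℂ M] [Field F] [Algebra ℂ F] [CommRing R]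
  {P : Pl M} {y : ι → M} {θ : M} {χ : R →+* M} {N : ℕ}

/-- the elements of order at least `N` -/
def gI (P : Pl M) (χ : R →+* M) (h : ∀ a, χ a ∈ P.ring) (N : ℕ) : Ideal R where
  carrier := {a | χ a / P.t ^ N ∈ P.ring}
  add_mem' := fun {a b} (x : _ ∈ P.ring) (z : _ ∈ P.ring) => by
    change _ ∈ P.ring
    rw [map_add, add_div]
    exact add_mem x z
  zero_mem' := by
    change _ ∈ P.ring
    simp
  smul_mem' := fun c a (x : _ ∈ P.ring) => by
    change _ ∈ P.ring
    rw [smul_eq_mul, map_mul, mul_div_assoc]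
    exact mul_mem (h c) x

theorem mem_gI {h : ∀ a, χ a ∈ P.ring} {a : R} :
    a ∈ gI P χ h N ↔ χ a = 0 ∨ (N : ℤ) ≤ P.ord (χ a) := by
  change _ / _ ∈ P.ring ↔ _
  by_cases z : χ a = 0
  · simp [z]
  have t := pow_ne_zero N P.t_ne
  rw [← Pl.ord_nonneg_iff _ (div_ne_zero z t), Pl.ord_div _ z t, Pl.ord_pow, P.ord_t]
  simp [z]

theorem gI_pow (h : ∀ a, χ a ∈ P.ring) (N : ℕ) : gI P χ h 1 ^ N ≤ gI P χ h N := by
  induction N with
  | zero => exact fun a _ => (by simpa using h a : χ a / P.t ^ 0 ∈ P.ring)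
  | succ N ih =>
    rw [pow_succ]
    refine Ideal.mul_le.2 fun a x b z => ?_
    change _ ∈ P.ring
    rw [map_mul, pow_succ, mul_div_mul_comm]
    exact mul_mem (ih x) (pow_one P.t ▸ show χ b / P.t ^ 1 ∈ P.ring from z)

/-- the evaluation -/
def eH (y : ι → M) (θ : M) : (MvPolynomial ι ℂ)[X] →+* M :=
  eval₂RingHom (MvPolynomial.aeval y : MvPolynomial ι ℂ →ₐ[ℂ] M) θ

theorem ey_eq (a : (MvPolynomial ι ℂ)[X]) : ey y θ a = eH y θ a := rfl

theorem eH_C (p : MvPolynomial ι ℂ) : eH y θ (C p) = MvPolynomial.aeval y p := by simp [eH]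

theorem eH_X : eH y θ X = θ := by simp [eH]

theorem ae_mem (h : Fi y P) (p : MvPolynomial ι ℂ) : MvPolynomial.aeval y p ∈ P.ring :=
  MvPolynomial.eval₂_mem (fun _ _ => P.con _) h

theorem eH_mem (h : Fi y P) (k : θ ∈ P.ring) (a : (MvPolynomial ι ℂ)[X]) : eH y θ a ∈ P.ring := by
  induction a using Polynomial.induction_on with
  | C p => exact eH_C (θ := θ) p ▸ ae_mem h p
  | add a b x z => rw [map_add]; exact add_mem x z
  | monomial i p x => rw [pow_succ, ← mul_assoc, map_mul, eH_X]; exact mul_mem x k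

theorem int_mem' (h : Fi y P) {G : (MvPolynomial ι ℂ)[X]} (m : G.Monic) (r : ey y θ G = 0) :
    θ ∈ P.ring := by
  obtain ⟨a, e⟩ := IsIntegrallyClosed.isIntegral_iff.1 (⟨G.map
    ((MvPolynomial.aeval y : MvPolynomial ι ℂ →ₐ[ℂ] M).toRingHom.codRestrict _ (ae_mem h)),
    m.map _, by rw [eval₂_map]; exact r⟩ : IsIntegral P.ring θ)
  exact e ▸ a.2

theorem ce_fi (h : Ce y P) : Fi y P := fun i => mem_ord (h i).le

theorem rd_ae (h : Ce y P) (p : MvPolynomial ι ℂ) :
    P.rd (MvPolynomial.aeval y p) = algebraMap ℂ P.κ (MvPolynomial.constantCoeff p) := by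
  rw [rd_aeval (ce_fi h), funext fun i => (rd_eq_zero (ce_fi h i)).2 (mx_iff.2 (.inr (h i))),
    MvPolynomial.aeval_zero']

theorem rd_eH (h : Ce y P) (k : θ ∈ P.ring) (a : (MvPolynomial ι ℂ)[X]) :
    P.rd (eH y θ a) = aeval (P.rd θ) (a.map MvPolynomial.constantCoeff) := by
  induction a using Polynomial.induction_on with
  | C p => rw [eH_C, rd_ae h, map_C, aeval_C]
  | add a b x z => rw [map_add, rd_add (eH_mem (ce_fi h) k _) (eH_mem (ce_fi h) k _), x, z,
      Polynomial.map_add, map_add]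
  | monomial i p x => rw [pow_succ, ← mul_assoc, map_mul, eH_X, rd_mul (eH_mem (ce_fi h) k _) k, x,
      Polynomial.map_mul (q := X), map_mul, map_X, aeval_X]

theorem mx_eH (h : Ce y P) {c : ℂ} (k : Mx P (θ - algebraMap ℂ M c)) (a : (MvPolynomial ι ℂ)[X]) :
    Mx P (eH y θ a) ↔ (a.map MvPolynomial.constantCoeff).eval c = 0 := by
  have m : θ ∈ P.ring := by simpa using add_mem k.mem (P.con c)
  have e := (rd_eq_zero k.mem).2 k
  rw [rd_sub m (P.con c), rd_const, sub_eq_zero] at e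
  rw [← rd_eq_zero (eH_mem (ce_fi h) m a), rd_eH h m, e, aeval_algebraMap_apply, coe_aeval_eq_eval,
    map_eq_zero]

theorem exists_res {a : P.κ} {p : ℂ[X]} (p0 : p ≠ 0) (h : aeval a p = 0) :
    ∃ c, a = algebraMap ℂ P.κ c := by
  have i : IsIntegral ℂ a := IsAlgebraic.isIntegral ⟨p, p0, h⟩
  obtain ⟨c, e⟩ := minpoly.mem_range_of_degree_eq_one ℂ a
    (IsAlgClosed.degree_eq_one_of_irreducible ℂ (minpoly.irreducible i))
  exact ⟨c, e.symm⟩

theorem rf_ff [Fintype ι] {z : ι → F} (h : Rf z) : FF F (Fintype.card ι) := by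
  let e := (Fintype.equivFin ι).symm
  refine ⟨z ∘ e, h.ind.comp _ e.injective, ?_⟩
  rw [e.surjective.range_comp, h.gen]
  exact Module.Finite.of_surjective (Algebra.linearMap _ F) fun a => ⟨⟨a, trivial⟩, rfl⟩

theorem fin_of [Algebra F M] [IsScalarTower ℂ F M] {z : ι → F} {G : (MvPolynomial ι ℂ)[X]}
    (g : IntermediateField.adjoin ℂ (insert θ (range fun i => algebraMap F M (z i))) = ⊤)
    (m : G.Monic) (r : ey (fun i => algebraMap F M (z i)) θ G = 0) : FiniteDimensional F M := by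
  have i : IsIntegral F θ := ⟨G.map (MvPolynomial.aeval z : MvPolynomial ι ℂ →ₐ[ℂ] F), m.map _, by
    rw [eval₂_map, ← r, ey]
    congr 1
    ext <;> simp [← IsScalarTower.algebraMap_apply]⟩
  have t : IntermediateField.adjoin F {θ} = ⊤ := eq_top_iff.2 fun x _ =>
    (IntermediateField.adjoin_le_iff (T := (IntermediateField.adjoin F {θ}).restrictScalars ℂ)).2
      (insert_subset (IntermediateField.mem_adjoin_simple_self F θ) (range_subset_iff.2 fun i =>
        (IntermediateField.adjoin F {θ}).algebraMap_mem _)) (g ▸ IntermediateField.mem_top)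
  have := IntermediateField.adjoin.finiteDimensional i
  rw [t] at this
  exact IntermediateField.topEquiv.toLinearEquiv.finiteDimensional

/-- a place over `v` with a given centre -/
theorem exists_over [Algebra F M] [IsScalarTower ℂ F M] [FiniteDimensional F M] {z : ι → F}
    (hz : Rf z) {G : (MvPolynomial ι ℂ)[X]} (m : G.Monic)
    (r : ey (fun i => algebraMap F M (z i)) θ G = 0) (h : Ce (fun i => algebraMap F M (z i)) P)
    {c : ℂ} (k : Mx P (θ - algebraMap ℂ M c)) {v : Pl F} (hv : Ce z v) :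
    ∃ u, Lies (algebraMap F M) u v ∧ Mx u (θ - algebraMap ℂ M c) := by
  let A := MvPolynomial ι ℂ
  let _ : Algebra A F := (MvPolynomial.aeval z : A →ₐ[ℂ] F).toRingHom.toAlgebra
  let _ : Algebra A M := (MvPolynomial.aeval fun i => algebraMap F M (z i) :
    A →ₐ[ℂ] M).toRingHom.toAlgebra
  have : IsScalarTower A F M := .of_algebraMap_eq' (by
    ext <;> simp [RingHom.algebraMap_toAlgebra, ← IsScalarTower.algebraMap_apply])
  have : FaithfulSMul A F := (faithfulSMul_iff_algebraMap_injective _ _).2 hz.ind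
  have : IsFractionRing A F := .of_field _ _ fun f =>
    (IntermediateField.mem_adjoin_range_iff ℂ z f).1 (hz.gen ▸ IntermediateField.mem_top)
  have i : IsIntegral A θ := ⟨G, m, r⟩
  have e := minpoly.isIntegrallyClosed_eq_field_fractions' F i
  have a := (mx_eH h k (minpoly A θ)).1 ((show eH _ θ _ = 0 from minpoly.aeval A θ) ▸ mx_zero)
  have b := (mx_eH (θ := algebraMap ℂ F c) hv (by simpa using mx_zero) (minpoly A θ)).2 a
  let Ω := AlgebraicClosure F
  obtain ⟨w, na, pw, -⟩ := exists_w (Ω := Ω) v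
  have d := pw.lt b
  have mo := minpoly.monic (i.tower_top (A := F))
  have sp := (IsAlgClosed.splits ((minpoly F θ).map (algebraMap F Ω))).eval_eq_prod_roots
    (algebraMap F Ω (algebraMap ℂ F c))
  rw [(mo.map _).leadingCoeff, one_mul, eval_map_algebraMap, aeval_algebraMap_apply,
    coe_aeval_eq_eval, e, eval_map, ← e] at sp
  obtain ⟨β, b1, b2⟩ : ∃ β ∈ ((minpoly F θ).map (algebraMap F Ω)).roots,
      w (algebraMap F Ω (algebraMap ℂ F c) - β) < 1 := by
    by_contra! x
    refine d.not_ge ((congrArg w sp).ge.trans' ?_)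
    rw [map_multiset_prod]
    refine Multiset.prod_induction (1 ≤ ·) _ (fun _ _ => one_le_mul_of_one_le_of_one_le) le_rfl
      fun _ hh => ?_
    simp only [Multiset.map_map, Multiset.mem_map] at hh
    obtain ⟨β, x1, rfl⟩ := hh
    exact x β x1
  obtain ⟨ψ, hψ⟩ := IntermediateField.exists_algHom_of_splits_of_aeval (F := F) (E := M) (K := Ω)
    (fun s => ⟨Algebra.IsIntegral.isIntegral s, IsAlgClosed.splits _⟩) (x := θ) (y := β)
    (by simpa using (mem_roots (mo.map _).ne_zero).1 b1)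
  have pw' : Pw w ((ψ : M →+* Ω).comp (algebraMap F M)) v := by simpa using pw
  obtain ⟨u, hu⟩ := exists_up na pw'
  refine ⟨u, hu.lies pw', hu.mx ?_⟩
  rw [IsScalarTower.algebraMap_apply ℂ F M, map_sub, w.map_sub]
  simpa [hψ] using b2

/-- polynomial approximation at all places with the same centre -/
theorem approx {G : (MvPolynomial ι ℂ)[X]} (r : ey y θ G = 0) {c : ℂ}
    (g0 : (G.map MvPolynomial.constantCoeff).eval c = 0)
    (g1 : (G.derivative.map MvPolynomial.constantCoeff).eval c ≠ 0) (a : (MvPolynomial ι ℂ)[X])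
    (N : ℕ) : ∃ p : MvPolynomial ι ℂ, ∀ P : Pl M, Ce y P → Mx P (θ - algebraMap ℂ M c) →
      eH y θ a - MvPolynomial.aeval y p = 0 ∨
        (N : ℤ) ≤ P.ord (eH y θ a - MvPolynomial.aeval y p) := by
  obtain ⟨B, e⟩ := dvd_iff_isRoot.2 g0
  have b : B.eval c ≠ 0 := by
    rw [← derivative_map, e] at g1
    simpa using g1
  obtain ⟨W, U, w1, w2, u, h⟩ := hensel (MvPolynomial.constantCoeff (σ := ι) (R := ℂ))
    (fun c => ⟨MvPolynomial.C c, by simp⟩) G (monic_X_sub_C c) e
    ((irreducible_X_sub_C c).coprime_iff_not_dvd.2 (mt dvd_iff_isRoot.1 b)) N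
  have d : W.natDegree = 1 := by rw [← w1.natDegree_map MvPolynomial.constantCoeff, w2]; simp
  have eW : W = X - C (-W.coeff 0) := by simpa using w1.eq_X_add_C d
  refine ⟨a.eval (-W.coeff 0), fun P hP k => ?_⟩
  have m : θ ∈ P.ring := by simpa using add_mem k.mem (P.con c)
  have me := eH_mem (ce_fi hP) m
  have l : (RingHom.ker (MvPolynomial.constantCoeff (σ := ι) (R := ℂ))).map C ≤
      gI P (eH y θ) me 1 := Ideal.map_le_iff_le_comap.2 fun p hp => (mem_gI (N := 1) (h := me)).2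
        (mx_iff.1 ((mx_eH hP k (C p)).2 (by simpa using hp)))
  rw [Ideal.map_pow] at h
  have h1 := mem_gI.1 (gI_pow me _ (Ideal.pow_right_mono l _ h))
  have nu : ¬ Mx P (eH y θ U) := fun x => b (u ▸ (mx_eH hP k U).1 x)
  have u0 : eH y θ U ≠ 0 := fun x => nu (x ▸ mx_zero)
  have h2 : W ∈ gI P (eH y θ) me N := by
    rw [map_sub, ← ey_eq, r, zero_sub, map_mul, neg_eq_zero, Pl.ord_neg] at h1
    refine mem_gI.2 (or_iff_not_imp_left.2 fun w0 => ?_)
    have := h1.resolve_left (mul_ne_zero w0 u0)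
    rw [Pl.ord_mul _ w0 u0, Pl.ord_unit _ (me U) (inv_mem_of nu)] at this
    omega
  obtain ⟨q, hq⟩ := X_sub_C_dvd_sub_C_eval (p := a) (a := -W.coeff 0)
  have := mem_gI.1 (Ideal.mul_mem_right q _ (eW ▸ h2))
  rwa [← hq, map_sub, eH_C] at this

theorem gI_mono {h : ∀ a, χ a ∈ P.ring} {N' : ℕ} (k : N ≤ N') : gI P χ h N' ≤ gI P χ h N :=
  fun _ x => mem_gI.2 ((mem_gI.1 x).imp_right (le_trans (by exact_mod_cast k)))

end bas

/-- closed points -/
theorem eta0 (s2 : S2) (un : UNR) (n : ℕ) {ε : ℝ} (e0 : 0 < ε) : ∃ τ : ℝ, 0 < τ ∧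
    ∀ (M : Type) [Field M] [Algebra ℂ M] (y : Fin (n + 1) → M) (θ : M)
      (G : (MvPolynomial (Fin (n + 1)) ℂ)[X]) (T : Pl M) (l s : ℝ), Eq y θ G T → Ce y T → 0 < s →
      (∀ u, Ce y u → (∀ a, Mx u (ey y θ a) ↔ Mx T (ey y θ a)) → ∃ a, ey y θ a ≠ 0 ∧
        l ≤ T.ord (ey y θ a) ∧ u.ord (ey y θ a) ≤ s * (kq y u + 1 - ε)) →
      ∃ i, τ * T.ord (y i) ≤ kq y T + 1 - l / s := by
  classical
  obtain ⟨τ, t0, s2⟩ := s2 n ε e0
  refine ⟨τ, t0, fun M _ _ y θ G T l s q hT s0 hyp => ?_⟩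
  let F := IntermediateField.adjoin ℂ (range y)
  let z : Fin (n + 1) → F := fun i => ⟨y i, IntermediateField.subset_adjoin _ _ ⟨i, rfl⟩⟩
  have hz : Rf z := ⟨.of_comp F.val q.ind, IntermediateField.lift_injective F (by
    rw [IntermediateField.lift_adjoin, IntermediateField.lift_top, ← range_comp]; rfl)⟩
  have : FiniteDimensional F M := fin_of (z := z) q.gen q.mon q.root
  have hF : FF F (n + 1) := by simpa using rf_ff hz
  have hM : FF M (n + 1) := ff_up hF
  have ae : ∀ p, algebraMap F M (MvPolynomial.aeval z p) = MvPolynomial.aeval y p := fun p =>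
    (MvPolynomial.comp_aeval_apply z F.val p)
  have m := int_mem' q.fi q.mon q.root
  have r0 : Mx T (eH y θ G) := (show eH y θ G = 0 from q.root) ▸ mx_zero
  obtain ⟨c, hc⟩ := exists_res (q.mon.map MvPolynomial.constantCoeff).ne_zero
    ((rd_eH hT m G).symm.trans ((rd_eq_zero (eH_mem q.fi m G)).2 r0))
  have k : Mx T (θ - algebraMap ℂ M c) := (rd_eq_zero (sub_mem m (T.con c))).1 (by
    rw [rd_sub m (T.con c), rd_const, hc, sub_self])
  have g0 := (mx_eH hT k G).1 r0
  have g1 := mt (mx_eH hT k G.derivative).2 fun x => (mx_iff.1 x).elim q.ne q.un.not_gt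
  have tr : ∀ u v, Lies (algebraMap F M) u v → Ce y u → Mx u (θ - algebraMap ℂ M c) →
      (∀ f, u.ord (algebraMap F M f) = v.ord f) ∧ kq y u = kq z v := fun u v a b d => by
    have nu := mt (mx_eH b d G.derivative).1 g1
    have e : u.ord (algebraMap F M v.t) = 1 := un F M _ z F.val θ G u v hz ⟨q.ind, q.gen, q.mon,
      q.root, q.ne, Pl.ord_unit _ (eH_mem (ce_fi b) (int_mem' (ce_fi b) q.mon q.root) _)
        (inv_mem_of nu), ce_fi b⟩ a
    refine ⟨fun f => by rw [a.ord, e, one_mul], ?_⟩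
    have := hur hF hM (fun _ => rfl) a hz.ind
    rw [e, Int.cast_one, one_mul, add_left_inj] at this
    rw [kq_fin hM, kq_fin hF]
    exact this
  let I := gI T (MvPolynomial.aeval y : _ →ₐ[ℂ] M).toRingHom (ae_mem q.fi) ⌈l⌉₊
  obtain ⟨S, hS⟩ : I.FG := IsNoetherian.noetherian I
  let J := S.image (MvPolynomial.aeval z)
  have low : ∀ v, Fi z v → ∀ p ∈ I, MvPolynomial.aeval z p ≠ 0 →
      ∃ g ∈ J, g ≠ 0 ∧ v.ord g ≤ v.ord (MvPolynomial.aeval z p) := fun v a p b d => by
    by_contra! x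
    have o := Pl.ord_nonneg_of_mem _ (ae_mem a p)
    have : I ≤ gI v (MvPolynomial.aeval z : _ →ₐ[ℂ] F).toRingHom (ae_mem a)
        ((v.ord (MvPolynomial.aeval z p)).toNat + 1) := hS ▸ Ideal.span_le.2 fun g hg =>
      mem_gI.2 (or_iff_not_imp_left.2 fun g0 => by
        have := x _ (Finset.mem_image_of_mem _ hg) g0
        change _ ≤ v.ord (MvPolynomial.aeval z g)
        omega)
    have : _ ≤ v.ord (MvPolynomial.aeval z p) := (mem_gI.1 (this b)).resolve_left d
    omega
  have low' : ∀ v, Fi z v → ∀ p ∈ I, MvPolynomial.aeval z p ≠ 0 →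
      -(v.ord (MvPolynomial.aeval z p) : ℝ) ≤ mx J v := fun v a p b d => by
    obtain ⟨g, g1, g2, g3⟩ := low v a p b d
    have := Pb.le_mz v g1 g2
    rw [mx]
    exact_mod_cast (by omega : -v.ord (MvPolynomial.aeval z p) ≤ v.mz J)
  have xI : ∀ i, MvPolynomial.X i ^ ⌈l⌉₊ ∈ I := fun i => gI_pow _ _
    (Ideal.pow_mem_pow ((mem_gI (N := 1)).2 (.inr (by simpa using Int.add_one_le_iff.2 (hT i)))) _)
  have x0 : ∀ i, MvPolynomial.aeval z (MvPolynomial.X i ^ ⌈l⌉₊ : MvPolynomial _ ℂ) ≠ 0 :=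
    fun i => by simpa using fun e => absurd e (hz.ind.ne_zero i)
  have att : ∀ v, Fi z v → ∃ p ∈ I, MvPolynomial.aeval z p ≠ 0 ∧
      mx J v = -v.ord (MvPolynomial.aeval z p) := fun v a => by
    obtain ⟨g, g1, g2, g3⟩ := Pb.mz_att v ((low v a _ (xI 0) (x0 0)).imp fun _ x => ⟨x.1, x.2.1⟩)
    obtain ⟨p, p1, rfl⟩ := Finset.mem_image.1 g1
    exact ⟨p, hS ▸ Ideal.subset_span p1, g2, by simp [mx, g3]⟩
  obtain ⟨T', lT⟩ := Pb.down hF hM T
  have cT : Ce z T' := fun i => (lT.ord_pos_iff (z i)).1 (hT i)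
  obtain ⟨i, hi⟩ := s2 F z J s⁻¹ hz ⟨fun f hf => (Finset.mem_image.1 hf).imp fun _ x => x.2.symm,
    fun v a b => by
      obtain ⟨i, hi⟩ := not_forall.1 b
      obtain ⟨p, -, -, e⟩ := att v a
      have := low' v a _ (xI i) (x0 i)
      rw [map_pow, MvPolynomial.aeval_X, Pl.ord_pow,
        le_antisymm (not_lt.1 hi) (Pl.ord_nonneg_of_mem _ (a i))] at this
      refine le_antisymm ?_ (by simpa using this)
      rw [e, neg_nonpos]
      exact_mod_cast Pl.ord_nonneg_of_mem _ (ae_mem a p)⟩ (inv_pos.2 s0).le (fun v hv => by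
    obtain ⟨u, a, b⟩ := exists_over hz q.mon q.root hT k hv
    have cu : Ce y u := fun i => (a.ord_pos_iff (z i)).2 (hv i)
    obtain ⟨A, a1, a2, a3⟩ := hyp u cu fun A => (mx_eH cu b A).trans (mx_eH hT k A).symm
    have mu := eH_mem (ce_fi cu) (int_mem' (ce_fi cu) q.mon q.root)
    have o := Pl.ord_nonneg_of_mem _ (mu A)
    obtain ⟨p, hp⟩ := approx q.root g0 g1 A (⌈l⌉₊ + ((u.ord (eH y θ A)).toNat + 1))
    have sb : ∀ (P : Pl M) h N, Ce y P → Mx P (θ - algebraMap ℂ M c) →
        N ≤ ⌈l⌉₊ + ((u.ord (eH y θ A)).toNat + 1) →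
        (A ∈ gI P (eH y θ) h N ↔ C p ∈ gI P (eH y θ) h N) := fun P h N x w d => by
      have : A - C p ∈ gI P (eH y θ) h N :=
        gI_mono d (mem_gI.2 (by rw [map_sub, eH_C]; exact hp P x w))
      exact ⟨fun x => by simpa using sub_mem x this, fun x => by simpa using add_mem this x⟩
    have p1 : p ∈ I := mem_gI.2 (by
      have := mem_gI.1 ((sb T (eH_mem q.fi m) ⌈l⌉₊ hT k (Nat.le_add_right _ _)).1 (mem_gI.2 (.inr (by
        have := Pl.ord_nonneg_of_mem _ (eH_mem q.fi m A)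
        lift T.ord (eH y θ A) to ℕ using this with r hr
        rw [ey_eq, ← hr] at a2
        exact_mod_cast Nat.ceil_le.2 (by exact_mod_cast a2)))))
      rwa [eH_C] at this)
    have p2 := mt (sb u mu _ cu b (Nat.le_add_left _ _)).2 fun x => by
      have := (mem_gI.1 x).resolve_left a1
      omega
    rw [mem_gI, eH_C, not_or, ← ae, (tr u v a cu b).1, map_eq_zero] at p2
    have p3 := low' v (ce_fi hv) p p1 p2.1
    have p4 : (v.ord (MvPolynomial.aeval z p) : ℝ) ≤ u.ord (ey y θ A) := by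
      exact_mod_cast (by have := p2.2; rw [ey_eq]; omega :
        v.ord (MvPolynomial.aeval z p) ≤ u.ord (ey y θ A))
    rw [(tr u v a cu b).2] at a3
    have := mul_le_mul_of_nonneg_left (show -(s * (kq z v + 1 - ε)) ≤ mx J v by linarith)
      (inv_pos.2 s0).le
    rw [mul_neg, inv_mul_cancel_left₀ s0.ne'] at this
    simp only [psi, Pi.add_apply, Pi.one_apply, Pi.smul_apply, smul_eq_mul]
    linarith) T' cT
  obtain ⟨p, p1, p2, e⟩ := att T' (ce_fi cT)
  have p3 : (⌈l⌉₊ : ℤ) ≤ T.ord (MvPolynomial.aeval y p) :=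
    (mem_gI.1 p1).resolve_left (ae p ▸ (_root_.map_ne_zero (algebraMap F M)).2 p2)
  rw [← ae, (tr T T' lT hT k).1] at p3
  have p4 : l ≤ T'.ord (MvPolynomial.aeval z p) := (Nat.le_ceil l).trans (by exact_mod_cast p3)
  simp only [psi, Pi.add_apply, Pi.one_apply, Pi.smul_apply, smul_eq_mul, e] at hi
  refine ⟨i, ?_⟩
  rw [(tr T T' lT hT k).2, show y i = algebraMap F M (z i) from rfl, (tr T T' lT hT k).1,
    div_eq_inv_mul]
  linarith [mul_le_mul_of_nonneg_left p4 (inv_pos.2 s0).le]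

section more

variable {M M' ι : Type} [Field M] [Algebra ℂ M] [Field M'] [Algebra ℂ M'] {P : Pl M} {y : ι → M}
  {θ : M} {n : ℕ}

theorem eq_ff [Fintype ι] {G : (MvPolynomial ι ℂ)[X]} (q : Eq y θ G P) :
    FF M (Fintype.card ι) := by
  let F := IntermediateField.adjoin ℂ (range y)
  let z : ι → F := fun i => ⟨y i, IntermediateField.subset_adjoin _ _ ⟨i, rfl⟩⟩
  have : FiniteDimensional F M := fin_of (z := z) q.gen q.mon q.root
  exact ff_up (rf_ff (z := z) ⟨.of_comp F.val q.ind, IntermediateField.lift_injective F (by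
    rw [IntermediateField.lift_adjoin, IntermediateField.lift_top, ← range_comp]; rfl)⟩)

theorem ind_sub (h : AlgebraicIndependent ℂ y) (a : ι → ℂ) :
    AlgebraicIndependent ℂ fun i => y i - algebraMap ℂ M (a i) := by
  have := h.polynomial_aeval_of_transcendental (f := fun i => X - C (a i)) fun i =>
    Polynomial.transcendental _ (by simp) (by rw [leadingCoeff_X_sub_C]; exact one_mem _)
  simpa only [map_sub, aeval_X, aeval_C] using this

theorem kap_sub (y : Fin n → M) (a : Fin n → ℂ) :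
    kap (fun i => y i - algebraMap ℂ M (a i)) = kap y := by
  have : ∀ D : Fin n → Derivation ℂ M M,
      P285N.Brep.jac D (fun i => y i - algebraMap ℂ M (a i)) = P285N.Brep.jac D y := fun D => by
    simp [P285N.Brep.jac]
  funext P
  simp only [kap, this]

theorem hor_cl (h : Fi y P) (k : AlgebraicIndependent ℂ fun i => P.rd (y i)) :
    Hor (cl (IntermediateField.adjoin ℂ (range y))) P := fun f hf => by
  have t : ∀ a : IntermediateField.adjoin ℂ (range y), algebraMap _ M a ∈ P.ring := fun a => by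
    obtain ⟨b, c, e⟩ := (IntermediateField.mem_adjoin_range_iff ℂ y a).1 a.2
    change (a : M) ∈ P.ring
    rw [e]
    by_cases c0 : MvPolynomial.aeval y c = 0
    · simp [c0]
    · exact div_eq_mul_inv (MvPolynomial.aeval y b) _ ▸ mul_mem (ae_mem h b) (inv_mem_of fun x =>
        c0 (unit0 h k (by rw [Algebra.adjoin_range_eq_range_aeval]; exact ⟨c, rfl⟩) x))
  obtain ⟨p, hp, hpx⟩ := (mem_algebraicClosure_iff.1 hf).isIntegral
  obtain ⟨a, e⟩ := IsIntegrallyClosed.isIntegral_iff.1 (⟨p.map ((algebraMap _ M).codRestrict _ t),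
    hp.map _, by rw [eval₂_map]; exact hpx⟩ : IsIntegral P.ring f)
  exact e ▸ a.2

theorem kq_hur [Fintype ι] {φ : M →ₐ[ℂ] M'} (hM : FF M (Fintype.card ι))
    (hM' : FF M' (Fintype.card ι)) (h : AlgebraicIndependent ℂ y) {u : Pl M'}
    (l : Lies (φ : M →+* M') u P) :
    kq (fun i => φ (y i)) u + 1 = u.ord (φ P.t) * (kq y P + 1) :=
  hur hM hM' φ.commutes l (h.comp _ (Fintype.equivFin ι).symm.injective)

/-- a simple root -/
theorem simple {σ : Type} {χ : MvPolynomial σ ℂ →+* ℂ} (hχ : Function.Injective χ)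
    {q : (MvPolynomial σ ℂ)[X]} (hq : Irreducible q) {f : M} (hf : f ∈ P.ring)
    (h : 0 < P.ord (aeval f (q.map χ))) : ∃ a : ℂ, Mx P (f - algebraMap ℂ M a) ∧
      P.ord (aeval f (q.map χ)) ≤ P.ord (f - algebraMap ℂ M a) := by
  have rd : ∀ p : ℂ[X], aeval f p ∈ P.ring ∧ P.rd (aeval f p) = aeval (P.rd f) p := fun p => by
    induction p using Polynomial.induction_on with
    | C a => simpa using ⟨P.con a, rd_const a⟩
    | add a b x z => rw [map_add, map_add, rd_add x.1 z.1, x.2, z.2]; exact ⟨add_mem x.1 z.1, rfl⟩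
    | monomial i a x =>
      rw [pow_succ, ← mul_assoc, map_mul, map_mul (aeval (P.rd f)), aeval_X, aeval_X, rd_mul x.1 hf,
        x.2]
      exact ⟨mul_mem x.1 hf, rfl⟩
  have n0 : aeval f (q.map χ) ≠ 0 := fun e => by simp [e] at h
  have z := (rd _).2.symm.trans ((rd_eq_zero (rd _).1).2 (mx_iff.2 (.inr h)))
  obtain ⟨a, e⟩ := exists_res (fun x => n0 (by rw [x, map_zero])) z
  rw [e, aeval_algebraMap_apply, map_eq_zero, coe_aeval_eq_eval] at z
  have d : q.natDegree ≠ 0 := fun x => by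
    rw [eq_C_of_natDegree_eq_zero x, map_C] at z n0
    exact n0 (by rw [eval_C.symm.trans z, map_zero, map_zero])
  let Q := FractionRing (MvPolynomial σ ℂ)
  have sp : (q.map χ).Separable := by
    obtain ⟨μ, e⟩ : ∃ μ : Q →+* ℂ, μ.comp (algebraMap _ Q) = χ :=
      ⟨IsFractionRing.lift hχ, RingHom.ext fun x => by
        rw [RingHom.comp_apply, IsFractionRing.lift_algebraMap]⟩
    rw [← e, ← Polynomial.map_map]
    exact (((hq.isPrimitive d).irreducible_iff_irreducible_map_fraction_map (K := Q)).1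
      hq).separable.map
  obtain ⟨r, hr⟩ := dvd_iff_isRoot.2 z
  have r0 : r.eval a ≠ 0 := fun x => not_isUnit_X_sub_C a (sp.squarefree _
    (hr ▸ mul_dvd_mul_left _ (dvd_iff_isRoot.2 x)))
  have nu : ¬ Mx P (aeval f r) := fun x => r0 (by
    rwa [← rd_eq_zero (rd r).1, (rd r).2, e, aeval_algebraMap_apply, map_eq_zero] at x)
  refine ⟨a, (rd_eq_zero (sub_mem hf (P.con a))).1 (by
    rw [rd_sub hf (P.con a), rd_const, e, sub_self]), ?_⟩
  rw [hr, map_mul, map_sub, aeval_X, aeval_C] at n0 ⊢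
  rw [Pl.ord_mul _ (left_ne_zero_of_mul n0) (right_ne_zero_of_mul n0),
    Pl.ord_unit _ (rd r).1 (inv_mem_of nu), add_zero]

end more

end Vale.Agent.P283B.Ls.Ea

namespace Vale.Agent.P283B.Ls

open P287D Wp Cb Mb Ea

/-- **SETA** -/
theorem seta : SETA := fun s2 un n ε e0 => by
  classical
  obtain ⟨τ, t0, h0⟩ := eta0 s2 un n e0
  refine ⟨τ, t0, fun L M σ _ _ _ _ _ z φ θ G T q l s hz hE hx hq s0 hyp => ?_⟩
  have hL := rf_ff hz
  have hM := eq_ff hE
  have lin := φ.commutes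
  have dn : ∀ u : Pl M, ∃ v, Lies (φ : L →+* M) u v := fun u =>
    ((hM.ok φ) u).resolve_left fun t => by
      let _ : Algebra L M := φ.toRingHom.toAlgebra
      have : IsScalarTower ℂ L M := .of_algebraMap_eq fun c => (lin c).symm
      have := Pb.fin_of_ff hL hM
      exact Pb.not_trv u t
  set Z := fun i => φ (z i) with hZ
  let A := IntermediateField.adjoin ℂ (range fun b => Z (.inl b))
  obtain ⟨M', _, _, ψ, g⟩ := gen_ex _ M hM (cl A) (Gf.cld_cl A)
  obtain ⟨r, -, h1⟩ := Gm.ff_sub hM (cl A)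
  obtain ⟨T', lT⟩ := g.above h1 (hor_cl (fun b => hE.fi _) hx)
  have xA : ∀ b, Z (.inl b) ∈ cl A := fun b => (algebraicClosure A M).algebraMap_mem
    ⟨_, IntermediateField.subset_adjoin _ _ ⟨b, rfl⟩⟩
  let j := g.toExt.j.comp (algebraMap ℂ (cl A))
  have hj : ∀ c, algebraMap ℂ M' (j c) = ψ (algebraMap ℂ M c) := fun c => g.toExt.j_spec _
  let x := fun b => g.toExt.j ⟨_, xA b⟩
  have hx' : ∀ b, algebraMap ℂ M' (x b) = ψ (Z (.inl b)) := fun b => g.toExt.j_spec _
  let χ₀ := MvPolynomial.eval₂Hom j x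
  have c0 : (algebraMap ℂ M').comp χ₀ = ψ.comp
      (MvPolynomial.aeval fun b => Z (.inl b) : MvPolynomial σ ℂ →ₐ[ℂ] M) := by
    ext <;> simp [χ₀, hj, hx']
  have i0 : Function.Injective χ₀ := .of_comp (f := algebraMap ℂ M') (by
    rw [← RingHom.coe_comp, c0]
    exact ψ.injective.comp (hE.ind.comp _ Sum.inl_injective))
  have e1 : ∀ i, aeval (ψ (Z (.inr i))) ((q i).map χ₀) =
      ψ (ey (fun b => Z (.inl b)) (Z (.inr i)) (q i)) := fun i => by
    rw [aeval_def, eval₂_map, c0, ey, hom_eval₂]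
  choose a a1 a2 using fun i => simple i0 (hq i).1 ((lT _).1 (hE.fi (.inr i)))
    (by rw [e1, g.ord_eq lT]; exact (hq i).2)
  let y := fun i => ψ (Z (.inr i)) - algebraMap ℂ M' (a i)
  have iy : AlgebraicIndependent ℂ y := ind_sub (Pb.dis_alg g.toExt (v := fun i => Z (.inr i))
    (AlgebraicIndependent.algebraicClosure (IntermediateField.algebraicIndependent_adjoin_iff.2
      (AlgebraicIndependent.sumElim_iff.1 (by
        convert hE.ind.comp _ (Equiv.sumComm _ _).injective using 1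
        funext i; rcases i with i | i <;> rfl)).2))) a
  let χ : MvPolynomial (σ ⊕ Fin (n + 1)) ℂ →+* MvPolynomial (Fin (n + 1)) ℂ :=
    MvPolynomial.eval₂Hom (MvPolynomial.C.comp j)
      (Sum.elim (fun b => MvPolynomial.C (x b)) fun i => MvPolynomial.X i + MvPolynomial.C (a i))
  have c1 : RingHom.comp (MvPolynomial.aeval y : MvPolynomial _ ℂ →ₐ[ℂ] M') χ =
      ψ.comp (MvPolynomial.aeval Z : MvPolynomial _ ℂ →ₐ[ℂ] M) := by
    ext i
    · simp [χ, hj]
    · rcases i with i | i <;> simp [χ, hx', y]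
  have e2 : ∀ B, ey y (ψ θ) (B.map χ) = ψ (ey Z θ B) := fun B => by
    rw [ey, eval₂_map, c1, ey, hom_eval₂]
  have cT : Ce y T' := fun i => (mx_iff.1 (a1 i)).resolve_left (iy.ne_zero i)
  have q' : Eq y (ψ θ) (G.map χ) T' := by
    refine ⟨iy, eq_top_iff.2 fun f _ => ?_, hE.mon.map _, by rw [e2, hE.root, map_zero],
      by rw [derivative_map, e2]; exact (_root_.map_ne_zero ψ).2 hE.ne,
      by rw [derivative_map, e2, g.ord_eq lT, hE.un], ce_fi cT⟩
    set N := IntermediateField.adjoin ℂ (insert (ψ θ) (range y))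
    refine (Subfield.closure_le (t := N.toSubfield)).2 (union_subset (range_subset_iff.2 fun b =>
      (Subfield.closure_le (t := N.toSubfield.comap ψ)).2 (union_subset
        (range_subset_iff.2 fun c => ?_) (insert_subset ?_ (range_subset_iff.2 ?_)))
        (show b ∈ IntermediateField.adjoin ℂ (insert θ (range Z)) from hE.gen ▸ trivial))
      (range_subset_iff.2 N.algebraMap_mem)) (g.gen ▸ Subfield.mem_top f)
    · exact show ψ _ ∈ N from hj c ▸ N.algebraMap_mem (j c)
    · exact IntermediateField.subset_adjoin _ _ (mem_insert _ _)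
    · rintro (b | i)
      · exact show ψ _ ∈ N from hx' b ▸ N.algebraMap_mem (x b)
      · have := add_mem (IntermediateField.subset_adjoin ℂ _ (mem_insert_of_mem (ψ θ) ⟨i, rfl⟩) :
          y i ∈ N) (N.algebraMap_mem (a i))
        simpa [y] using this
  have hM' : FF M' (n + 1) := by simpa using eq_ff q'
  have kk : ∀ u' u, Lies ψ u' u → kq y u' = kq Z u := fun u' u b => by
    let e := (Fintype.equivFin σ).symm
    have hM₁ : FF M (n + 1 + Fintype.card σ) := by simpa [add_comm] using hM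
    let E : Fin (n + 1 + Fintype.card σ) ≃ σ ⊕ Fin (n + 1) :=
      finSumFinEquiv.symm.trans ((Equiv.sumComm _ _).trans (e.sumCongr (.refl _)))
    have eE : Z ∘ E = Fin.append (fun i => Z (.inr i)) fun b => Z (.inl (e b)) := funext fun i => by
      refine Fin.addCases (fun i => ?_) (fun i => ?_) i <;> simp [E]
    have al := alg_of_gf g
    have := rel_eq hM₁ hM' (fun c => ⟨_, hj c⟩) al.alc b (al.sp b) (fun c => ⟨_, hx' (e c)⟩)
      (eE ▸ hE.ind.comp _ E.injective)
    rw [g.e_one b, Int.cast_one, one_mul, add_left_inj] at this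
    rw [kq_fin hM', kap_sub, this, kq_eq hM₁ E, eE]
  obtain ⟨i, hi⟩ := h0 M' y (ψ θ) (G.map χ) T' l s q' cT s0 fun u' cu sm => by
    obtain ⟨u, lu⟩ := g.below hM' u'
    obtain ⟨v, lv⟩ := dn u
    have fi : Fi Z u := fun i => (lu _).2 (by
      rcases i with b | i
      · exact hx' b ▸ u'.con _
      · simpa [y] using add_mem (ce_fi cu i) (u'.con (a i)))
    obtain ⟨B, b1, b2, b3⟩ := hyp u v lv fi fun B => by
      have := sm (B.map χ)
      rw [e2, mx_iff, mx_iff, g.ord_eq lu, g.ord_eq lT, map_eq_zero] at this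
      by_cases x : ey Z θ B = 0
      · simp [x]
      · simpa [x] using this
    refine ⟨B.map χ, by rw [e2]; exact (_root_.map_ne_zero ψ).2 b1, by rwa [e2, g.ord_eq lT], ?_⟩
    rw [e2, g.ord_eq lu, kk u' u lu, kq_hur hL hM hz.ind lv]
    have k0 := kq_nonneg hL rfl (y := z) (P := v) fun i => (lv _).2 (fi i)
    have k1 : (1 : ℝ) ≤ u.ord (φ v.t) := by exact_mod_cast lv.e_pos
    exact b3.trans (mul_le_mul_of_nonneg_left (by nlinarith) s0.le)
  obtain ⟨v, lv⟩ := dn T
  refine ⟨i, ?_⟩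
  rw [kk T' T lT, kq_hur hL hM hz.ind lv] at hi
  have := a2 i
  rw [e1, g.ord_eq lT] at this
  rw [lv.pb]
  exact (mul_le_mul_of_nonneg_left (Int.cast_le.2 this) t0.le).trans hi

end Vale.Agent.P283B.Ls
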