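import Vale.Agent.P283B.LS.BriA
import Vale.Agent.P283B.MONO.Br

/-!
# P283B, block LS: from places of the affine space to the tower of discs (leaf BRI)
-/

set_option linter.unusedVariables false
set_option linter.unusedSectionVars false

open Set Function MvPolynomial
open Vale.Agent.P297Z

noncomputable section

namespace Vale.Agent.P283B.Bi

open P287D P287D.Cb Wp Ls Mono Mb

section lev

variable {L K Ω σ : Type} [Field L] [Field K] [Field Ω] [Algebra ℂ L] [Algebra ℂ K] [Algebra ℂ Ω]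
  [Algebra L K] [Algebra L Ω] [Algebra K Ω] [IsScalarTower ℂ L K] [IsScalarTower ℂ K Ω]
  [IsScalarTower L K Ω] [Algebra.IsAlgebraic K Ω] [IsAlgClosed Ω] {w : AbsoluteValue Ω ℝ}
  {P : Pl K} {Q : Pl L} {e m : ℕ} [Fintype σ]

theorem bs_cl (L Ω : Type) [Field L] [Field Ω] [Algebra L Ω] : Mono.Cl (bs L Ω) := fun x hx => by
  have h : IsAlgebraic (algebraicClosure L Ω) x := hx
  exact mem_algebraicClosure_iff.2 (h.restrictScalars _)

theorem bs_le {L Ω : Type} [Field L] [Field Ω] [Algebra L Ω] {M : Subfield Ω} (h : Mono.Cl M)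
    (k : ∀ a, algebraMap L Ω a ∈ M) : bs L Ω ≤ M := fun _ hx =>
  h _ (alg_of M L (fun a => isAlgebraic_algebraMap (⟨_, k a⟩ : M)) (mem_algebraicClosure_iff.1 hx))

theorem vl_of {F : Type} [Field F] [Algebra ℂ F] {φ : F →+* Ω} {R : Pl F} (h : Pw w φ R) :
    0 < vl w (φ R.t) ∧ ∀ f, vl w (φ f) = vl w (φ R.t) * R.ord f := by
  obtain ⟨c, c0, hc⟩ := h.log
  simp [vl, hc, R.ord_t, c0]

/-- the log discrepancy is the sum of the radii and of the log discrepancy of the base -/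
theorem lev0 (hK : FF K (e + (m + 1))) (hL : FF L (m + 1)) (hw : IsNonarchimedean w)
    (hP : Pw w (algebraMap K Ω) P) (l : Lies (algebraMap L K) P Q) {z : σ → L}
    (hz : AlgebraicIndependent ℂ z) (cz : Fintype.card σ = m + 1) {x : Fin e → K}
    (hx : AlgebraicIndependent L x) {u γ : Fin e → Ω} (hu : Tw w (bs L Ω) u)
    (ht : Tri (bs L Ω) u (fun j => algebraMap K Ω (x j)) γ) :
    vl w (algebraMap K Ω P.t) * (kq (Sum.elim (algebraMap L K ∘ z) x) P + 1) =
      ∑ j, vl w (γ j) + vl w (algebraMap K Ω P.t) * pb (algebraMap L K) (kq z + 1) P := by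
  obtain ⟨a, ad⟩ := exists_ada hL Q
  obtain ⟨R, a1, -, c, -, a2, a3⟩ :=
    br hK hL hw hP l ad hu (IsScalarTower.toAlgHom L K Ω) hx ht
  obtain rfl : R = P := Pb.pl_ext (ValuationSubring.ext _ _ fun f => (a1 f).trans (hP f).symm)
  have e1 : vl w (algebraMap K Ω R.t) = c := by
    have := a2 R.t
    rw [R.ord_t, Int.cast_one, mul_one] at this
    exact neg_eq_iff_eq_neg.2 this
  let b : Fin (e + (m + 1)) ≃ Fin (m + 1) ⊕ Fin e := finSumFinEquiv.symm.trans (.sumComm _ _)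
  have e2 : Sum.elim (algebraMap L K ∘ bq Q a) x ∘ b = co x (bq Q a) := funext fun i => by
    refine Fin.addCases (fun i => ?_) (fun i => ?_) i <;> simp [b, co_l, co_r]
  have e3 := congrFun (kq_chg hL hK (lin L K) cz (Fintype.card_fin _) (by simp [add_comm])
    hz ad.indep ((algebraicIndependent_equiv' b e2).1 (co_ind hx ad.indep))) R
  have e4 := kap_ada hL (P := Q) (a := Q.t) (by rw [Q.ord_t]; omega) ad.mem ad.ind
  rw [kq_eq hK b (Sum.elim (algebraMap L K ∘ _) x), kq_fin hL] at e3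
  erw [e2] at e3
  rw [Q.ord_t, Int.cast_one, add_eq_right] at e4
  simp only [Pi.add_apply, l.pb, Pi.sub_apply, e4, Pi.one_apply] at e3 ⊢
  rw [e1, e3, show ∑ j, vl w (γ j) = c * lA Q a x R by
    rw [← neg_inj, ← neg_mul, ← a3, ← Finset.sum_neg_distrib]; simp [vl], lA]
  ring

end lev

section tow

variable {F Ω : Type} [Field F] [Algebra ℂ F] [Field Ω] [Algebra ℂ Ω] {n c : ℕ}
  {w : AbsoluteValue Ω ℝ} {E : Subfield Ω} {t : Ω} {u x γ : Fin n → Ω} {T : F} {y : Fin n → F}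

/-- the coordinates -/
abbrev oo {F : Type} (T : F) (y : Fin n → F) : Option (Fin n) → F := fun o => o.elim T y

/-- the indices of the base -/
abbrev Ix (n c : ℕ) := Option {j : Fin n // c ≤ j.1}

/-- the base and the fibre -/
def sp (h : c ≤ n) : Ix n c ⊕ Fin c ≃ Option (Fin n) where
  toFun := Sum.elim (Option.map Subtype.val) fun i => some (Fin.castLE h i)
  invFun o := o.elim (.inl none) fun j =>
    if k : c ≤ j.1 then .inl (some ⟨j, k⟩) else .inr ⟨j, not_le.1 k⟩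
  left_inv := by
    rintro ((_ | ⟨j, k⟩) | i)
    · rfl
    · simp [k]
    · simp [i.2]
  right_inv := by
    rintro (_ | j)
    · rfl
    · by_cases k : c ≤ j.1 <;> simp [k]

/-- the field of the base -/
def Lc (c : ℕ) (T : F) (y : Fin n → F) : IntermediateField ℂ F :=
  IntermediateField.adjoin ℂ (range fun b : Ix n c => oo T y (b.map Subtype.val))

/-- the coordinates of the base -/
def zc (c : ℕ) (T : F) (y : Fin n → F) : Ix n c → Lc c T y := fun b =>
  ⟨oo T y (b.map Subtype.val), IntermediateField.subset_adjoin _ _ ⟨b, rfl⟩⟩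

theorem lc_eq : Lc c T y = IntermediateField.adjoin ℂ (insert T (y '' {j | c ≤ j.1})) := by
  rw [Lc]
  congr 1
  ext f
  simp [Option.exists, eq_comm]

theorem rf_zc (h : Rf (oo T y)) : Rf (zc c T y) :=
  rf_adj (h.ind.comp _ (Option.map_injective Subtype.val_injective))

theorem ev_opt (p : MvPolynomial (Option (Fin n)) ℂ) :
    Ls.ev t x (optionEquivRight ℂ (Fin n) p) = aeval (oo t x) p := by
  induction p using MvPolynomial.induction_on with
  | C a => simp [Ls.ev]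
  | add p q hp hq => simp only [map_add, hp, hq]
  | mul_X p i hp =>
    rw [map_mul, map_mul, hp, map_mul]
    rcases i with _ | i <;> simp [Ls.ev]

theorem sub_lv (h : c ≤ n) (ht : Tri E u x γ) (j : Fin c) :
    Lv (acl E (x '' {j | c ≤ j.1})) (u ∘ Fin.castLE h) j = Lv E u (Fin.castLE h j) := by
  refine le_antisymm (acl_le (lv_cl _ _) (acl_le (lv_cl _ _) (le_lv _ _) ?_) ?_)
    (acl_le (lv_cl _ _) ((le_acl _ _).trans (le_lv _ _)) ?_)
  · rintro _ ⟨i, hi, rfl⟩
    rw [← ht.lv]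
    exact sub_acl _ _ ⟨i, j.2.trans_le hi, rfl⟩
  · rintro _ ⟨i, hi, rfl⟩
    exact sub_acl _ _ ⟨_, hi, rfl⟩
  · rintro _ ⟨i, hi, rfl⟩
    by_cases k : c ≤ i.1
    · refine le_lv _ _ ?_
      have m := ht.cen i
      rw [← ht.lv] at m
      have := div_mem (sub_mem (sub_acl E (x '' {j | c ≤ j.1}) ⟨i, k, rfl⟩)
        (acl_le (acl_cl E _) (le_acl _ _) (by
          rintro _ ⟨l, hl, rfl⟩
          exact sub_acl _ _ ⟨l, k.trans (le_of_lt hl), rfl⟩) m)) (le_acl _ _ (ht.mem i))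
      rwa [sub_sub_cancel, mul_div_cancel_left₀ _ (ht.ne i)] at this
    · exact sub_acl _ _ ⟨⟨i, not_le.1 k⟩, hi, rfl⟩

/-- the field of values of a place -/
structure Su (w : AbsoluteValue Ω ℝ) (E : Subfield Ω) (t : Ω) (u : Fin n → Ω) (T : F)
    (y : Fin n → F) : Prop where
  se : Se w E t u
  rf : Rf (oo T y)
  tr : Transcendental ℂ t
  min : ∀ M : Subfield Ω, Mono.Cl M → (∀ a, algebraMap ℂ Ω a ∈ M) → t ∈ M → E ≤ M
  top : ∀ z, z ∈ acl E (range u)
  pl : ∀ (τ : F →ₐ[ℂ] Ω) (γ : Fin n → Ω), τ T = t → Tri E u (fun j => τ (y j)) γ →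
    ∃ R : Pl F, Pw w (τ : F →+* Ω) R

/-- the point `x` is the place `R` -/
structure Rl (w : AbsoluteValue Ω ℝ) (t : Ω) (T : F) (y : Fin n → F) (x : Fin n → Ω)
    (τ : F →ₐ[ℂ] Ω) (R : Pl F) : Prop where
  t : τ T = t
  x : ∀ j, τ (y j) = x j
  pw : Pw w (τ : F →+* Ω) R

variable {τ : F →ₐ[ℂ] Ω} {R : Pl F}

theorem Rl.oo (h : Rl w t T y x τ R) (o : Option (Fin n)) : τ (oo T y o) = oo t x o := by
  rcases o with _ | j
  exacts [h.t, h.x j]

theorem Rl.aev (h : Rl w t T y x τ R) (p : MvPolynomial (Option (Fin n)) ℂ) :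
    τ (aeval (Bi.oo T y) p) = aeval (Bi.oo t x) p := by
  rw [← AlgHom.comp_apply, comp_aeval, funext h.oo]

open Classical in
/-- the function `β` at the point `x` -/
def Ps (w : AbsoluteValue Ω ℝ) (t : Ω) (T : F) (y : Fin n → F) (β : BD F) (x : Fin n → Ω) : ℝ :=
  if h : ∃ q : (F →ₐ[ℂ] Ω) × Pl F, Rl w t T y x q.1 q.2 then
    vl w (h.choose.1 h.choose.2.t) * β h.choose.2 else 0

theorem Rl.ps (h : Rl w t T y x τ R) (hy : Rf (Bi.oo T y)) (β : BD F) :
    Ps w t T y β x = vl w (τ R.t) * β R := by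
  have k : ∃ q : (F →ₐ[ℂ] Ω) × Pl F, Rl w t T y x q.1 q.2 := ⟨(τ, R), h⟩
  have a := k.choose_spec
  have e1 : k.choose.1 = τ := rf_ext hy fun o => (a.oo o).trans (h.oo o).symm
  have e2 : k.choose.2 = R := Pb.pl_ext (ValuationSubring.ext _ _ fun f =>
    (a.pw f).trans (by rw [e1]; exact (h.pw f).symm))
  rw [Ps, dif_pos k, e1, e2]

variable [IsAlgClosed Ω] (S : Su w E t u T y)

include S

theorem Su.rl (ht : Tri E u x γ) : ∃ τ R, Rl w t T y x τ R := by
  obtain ⟨τ, h⟩ := rf_hom S.rf (x := oo t x) (algebraicIndependent_iff.2 fun p hp => by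
    by_contra p0
    refine ht.ev_ne (Polynomial.aeval t : Polynomial ℂ →ₐ[ℂ] Ω).toRingHom (fun a => ?_)
      (transcendental_iff_injective.1 S.tr) S.se.tw
      ((map_ne_zero_iff _ (optionEquivRight ℂ (Fin n)).injective).2 p0) ((ev_opt p).trans hp)
    induction a using Polynomial.induction_on' with
    | add p q hp hq => simpa using add_mem hp hq
    | monomial k a => simpa using mul_mem (S.se.cE a) (pow_mem S.se.tE k))
  have hx : ∀ j, τ (y j) = x j := fun j => h (some j)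
  obtain ⟨R, hR⟩ := S.pl τ γ (h none) (funext hx ▸ ht)
  exact ⟨τ, R, h none, hx, hR⟩

theorem Su.ce (h : Rl w t T y x τ R) (o : Op w x) : Ce (oo T y) R := fun i =>
  (mx_iff.1 (h.pw.mx (show w (τ _) < 1 by
    rw [h.oo]; rcases i with _ | j; exacts [S.se.t1, o j]))).resolve_left (S.rf.ind.ne_zero i)

theorem Su.pos (h : Rl w t T y x τ R) : 0 < R.ord T :=
  (mx_iff.1 (h.pw.mx (show w (τ T) < 1 from h.t ▸ S.se.t1))).resolve_left (S.rf.ind.ne_zero none)

theorem Su.nt (h : Rl w t T y x τ R) : ¬ Trv ((Lc c T y).val : Lc c T y →+* F) R := fun k =>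
  (S.pos h).ne' (k.ord (zc c T y none))

theorem Su.lies (h : Rl w t T y x τ R) : ∃ v, Lies ((Lc c T y).val : Lc c T y →+* F) R v :=
  ((rf_ff S.rf rfl).ok (Lc c T y).val R).resolve_left (S.nt h)

theorem Su.lev1 (hc : c ≤ n) (ht : Tri E u x γ) (h : Rl w t T y x τ R) :
    vl w (τ R.t) * (kq (oo T y) R + 1) = ∑ j : Fin c, vl w (γ (Fin.castLE hc j)) +
      vl w (τ R.t) * pb ((Lc c T y).val : Lc c T y →+* F) (kq (zc c T y) + 1) R := by
  let _ : Algebra F Ω := (τ : F →+* Ω).toAlgebra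
  have : IsScalarTower ℂ F Ω := .of_algebraMap_eq fun a => (τ.commutes a).symm
  have : Algebra.IsAlgebraic F Ω := ⟨fun a => mem_algebraicClosure_iff.1 (acl_le (bs_cl F Ω)
    (S.min _ (bs_cl F Ω) (fun a => τ.commutes a ▸ base_mem _) (h.t ▸ base_mem T))
    (by rintro _ ⟨j, rfl⟩; exact h.x j ▸ base_mem (y j)) (ht.acl.ge (S.top a)))⟩
  have e : bs (Lc c T y) Ω = acl E (x '' {j | c ≤ j.1}) := by
    refine le_antisymm (bs_le (acl_cl _ _) fun a => ?_) (acl_le (bs_cl _ _) (S.min _ (bs_cl _ _)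
      (fun a => τ.commutes a ▸ base_mem (algebraMap ℂ (Lc c T y) a))
      (h.t ▸ base_mem (zc c T y none))) ?_)
    · refine (Subfield.mem_comap (f := (τ : F →+* Ω))).1 (Subfield.closure_le.2 ?_ a.2)
      rintro _ (⟨b, rfl⟩ | ⟨_ | ⟨j, k⟩, rfl⟩)
      · exact Subfield.mem_comap.2 (le_acl _ _ (by simpa using S.se.cE b))
      · exact Subfield.mem_comap.2 (le_acl _ _ (by simpa [h.t] using S.se.tE))
      · exact Subfield.mem_comap.2 (sub_acl _ _ ⟨j, k, (h.x j).symm⟩)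
    · rintro _ ⟨j, k, rfl⟩
      exact h.x j ▸ base_mem (zc c T y (some ⟨j, k⟩))
  obtain ⟨v, l⟩ := S.lies (c := c) h
  have cz : Fintype.card (Ix n c) = Fintype.card {j : Fin n // c ≤ j.1} + 1 := Fintype.card_option
  have cs : Fintype.card (Option (Fin n)) = c + (Fintype.card {j : Fin n // c ≤ j.1} + 1) := by
    rw [← Fintype.card_congr (sp hc), Fintype.card_sum, cz, Fintype.card_fin, add_comm]
  have hF := rf_ff S.rf cs
  have hL := rf_ff (rf_zc (c := c) S.rf) cz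
  have e1 : Sum.elim (algebraMap (Lc c T y) F ∘ zc c T y) (y ∘ Fin.castLE hc) = oo T y ∘ sp hc :=
    funext (by rintro (i | i) <;> rfl)
  have := lev0 hF hL S.se.vs.na h.pw l (rf_zc S.rf).ind cz (x := y ∘ Fin.castLE hc)
    (indL hL hF (Fintype.card_fin _) cz (z := zc c T y) ((algebraicIndependent_equiv'
      (Equiv.sumComm _ _) (by funext i; rcases i with i | i <;> rfl)).2 (rf_co S.rf (sp hc)).ind))
    (u := u ∘ Fin.castLE hc) (γ := γ ∘ Fin.castLE hc)
    (fun j => by rw [e, sub_lv hc ht]; exact S.se.tw _)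
    ⟨fun j => e ▸ le_acl _ _ (ht.mem _), fun j => ht.ne _, fun j => by
      rw [e, sub_lv hc ht]
      exact (congrArg (· - _ ∈ _) (h.x _)).mpr (ht.cen _)⟩
  rwa [e1, (rf_co S.rf (sp hc)).kq] at this

theorem Su.lev0 (ht : Tri E u x γ) (h : Rl w t T y x τ R) :
    vl w (τ R.t) * (kq (oo T y) R + 1) = aa w t 0 γ := by
  obtain ⟨v, l⟩ := S.lies (c := n) h
  have : IsEmpty {j : Fin n // n ≤ j.1} := ⟨fun j => j.1.2.not_ge j.2⟩
  have p : 0 < v.ord (zc n T y none) := by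
    have := S.pos h
    rw [show R.ord T = _ from l.ord (zc n T y none)] at this
    exact (mul_pos_iff_of_pos_left l.e_pos).1 this
  rw [S.lev1 le_rfl ht h, pb_ap (.inr ⟨v, l, ap_of (rf_ff (rf_zc S.rf) rfl) rfl (.refl _) p
    isEmptyElim (algebraicIndependent_empty_type)⟩), Fintype.sum_option,
    Fintype.sum_empty (ι := {j : Fin n // n ≤ j.1}), add_zero, aa, add_comm, ← h.t]
  simpa [zc] using ((vl_of h.pw).2 T).symm

theorem Su.lev (hc : c ≤ n) (ht : Tri E u x γ) (h : Rl w t T y x τ R) :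
    vl w (τ R.t) * pb ((Lc c T y).val : Lc c T y →+* F) (kq (zc c T y) + 1) R = aa w t c γ := by
  have e := (S.lev1 hc ht h).symm.trans (S.lev0 ht h)
  have s : ∑ j : Fin c, vl w (γ (Fin.castLE hc j)) =
      ∑ j ∈ Finset.univ.filter fun j : Fin n => ¬ c ≤ j.1, vl w (γ j) :=
    Finset.sum_bij (fun j _ => Fin.castLE hc j) (by simp) (by simp)
      (fun j hj => ⟨⟨j, by simpa using hj⟩, by simp, rfl⟩) fun _ _ => rfl
  have := Finset.sum_filter_add_sum_filter_not Finset.univ (fun j : Fin n => c ≤ j.1)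
    fun j => vl w (γ j)
  simp only [aa, zero_le, Finset.filter_true] at e ⊢
  linarith

theorem Su.bg (hG : BERG) (hR : REAL) {J : Finset F} {a ε : ℝ} (hJ : Id (oo T y) J) (a0 : 0 ≤ a)
    (ε0 : 0 < ε) (h1 : ∀ P, Ce (oo T y) P → ε ≤ psi (oo T y) J a P)
    (h2 : ∀ P j, Ce (oo T y) P →
      ∑ i, (P.ord (oo T y i) : ℝ) - (n + 1) * P.ord (y j) ≤ psi (oo T y) J a P) :
    Bg w E t u (Ps w t T y (psi (oo T y) J a)) ε := by
  refine ⟨fun x γ p => ?_, fun x γ p => ?_, fun x γ j p => ?_, fun x γ g p g0 H => ?_,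
    fun c s η γ φ s0 p φ0 H x o e => ?_⟩ <;> obtain ⟨τ, R, h⟩ := S.rl p.tri <;>
    obtain ⟨k0, k⟩ := vl_of h.pw
  · rw [h.ps S.rf]
    exact mul_nonneg k0.le (ε0.le.trans (h1 R (S.ce h p.op)))
  · rw [h.ps S.rf, ← S.lev0 p.tri h]
    exact mul_le_mul_of_nonneg_left (add_le_of_nonpos_right
      (mul_nonpos_of_nonneg_of_nonpos a0 (id_le hJ (ce_fi (S.ce h p.op))))) k0.le
  · have := mul_le_mul_of_nonneg_left (h2 R j (S.ce h p.op)) k0.le
    rw [Fintype.sum_option, mul_sub, mul_add, Finset.mul_sum, mul_left_comm] at this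
    rw [h.ps S.rf, ← h.t, ← funext h.x]
    simp only [← k] at this
    exact this
  · obtain ⟨b, d, e⟩ := rf_div S.rf R.t
    obtain ⟨b0, d0⟩ := div_ne_zero_iff.1 (e ▸ R.t_ne)
    have ne : ∀ b, aeval (oo T y) b ≠ 0 → optionEquivRight ℂ (Fin n) b ≠ 0 := fun b h z =>
      h (by rw [(map_eq_zero_iff _ (AlgEquiv.injective _)).1 z, map_zero])
    obtain ⟨z₁, e₁⟩ := H _ (ne b b0)
    obtain ⟨z₂, e₂⟩ := H _ (ne d d0)
    rw [ev_opt, ← h.aev] at e₁ e₂
    have e₃ : vl w (τ R.t) = (z₁ - z₂ : ℤ) * g := by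
      have := congrArg (fun i : ℤ => vl w (τ R.t) * i) (congrArg R.ord e)
      simp only [R.ord_t, Pl.ord_div _ b0 d0, Int.cast_sub, mul_sub, Int.cast_one, mul_one] at this
      rw [this, Int.cast_sub, sub_mul, ← e₁, ← e₂]
      exact congrArg₂ _ (k _).symm (k _).symm
    have e₄ : (1 : ℝ) ≤ (z₁ - z₂ : ℤ) := by
      exact_mod_cast (Int.cast_pos (R := ℝ)).1 ((mul_pos_iff_of_pos_right g0).1 (e₃ ▸ k0))
    rw [h.ps S.rf, mul_comm]
    exact mul_le_mul (e₃ ▸ le_mul_of_one_le_left g0.le e₄) (h1 R (S.ce h p.op)) ε0.le k0.le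
  obtain ⟨v, l⟩ := S.lies (c := c) h
  have hc := c.2.le
  have C := rf_co S.rf (sp hc)
  have hv := h.pw.of l
  obtain ⟨m0, -⟩ := vl_of hv
  set μ := vl w (((τ : F →+* Ω).comp ((Lc c T y).val : Lc c T y →+* F)) v.t) with hμ
  have ea : aa w t c γ = μ * (kq (zc c T y) + 1 : BD _) v := by
    rw [← S.lev hc p.tri h, l.pb, ← mul_assoc]
    exact congrArg (· * _) (k _).symm
  obtain ⟨g, g1, g2⟩ := hG _ F _ _ (zc c T y) (oo T y ∘ sp hc) (Lc c T y).val J a s ⌊s * φ / μ⌋₊ v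
    (rf_zc S.rf) (C.rf S.rf) (fun _ => rfl) (C.id S.rf hJ) a0 s0
    (fun b => (l _).2 (ce_fi (S.ce h p.op) _)) (fun P lP oP => by
      obtain ⟨τ', γ', b1, b2, b3, b4⟩ := hR n Ω w E t u S.se F y T c γ τ P S.rf
        (funext h.x ▸ p.tri) h.t fun f hf => ((lP ⟨f, lc_eq.ge hf⟩).symm.trans (hv _))
      have h' : Rl w t T y (fun j => τ' (y j)) τ' P := ⟨b1, fun _ => rfl, b4⟩
      obtain ⟨q0, q⟩ := vl_of b4
      have e1 : τ'.comp (Lc c T y).val = τ.comp (Lc c T y).val := rf_ext (rf_zc S.rf) (by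
        rintro (_ | ⟨j, k⟩)
        exacts [b1.trans h.t.symm, b2 j k])
      have e2 : vl w (τ' P.t) * P.ord ((Lc c T y).val v.t) = μ :=
        (q _).symm.trans (congrArg (vl w) (AlgHom.congr_fun e1 v.t))
      have e3 := H _ γ' ⟨b3, fun j => by
        by_cases k : c.1 ≤ j.1
        · rw [b2 j k, h.x]
          exact p.op j
        · exact Pw.lt b4 (mx_iff.2 (.inr (oP ⟨j, not_le.1 k⟩)))⟩ fun j k => (b2 j k).trans (h.x j)
      rw [h'.ps S.rf, ea, ← e2] at e3
      have e4 := (div_lt_iff₀ m0).1 (Nat.lt_floor_add_one (s * φ / μ))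
      rw [C.psi, lP.pb]
      refine lt_of_mul_lt_mul_left ?_ q0.le
      have e5 := mul_le_mul_of_nonneg_left e3 (Nat.cast_nonneg (α := ℝ) s)
      nth_rewrite 2 [← e2] at e4
      change vl w (τ' P.t) * _ < vl w (τ' P.t) * _
      simp only [RingHom.coe_coe]
      linarith) Ω w (τ.comp (Lc c T y).val) (oo t x ∘ sp hc) S.se.vs.na hv (by
      rintro (_ | ⟨j, k⟩)
      exacts [h.t.symm, (e j k).trans (h.x j).symm]) fun i => by
      rw [comp_apply]
      rcases sp hc i with _ | j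
      exacts [S.se.t1.le, (o j).le]
  refine ⟨optionEquivRight ℂ (Fin n) (rename (sp hc) g), fun x' γ' p' => ?_, ?_⟩
  · obtain ⟨τ', R', h'⟩ := S.rl p'.tri
    obtain ⟨q0, q⟩ := vl_of h'.pw
    rw [ev_opt, ← h'.aev, aeval_rename]
    by_cases z : aeval (oo T y ∘ sp hc) g = 0
    · rw [z, map_zero, map_zero]
      exact (Real.exp_pos _).le
    have := mul_le_mul_of_nonneg_left
      (g1 R' (C.fi.2 (ce_fi (S.ce h' p'.op))) (S.nt h') z) q0.le
    rw [← q, C.psi] at this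
    rw [← Real.log_le_iff_le_exp (w.pos ((map_ne_zero τ').2 z)), h'.ps S.rf, ← S.lev hc p'.tri h']
    simp only [vl, RingHom.coe_coe] at this ⊢
    linarith
  · rw [ev_opt, aeval_rename]
    refine le_trans ?_ g2
    have e1 := (le_div_iff₀ m0).1 (Nat.floor_le (div_nonneg (mul_nonneg s.cast_nonneg φ0) m0.le))
    have e2 : 0 ≤ vl w (η c) := neg_nonneg.2 (Real.log_nonpos (w.nonneg _) (p.op c).le)
    rw [← Real.exp_log (w.pos ((map_ne_zero (τ.comp (Lc c T y).val)).2 v.t_ne)), ← Real.exp_nat_mul,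
      Real.exp_le_exp]
    change _ ≤ _ * Real.log (w (((τ : F →+* Ω).comp ((Lc c T y).val : Lc c T y →+* F)) v.t))
    rw [← neg_neg (Real.log _), ← vl, ← hμ]
    linarith

omit S in
/-- the algebraic closure with the absolute value of a place -/
theorem exists_su (hy : Rf (oo T y)) {P : Pl F} (p : 0 < P.ord T) :
    ∃ (w : AbsoluteValue (AlgebraicClosure F) ℝ) (E : Subfield (AlgebraicClosure F))
      (u γ : Fin n → AlgebraicClosure F), Su w E (algebraMap F _ T) u T y ∧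
      Tri E u (fun j => algebraMap F _ (y j)) γ ∧ Pw w (algebraMap F _) P := by
  obtain ⟨w, hw, hP, -⟩ := exists_w (Ω := AlgebraicClosure F) P
  have : IsEmpty {j : Fin n // n ≤ j.1} := ⟨fun j => j.1.2.not_ge j.2⟩
  have cz : Fintype.card (Ix n n) = 0 + 1 := by simp
  have hF : FF F (n + (0 + 1)) := rf_ff hy (by simp)
  have hL := rf_ff (rf_zc (c := n) hy) cz
  obtain ⟨Q, l⟩ := (okL (L := Lc n T y) hF P).resolve_left fun k => p.ne' (k.ord (zc n T y none))
  have hx : AlgebraicIndependent (Lc n T y) y := indL hL hF (Fintype.card_fin _) cz (z := zc n T y)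
    ((algebraicIndependent_equiv' (Equiv.sumComm _ _)
      (by funext i; rcases i with i | i <;> rfl)).2 (rf_co hy (sp le_rfl)).ind)
  have v := vs hw hP l
  obtain ⟨u, γ, hu, ht⟩ := Mono.tw _ _ w _ v base_mem n _ (tw_hyp hF hw hP l hx)
  obtain ⟨a, ad⟩ := exists_ada hL Q
  have t0 : algebraMap F (AlgebraicClosure F) T ≠ 0 := (map_ne_zero _).2 (hy.ind.ne_zero none)
  refine ⟨w, _, u, γ, ⟨⟨v, hu, fun a => base_mem (algebraMap ℂ (Lc n T y) a), fun a => w_const hP,
    base_mem (zc n T y none), t0, hP.lt (mx_iff.2 (.inr p)), fun z z0 => ?_⟩, hy,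
    (transcendental_algebraMap_iff (algebraMap F _).injective).2 (hy.ind.transcendental none),
    fun M m1 m2 m3 => bs_le m1 fun a => ?_, fun z => ht.acl.le (acl_cl _ _ z (alg_of _ F
      (fun f => isAlgebraic_algebraMap (⟨_, ?_⟩ : acl _ _)) (Algebra.IsAlgebraic.isAlgebraic z))),
    fun τ γ' h1 h2 => ?_⟩, ht, hP⟩
  · obtain ⟨-, R, hR⟩ := exists_ext hw hP (finite_singleton z)
    obtain ⟨c, -, hc⟩ := hR.log
    have l' := hR.lies (ψ := algebraMap F _) hP
    have k0 : 0 < R.ord (algebraMap F _ T) := by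
      rw [l'.ord]
      exact mul_pos l'.e_pos p
    obtain ⟨k, hk⟩ := Int.eq_ofNat_of_zero_le k0.le
    let z' : IntermediateField.adjoin F {z} := ⟨z, IntermediateField.subset_adjoin _ _ rfl⟩
    refine ⟨k, R.ord z', by omega, Real.log_injOn_pos (pow_pos (w.pos z0) _)
      (zpow_pos (w.pos t0) _) ?_⟩
    rw [Real.log_pow, Real.log_zpow, show Real.log (w z) = _ from hc z',
      show Real.log (w (algebraMap F _ T)) = _ from hc (algebraMap F _ T), hk]
    push_cast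
    ring
  · refine (Subfield.mem_comap (f := algebraMap F (AlgebraicClosure F))).1
      (Subfield.closure_le.2 ?_ a.2)
    rintro _ (⟨b, rfl⟩ | ⟨_ | j, rfl⟩)
    exacts [m2 b, m3, isEmptyElim j]
  · refine (Subfield.mem_comap (f := algebraMap F (AlgebraicClosure F))).1
      (Subfield.closure_le.2 ?_ (hy.gen.ge (IntermediateField.mem_top (x := f))))
    rintro _ (⟨b, rfl⟩ | ⟨_ | j, rfl⟩)
    exacts [le_acl _ _ (base_mem (algebraMap ℂ (Lc n T y) b)),
      le_acl _ _ (base_mem (zc n T y none)), sub_acl _ _ ⟨j, rfl⟩]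
  · have e := rf_ext (rf_zc (c := n) hy) (τ := τ.comp (Lc n T y).val)
      (τ' := IsScalarTower.toAlgHom ℂ _ _) (by
        rintro (_ | j)
        exacts [h1, isEmptyElim j])
    obtain ⟨R, hR, -⟩ := br hF hL hw hP l ad hu ⟨τ, fun a => AlgHom.congr_fun e a⟩ hx h2
    exact ⟨R, hR⟩

end tow

end Vale.Agent.P283B.Bi

namespace Vale.Agent.P283B.Ls

open P287D P287D.Cb Wp Bi

theorem bri : BRI := fun hT hG hR hB n ε ε0 => by
  classical
  obtain ⟨τ, τ0, H⟩ := hT n ε ε0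
  refine ⟨τ, τ0, fun F _ _ y J c hy hJ c0 h P hP => ?_⟩
  obtain ⟨z, C, hz⟩ := ber hB hy hJ (fun P p => ε0.le.trans (h P p))
    (s := Finset.univ.image y) (by simp)
  have e : z ∘ (finSuccEquiv n).symm = oo (z 0) fun j => z j.succ :=
    funext (by rintro (_ | j) <;> simp)
  have C' := rf_co (C.rf hy) (finSuccEquiv n).symm
  rw [e] at C'
  have ce : ∀ P, Ce (oo (z 0) fun j => z j.succ) P ↔ Ce y P := fun P =>
    (C'.ce (C.rf hy)).trans (C.ce hy)
  have le : ∀ (P : Pl F) i, -P.ord (z i) ≤ P.mz (Finset.univ.image y) := fun P i =>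
    P.le_mz_of_span (by
      rw [Finset.coe_image, Finset.coe_univ, image_univ, ← C.spn]
      exact Submodule.subset_span ⟨i, rfl⟩) (C.ind.ne_zero i)
  obtain ⟨w, E, u, γ, S, ht, hw⟩ := exists_su (C'.rf (C.rf hy)) ((ce P).2 hP none)
  have r : Rl w _ (z 0) (fun j => z j.succ) _ (IsScalarTower.toAlgHom ℂ F _) P :=
    ⟨rfl, fun _ => rfl, hw⟩
  have := (H _ w E _ u S.se _ (S.bg hG hR (C'.id (C.rf hy) (C.id hy hJ)) c0 ε0
    (fun P p => by rw [C'.psi, C.psi]; exact h P ((ce P).1 p)) fun P j p => by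
      have k := hz P (ce_fi ((ce P).1 p))
      have k' : (-P.ord (z j.succ) : ℝ) ≤ mx (Finset.univ.image y) P := by
        rw [mx]; exact_mod_cast le P j.succ
      simp only [Pi.add_apply, Finset.sum_add_distrib, Finset.sum_const, Finset.card_univ,
        Fintype.card_fin, nsmul_eq_mul, dv, Fin.sum_univ_succ, Nat.cast_add, Nat.cast_one] at k
      rw [C'.psi, C.psi, Fintype.sum_option]
      have := mul_le_mul_of_nonneg_left k' (show (0 : ℝ) ≤ n + 1 by positivity)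
      simp only [Option.elim]
      linarith) _ γ
    ⟨ht, fun j => hw.lt (mx_iff.2 (.inr ((ce P).2 hP (some j))))⟩).trans_eq (r.ps S.rf _)
  obtain ⟨k0, k⟩ := vl_of hw
  rw [C'.psi, C.psi, k, mul_left_comm] at this
  obtain ⟨_, hg, -, e1⟩ := Pb.mz_att P (s := Finset.univ.image y)
    ⟨y 0, by simp, hy.ind.ne_zero 0⟩
  obtain ⟨i, -, rfl⟩ := Finset.mem_image.1 hg
  refine ⟨i, le_trans (mul_le_mul_of_nonneg_left ?_ τ0.le) (le_of_mul_le_mul_left this k0)⟩
  have := le P 0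
  exact_mod_cast (by omega : P.ord (y i) ≤ P.ord (z 0))

end Vale.Agent.P283B.Ls
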