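import Vale.Agent.P283B.LS.Tw
import Vale.Agent.P283B.MONO.Br

/-!
# P283B, block LS: places over a triangular point are triangular points (the proof)
-/

open Set Polynomial Filter
open Vale.Agent.P297Z

noncomputable section

namespace Vale.Agent.P283B.Ls.Re

open P287D Mono Mb

section abs

variable {K N Ω : Type} [Field K] [Field N] [Field Ω] {w : AbsoluteValue Ω ℝ}
  {v : AbsoluteValue N ℝ}

/-- a power of an absolute value -/
def pw (w : AbsoluteValue Ω ℝ) (hw : IsNonarchimedean w) {l : ℝ} (hl : 0 < l) :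
    AbsoluteValue Ω ℝ where
  toFun x := w x ^ l
  map_mul' x y := by rw [map_mul, Real.mul_rpow (w.nonneg _) (w.nonneg _)]
  nonneg' x := Real.rpow_nonneg (w.nonneg _) _
  eq_zero' x := by rw [Real.rpow_eq_zero (w.nonneg _) hl.ne', w.eq_zero]
  add_le' x y := by
    have a := Real.rpow_nonneg (w.nonneg x) l
    have b := Real.rpow_nonneg (w.nonneg y) l
    rcases le_max_iff.1 (hw x y) with k | k <;>
      linarith [Real.rpow_le_rpow (w.nonneg _) k hl.le]

theorem pw_apply (hw : IsNonarchimedean w) {l : ℝ} (hl : 0 < l) (x : Ω) :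
    pw w hw hl x = w x ^ l := rfl

theorem pw_na (hw : IsNonarchimedean w) {l : ℝ} (hl : 0 < l) : IsNonarchimedean (pw w hw hl) :=
  fun x y => by
    rcases le_max_iff.1 (hw x y) with k | k
    · exact le_max_of_le_left (Real.rpow_le_rpow (w.nonneg _) k hl.le)
    · exact le_max_of_le_right (Real.rpow_le_rpow (w.nonneg _) k hl.le)

theorem gn_congr {f : Polynomial N} {g : Polynomial Ω} (h : ∀ i, v (f.coeff i) = w (g.coeff i))
    {c : ℝ} (hc : 0 ≤ c) : f.gaussNorm v c = g.gaussNorm w c := by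
  obtain ⟨i, hi⟩ := f.exists_eq_gaussNorm v c
  obtain ⟨j, hj⟩ := g.exists_eq_gaussNorm w c
  apply le_antisymm
  · rw [hi, h]
    exact g.le_gaussNorm w hc i
  · rw [hj, ← h]
    exact f.le_gaussNorm v hc j

theorem np2 [IsAlgClosed Ω] (hw : IsNonarchimedean w) (hv : IsNonarchimedean v) {f : Polynomial N}
    {g : Polynomial Ω} (hf : f ≠ 0) (h : ∀ i, v (f.coeff i) = w (g.coeff i)) {x : N}
    (hx : f.IsRoot x) : ∃ x', g.IsRoot x' ∧ w x' = v x := by
  by_cases x0 : x = 0
  · subst x0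
    refine ⟨0, ?_, by simp⟩
    have := h 0
    rw [coeff_zero_eq_eval_zero, hx.eq_zero, map_zero, coeff_zero_eq_eval_zero] at this
    exact w.eq_zero.1 this.symm
  have hs := v.pos x0
  have e := gn_congr h hs.le
  have f0 : f.gaussNorm v (v x) ≠ 0 := fun k =>
    hf ((gaussNorm_eq_zero_iff v f (fun _ => v.eq_zero.1) hs).1 k)
  have hg : g ≠ 0 := by
    rintro rfl
    exact f0 (by rw [e, gaussNorm_zero])
  obtain ⟨i, hi⟩ := f.exists_eq_gaussNorm v (v x)
  obtain ⟨j, ji, hj⟩ := two_of_root hv hx i fun k => f0 (by rw [hi, ← map_pow, ← map_mul, k,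
    map_zero])
  have hj' := le_antisymm (hi.trans_le hj) (f.le_gaussNorm v hs.le j)
  rw [e, h] at hi hj'
  rcases ji.lt_or_gt with b | b
  exacts [root_of_two hw hg hs b hj' hi, root_of_two hw hg hs b hi hj']

theorem exists_all {ι : Type} (χ : ι → N → ℝ)
    (hm : ∀ i x y, x ≠ 0 → y ≠ 0 → χ i (x * y) = χ i x + χ i y) (s : Finset ι)
    (h : ∀ i ∈ s, ∃ x, x ≠ 0 ∧ χ i x ≠ 0) : ∃ x, x ≠ 0 ∧ ∀ i ∈ s, χ i x ≠ 0 := by
  classical
  induction s using Finset.induction_on with
  | empty => exact ⟨1, one_ne_zero, by simp⟩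
  | insert a s _ ih =>
    obtain ⟨x, x0, hx⟩ := ih fun i hi => h i (by simp [hi])
    obtain ⟨y, y0, hy⟩ := h a (by simp)
    by_cases k : χ a x = 0
    swap
    · exact ⟨x, x0, fun i hi => (Finset.mem_insert.1 hi).elim (fun e => e ▸ k) (hx i)⟩
    have p : ∀ i (m : ℕ), χ i (x ^ m * y) = m * χ i x + χ i y := fun i m => by
      induction m with
      | zero => simp
      | succ m ih =>
        rw [pow_succ', mul_assoc, hm i _ _ x0 (mul_ne_zero (pow_ne_zero _ x0) y0), ih]
        push_cast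
        ring
    have e : ∀ᶠ m : ℕ in cofinite, ∀ i ∈ s, m * χ i x + χ i y ≠ 0 := by
      refine (Finset.eventually_all _).2 fun i hi => Subsingleton.finite fun m a m' b => ?_
      have a : (m : ℝ) * χ i x + χ i y = 0 := not_not.1 a
      have b : (m' : ℝ) * χ i x + χ i y = 0 := not_not.1 b
      exact_mod_cast mul_right_cancel₀ (hx i hi) (by linarith : (m : ℝ) * χ i x = m' * χ i x)
    obtain ⟨m, hm'⟩ := e.exists
    refine ⟨x ^ m * y, mul_ne_zero (pow_ne_zero _ x0) y0, fun i hi => ?_⟩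
    rw [p]
    rcases Finset.mem_insert.1 hi with rfl | hi
    · rwa [k, mul_zero, zero_add]
    · exact hm' i hi

/-- an isometric embedding of a finite extension -/
theorem emb [IsAlgClosed Ω] [Algebra K N] [Algebra K Ω] [FiniteDimensional K N]
    (hw : IsNonarchimedean w) (hv : IsNonarchimedean v)
    (h : ∀ a : K, v (algebraMap K N a) = w (algebraMap K Ω a)) :
    ∃ ψ : N →ₐ[K] Ω, ∀ x, w (ψ x) = v x := by
  by_contra hn
  push Not at hn
  have := Fintype.ofFinite (N →ₐ[K] Ω)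
  obtain ⟨x, x0, hx⟩ := exists_all (fun (ψ : N →ₐ[K] Ω) x => Real.log (w (ψ x)) - Real.log (v x))
    (fun ψ x y a b => by
      rw [map_mul, map_mul, map_mul, Real.log_mul (w.pos ((_root_.map_ne_zero ψ).2 a)).ne'
        (w.pos ((_root_.map_ne_zero ψ).2 b)).ne', Real.log_mul (v.pos a).ne' (v.pos b).ne']
      ring) Finset.univ fun ψ _ => by
      obtain ⟨x, hx⟩ := hn ψ
      have x0 : x ≠ 0 := fun e => hx (by simp [e])
      exact ⟨x, x0, fun e => hx (Real.log_injOn_pos (w.pos ((_root_.map_ne_zero ψ).2 x0))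
        (v.pos x0) (sub_eq_zero.1 e))⟩
  have m0 := minpoly.ne_zero (Algebra.IsIntegral.isIntegral (R := K) x)
  obtain ⟨x', r, e⟩ := np2 hw hv (f := (minpoly K x).map (algebraMap K N))
    (g := (minpoly K x).map (algebraMap K Ω)) (Polynomial.map_ne_zero m0)
    (fun i => by rw [coeff_map, coeff_map, h]) (x := x)
    (by rw [IsRoot, eval_map_algebraMap, minpoly.aeval])
  obtain ⟨ψ, rfl⟩ := (Algebra.IsAlgebraic.range_eval_eq_rootSet_minpoly Ω x).symm.subset
    (mem_rootSet.2 ⟨m0, by rw [← eval_map_algebraMap]; exact r⟩)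
  exact hx ψ (Finset.mem_univ _) (by rw [e, sub_self])

theorem hd_eval [Algebra K Ω] (f : Polynomial K) (α : Ω) (i : ℕ) :
    (taylor α (f.map (algebraMap K Ω))).coeff i = aeval α (hasseDeriv i f) := by
  rw [taylor_coeff, ← eval_map_algebraMap]
  congr 1
  ext n
  simp [hasseDeriv_coeff]

theorem aeval_mem [Algebra K Ω] {M : Subfield Ω} (hK : ∀ a, algebraMap K Ω a ∈ M) {α : Ω}
    (hα : α ∈ M) (f : Polynomial K) : aeval α f ∈ M := by
  rw [aeval_eq_sum_range]
  exact sum_mem fun i _ => by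
    rw [Algebra.smul_def]
    exact mul_mem (hK _) (pow_mem hα _)

/-- the value at the generic point of a disc -/
theorem gau [IsAlgClosed Ω] [Algebra K Ω] (hw : IsNonarchimedean w) {M : Subfield Ω} (hM : Cl M)
    (hK : ∀ a, algebraMap K Ω a ∈ M) {α γ x : Ω} (hα : α ∈ M) (hγ : γ ∈ M) (γ0 : γ ≠ 0)
    (h : Gn w M x) (f : Polynomial K) : w (aeval (α + γ * x) f) =
      (taylor α (f.map (algebraMap K Ω))).gaussNorm w (w γ) := by
  rw [← h.eval_gn hw hγ γ0 (hM.roots fun i => hd_eval f α i ▸ aeval_mem hK hα _), taylor_eval,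
    eval_map_algebraMap, add_comm]

end abs

variable {F Ω ι : Type} [Field F] [Algebra ℂ F] [Field Ω] [Algebra ℂ Ω]

theorem exists_hom {y : ι → F} (hy : AlgebraicIndependent ℂ y)
    (ht : IntermediateField.adjoin ℂ (range y) = ⊤) {x : ι → Ω} (hx : AlgebraicIndependent ℂ x) :
    ∃ τ : F →ₐ[ℂ] Ω, ∀ i, τ (y i) = x i := by
  let e := hy.aevalEquivField.trans
    ((IntermediateField.equivOfEq ht).trans IntermediateField.topEquiv)
  refine ⟨(IntermediateField.val _).comp (hx.aevalEquivField.toAlgHom.comp e.symm.toAlgHom),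
    fun l => ?_⟩
  have a : e (algebraMap _ _ (MvPolynomial.X l : MvPolynomial ι ℂ)) = y l :=
    (hy.aevalEquivField_algebraMap_apply_coe _).trans (MvPolynomial.aeval_X _ _)
  change (hx.aevalEquivField (e.symm (y l)) : Ω) = _
  rw [← a, AlgEquiv.symm_apply_apply]
  exact (hx.aevalEquivField_algebraMap_apply_coe _).trans (MvPolynomial.aeval_X _ _)

variable {n : ℕ} {w : AbsoluteValue Ω ℝ} {E : Subfield Ω} {t : Ω} {u : Fin n → Ω}

theorem ind_tri (se : Se w E t u) (ht : Transcendental ℂ t) {x γ : Fin n → Ω} (h : Tri E u x γ) :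
    AlgebraicIndependent ℂ fun o : Option (Fin n) => o.elim t x := by
  refine algebraicIndependent_iff.2 fun p hp => by_contra fun p0 => ?_
  refine h.ev_ne (aeval t : Polynomial ℂ →ₐ[ℂ] Ω).toRingHom (aeval_mem se.cE se.tE)
    (transcendental_iff_injective.1 ht) se.tw
    (p := MvPolynomial.optionEquivRight ℂ (Fin n) p) ((map_ne_zero_iff _ (AlgEquiv.injective _)).2 p0) ?_
  rw [← hp]
  clear hp p0
  induction p using MvPolynomial.induction_on with
  | C a => simp
  | add p q a b => simp only [map_add, MvPolynomial.eval₂_add, a, b]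
  | mul_X p i a =>
    simp only [map_mul, MvPolynomial.eval₂_mul, a]
    cases i <;> simp

theorem ff_of {y : Fin n → F} {T : F}
    (hy : AlgebraicIndependent ℂ fun o : Option (Fin n) => o.elim T y)
    (ht : IntermediateField.adjoin ℂ (range fun o : Option (Fin n) => o.elim T y) = ⊤) :
    FF F (n + 1) := by
  refine ⟨(fun o : Option (Fin n) => o.elim T y) ∘ finSuccEquiv n,
    hy.comp _ (finSuccEquiv n).injective, ?_⟩
  rw [(finSuccEquiv n).surjective.range_comp, ht]
  exact Module.Finite.of_surjective (Algebra.linearMap _ F) fun x => ⟨⟨x, trivial⟩, rfl⟩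

/-- the field of the coordinates from the level `c` on -/
abbrev Kc (T : F) (y : Fin n → F) (c : ℕ) : IntermediateField ℂ F :=
  IntermediateField.adjoin ℂ (insert T (y '' {j | c ≤ j.1}))

theorem one [IsAlgClosed Ω] (se : Se w E t u) {y : Fin n → F} {T : F} (c : Fin n)
    {γ : Fin n → Ω} {τ : F →ₐ[ℂ] Ω} {P : Pl F}
    (hy : AlgebraicIndependent ℂ fun o : Option (Fin n) => o.elim T y)
    (ht : IntermediateField.adjoin ℂ (range fun o : Option (Fin n) => o.elim T y) = ⊤)
    (tri : Tri E u (fun j => τ (y j)) γ) (hT : τ T = t)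
    (h : ∀ f ∈ Kc T y (c + 1), f ∈ P.ring ↔ w (τ f) ≤ 1) :
    ∃ (τ' : F →ₐ[ℂ] Ω) (γ' : Fin n → Ω), τ' T = t ∧ (∀ j, j ≠ c → τ' (y j) = τ (y j)) ∧
      Tri E u (fun j => τ' (y j)) γ' ∧ ∀ f ∈ Kc T y c, f ∈ P.ring ↔ w (τ' f) ≤ 1 := by
  classical
  have hw := se.vs.na
  have hF := ff_of hy ht
  let K := Kc T y (c + 1)
  let Ω' := AlgebraicClosure F
  have TK : T ∈ K := IntermediateField.subset_adjoin _ _ (mem_insert _ _)
  have yK : ∀ j, c < j → y j ∈ K := fun j hj =>
    IntermediateField.subset_adjoin _ _ (.inr ⟨j, hj, rfl⟩)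
  have T0 : T ≠ 0 := fun e => se.t0 (by rw [← hT, e, map_zero])
  have tp := w.pos se.t0
  have Ti : T⁻¹ ∉ P.ring := fun k => by
    have := (h _ (inv_mem TK)).1 k
    rw [map_inv₀, map_inv₀, hT, inv_le_one₀ tp] at this
    exact this.not_gt se.t1
  have e0 : (0 : ℝ) < P.ord T := by exact_mod_cast Pl.ord_pos_of_inv_notMem _ Ti
  obtain ⟨w₀, na₀, P₀, lg₀⟩ := exists_w (Ω := Ω') P
  have l0 : 0 < -Real.log (w t) / P.ord T := div_pos (neg_pos.2 (Real.log_neg tp se.t1)) e0
  let w' := pw w₀ na₀ l0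
  have hw' : IsNonarchimedean w' := pw_na na₀ l0
  have hP : Pw w' (algebraMap F Ω') P := fun f =>
    (P₀ f).trans (by
      rw [← Real.rpow_le_rpow_iff (w₀.nonneg _) zero_le_one l0, Real.one_rpow]
      rfl)
  have iso : ∀ a : K, w' (algebraMap K Ω' a) = w (τ a) := fun a => by
    by_cases a0 : (a : F) = 0
    · simp [IsScalarTower.algebraMap_apply K F Ω', a0]
    have z : T ^ P.ord (a : F) ≠ 0 := zpow_ne_zero _ T0
    have g0 := div_ne_zero (zpow_ne_zero (P.ord T) a0) z
    have gK := div_mem (zpow_mem a.2 (P.ord T)) (zpow_mem TK (P.ord (a : F)))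
    obtain ⟨g1, g2⟩ := (Pl.ord_eq_zero_iff P.toPlace g0).1 (by
      rw [Pl.ord_div _ (zpow_ne_zero _ a0) z, Pl.ord_zpow, Pl.ord_zpow]; ring)
    have g3 := (h _ (inv_mem gK)).1 g2
    rw [map_inv₀, map_inv₀, inv_le_one₀ (w.pos ((_root_.map_ne_zero τ).2 g0))] at g3
    have g4 := le_antisymm ((h _ gK).1 g1) g3
    rw [map_div₀, map_div₀, div_eq_one_iff_eq (w.pos ((_root_.map_ne_zero τ).2 z)).ne', map_zpow₀,
      map_zpow₀, map_zpow₀, map_zpow₀, hT] at g4
    have g5 := congrArg Real.log g4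
    rw [Real.log_zpow, Real.log_zpow] at g5
    have p₀ : 0 < w₀ (algebraMap F Ω' a) := w₀.pos ((_root_.map_ne_zero _).2 a0)
    refine Real.log_injOn_pos (Real.rpow_pos_of_pos p₀ _) (w.pos ((_root_.map_ne_zero τ).2 a0)) ?_
    rw [Real.log_rpow p₀, lg₀]
    field_simp
    linarith
  let L := IntermediateField.adjoin ℂ {T}
  obtain ⟨Q, l⟩ := (hF.ok_sub L P).resolve_left fun k =>
    Ti (k ⟨T⁻¹, inv_mem (IntermediateField.subset_adjoin _ _ rfl)⟩)
  have hL : AlgebraicIndependent L y := by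
    have := (hy.adjoin_of_disjoint (s := {none}) (t := range some) (by simp)).comp
      (fun j : Fin n => ⟨some j, j, rfl⟩) fun a b e => Option.some_injective _ (congrArg Subtype.val e)
    rw [image_singleton] at this
    exact IntermediateField.algebraicIndependent_adjoin_iff.2 this
  obtain ⟨g, hg, gn⟩ := tw_hyp (Ω := Ω') hF hw' hP l hL c
  obtain ⟨α, hα, b, hb, b0, gn'⟩ := exists_disc (vs hw' hP l) (lv_cl _ c) (le_lv _ c) hg gn
  set M' := Lv (bs L Ω') (fun i => algebraMap F Ω' (y i)) c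
  have alg : ∀ x ∈ M', IsAlgebraic K x := fun x hx => by
    refine alg_acl K (fun a => ?_) ?_ hx
    · exact isAlgebraic_algebraMap (⟨a, IntermediateField.adjoin_simple_le_iff.2 TK a.2⟩ : K)
    · rintro _ ⟨i, hi, rfl⟩
      exact isAlgebraic_algebraMap (⟨y i, yK i hi⟩ : K)
  have le : ∀ {Ω₁ : Type} [Field Ω₁] (φ : F →+* Ω₁) (M : Subfield Ω₁),
      (∀ a, φ (algebraMap ℂ F a) ∈ M) → φ T ∈ M → (∀ j, c < j → φ (y j) ∈ M) →
      ∀ a : K, φ a ∈ M := fun φ M a1 a2 a3 a => by
    refine (IntermediateField.adjoin_le_iff (T := (M.comap φ).toIntermediateField a1)).2 ?_ a.2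
    rintro _ (rfl | ⟨j, hj, rfl⟩)
    exacts [a2, a3 j hj]
  have KM' : ∀ a : K, algebraMap K Ω' a ∈ M' := le (algebraMap F Ω') M'
    (fun a => le_lv _ c (base_mem (L := L) (algebraMap ℂ L a)))
    (le_lv _ c (base_mem (L := L) ⟨T, IntermediateField.subset_adjoin _ _ rfl⟩))
    fun j hj => sub_acl _ _ ⟨j, hj, rfl⟩
  let _ : Algebra K Ω := ((τ : F →+* Ω).comp (algebraMap K F)).toAlgebra
  have KM : ∀ a : K, algebraMap K Ω a ∈ Lv E u c := le (τ : F →+* Ω) _
    (fun a => le_lv _ c (τ.commutes a ▸ se.cE a)) (le_lv _ c (hT ▸ se.tE))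
    fun j hj => tri.lv c ▸ sub_acl _ _ ⟨j, hj, rfl⟩
  let N := IntermediateField.adjoin K {α, b}
  have : FiniteDimensional K N := IntermediateField.finiteDimensional_adjoin (by
    rintro _ (rfl | rfl)
    exacts [(alg _ hα).isIntegral, (alg _ (le_lv _ c hb)).isIntegral])
  obtain ⟨ψ, hψ⟩ := emb (K := K) (v := w'.comp (algebraMap N Ω').injective) hw
    (fun x y => hw' x.1 y.1) iso
  let α' : N := ⟨α, IntermediateField.subset_adjoin _ _ (.inl rfl)⟩
  let b' : N := ⟨b, IntermediateField.subset_adjoin _ _ (.inr rfl)⟩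
  obtain ⟨d, dE, hd⟩ := se.vs.ful (ψ b')
  have hd' : w d = w' b := hd.trans (hψ b')
  have d0 : d ≠ 0 := w.pos_iff.1 (hd' ▸ w'.pos b0)
  have βM : ψ α' ∈ Lv E u c := by
    have m0 := minpoly.ne_zero (Algebra.IsIntegral.isIntegral (R := K) α')
    refine (lv_cl u c).root (f := (minpoly K α').map (algebraMap K Ω)) (Polynomial.map_ne_zero m0)
      (fun i => coeff_map (algebraMap K Ω) i ▸ KM _) ?_
    rw [IsRoot, eval_map_algebraMap, aeval_algHom_apply, minpoly.aeval, map_zero]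
  have val : ∀ f : Polynomial K, w (aeval (ψ α' + d * u c) f) =
      w' (algebraMap F Ω' (aeval (y c) f)) := fun f => by
    have e : algebraMap F Ω' (y c) = α + b * ((algebraMap F Ω' (y c) - α) / b) := by
      rw [mul_div_cancel₀ _ b0, add_sub_cancel]
    rw [← aeval_algebraMap_apply, e, gau hw' (lv_cl _ c) KM' hα (le_lv _ c hb) b0 gn',
      gau hw (lv_cl u c) KM βM (le_lv u c dE) d0 (se.tw c), hd']
    refine gn_congr (fun i => ?_) (w'.nonneg _)
    rw [hd_eval, hd_eval, aeval_algHom_apply, hψ]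
    exact congrArg w' (aeval_algebraMap_apply Ω' α' _).symm
  have tri' : Tri E u (Function.update (fun j => τ (y j)) c (ψ α' + d * u c))
      (Function.update γ c d) := by
    refine ⟨fun j => ?_, fun j => ?_, fun j => ?_⟩ <;> rcases eq_or_ne j c with rfl | k
    · rwa [Function.update_self]
    · rw [Function.update_of_ne k]
      exact tri.mem j
    · rwa [Function.update_self]
    · rw [Function.update_of_ne k]
      exact tri.ne j
    · rwa [Function.update_self, Function.update_self, add_sub_cancel_right]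
    · rw [Function.update_of_ne k, Function.update_of_ne k]
      exact tri.cen j
  obtain ⟨τ', hτ'⟩ := exists_hom hy ht (ind_tri se (fun k =>
    hy.transcendental none ((isAlgebraic_algHom_iff τ τ.injective).1 (hT ▸ k))) tri')
  have t1 : τ' T = t := hτ' none
  have t0 : ∀ j, τ' (y j) = Function.update (fun j => τ (y j)) c (ψ α' + d * u c) j :=
    fun j => hτ' (some j)
  have t2 : ∀ j, j ≠ c → τ' (y j) = τ (y j) := fun j k => by rw [t0, Function.update_of_ne k]
  have t3 : τ' (y c) = ψ α' + d * u c := by rw [t0, Function.update_self]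
  refine ⟨τ', Function.update γ c d, t1, t2, by rwa [funext t0], fun f hf => ?_⟩
  let τK : F →ₐ[K] Ω := { (τ' : F →+* Ω) with
    commutes' := le (RingHom.id F) (RingHom.eqLocusField (τ' : F →+* Ω) (τ : F →+* Ω))
      (fun a => (τ'.commutes a).trans (τ.commutes a).symm) (t1.trans hT.symm)
      fun j hj => t2 j hj.ne' }
  have hf' : f ∈ IntermediateField.adjoin K {y c} := by
    refine (IntermediateField.adjoin_le_iff
      (T := (IntermediateField.adjoin K {y c}).restrictScalars ℂ)).2 ?_ hf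
    rintro _ (rfl | ⟨j, hj, rfl⟩)
    · exact IntermediateField.algebraMap_mem _ (⟨_, TK⟩ : K)
    · rcases (show c ≤ j from hj).eq_or_lt with rfl | k
      · exact IntermediateField.subset_adjoin K _ rfl
      · exact IntermediateField.algebraMap_mem _ (⟨_, yK j k⟩ : K)
  obtain ⟨p, q, rfl⟩ := (IntermediateField.mem_adjoin_simple_iff _ _).1 hf'
  have ev : ∀ f : Polynomial K, τ' (aeval (y c) f) = aeval (ψ α' + d * u c) f := fun f => by
    rw [← t3]
    exact (aeval_algHom_apply τK (y c) f).symm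
  rw [hP, map_div₀, map_div₀, map_div₀, map_div₀, ev, ev, val, val]

theorem real [IsAlgClosed Ω] (se : Se w E t u) {y : Fin n → F} {T : F} {P : Pl F}
    (hy : AlgebraicIndependent ℂ fun o : Option (Fin n) => o.elim T y)
    (ht : IntermediateField.adjoin ℂ (range fun o : Option (Fin n) => o.elim T y) = ⊤) (c : ℕ)
    (γ : Fin n → Ω) (τ : F →ₐ[ℂ] Ω) (tri : Tri E u (fun j => τ (y j)) γ) (hT : τ T = t)
    (h : ∀ f ∈ Kc T y c, f ∈ P.ring ↔ w (τ f) ≤ 1) :
    ∃ (τ' : F →ₐ[ℂ] Ω) (γ' : Fin n → Ω), τ' T = t ∧ (∀ j : Fin n, c ≤ j.1 → τ' (y j) = τ (y j)) ∧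
      Tri E u (fun j => τ' (y j)) γ' ∧ ∀ f, f ∈ P.ring ↔ w (τ' f) ≤ 1 := by
  induction c generalizing γ τ with
  | zero =>
    refine ⟨τ, γ, hT, fun _ _ => rfl, tri, fun f => h f ?_⟩
    refine IntermediateField.adjoin.mono _ _ _ ?_ (ht.ge (IntermediateField.mem_top (x := f)))
    rintro _ ⟨_ | j, rfl⟩
    exacts [.inl rfl, .inr ⟨j, Nat.zero_le _, rfl⟩]
  | succ c ih =>
    rcases lt_or_ge c n with k | k
    · obtain ⟨τ₁, γ₁, a1, a2, a3, a4⟩ := one se ⟨c, k⟩ hy ht tri hT h
      obtain ⟨τ', γ', b1, b2, b3⟩ := ih γ₁ τ₁ a3 a1 a4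
      exact ⟨τ', γ', b1, fun j hj => (b2 j (by omega)).trans (a2 j fun e => by
        rw [e] at hj; exact absurd hj (by simp)), b3⟩
    · obtain ⟨τ', γ', b1, b2, b3⟩ := ih γ τ tri hT fun f hf => h f
        (IntermediateField.adjoin.mono _ _ _ (by
          rintro _ (rfl | ⟨j, hj, rfl⟩)
          · exact .inl rfl
          · exact absurd j.2 (not_lt.2 (k.trans hj))) hf)
      exact ⟨τ', γ', b1, fun j hj => b2 j (by omega), b3⟩

end Vale.Agent.P283B.Ls.Re
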