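import Vale.Agent.P283B.LS.St
import Vale.Agent.P283B.LC.Loc
import Vale.Agent.P287D.Gm.Gau
import Vale.Agent.P287D.Api.Int

/-!
# P283B, block LS: extension from the graph
-/

set_option linter.unusedVariables false
set_option linter.unusedSectionVars false

open Set MvPolynomial TensorProduct
open Vale.Agent.P285N.Brep (jac Fr)
open Vale.Agent.P297Z

noncomputable section

namespace Vale.Agent.P283B.Ls

namespace Ot

open P287D Wp Cb

section form

variable {K K' : Type} [Field K] [Algebra ℂ K] [Field K'] [Algebra ℂ K'] {n m : ℕ}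
  {ι σ : Type} [Fintype ι] [Fintype σ]

/-- the residue of a form with a simple pole -/
theorem adj_kap (hK : FF K (n + 1)) {P : Pl K} {a : K} {u : Fin n → K} (A : Ada P a u)
    {Γ B : BD K} (hB : B ∈ Car K)
    (e : dsc (n + 1) Γ = kap (Fin.cons a u : Fin (n + 1) → K) - dv a - B) :
    dsc n (adj n P Γ) = kap (fun i => P.rd (u i)) - res P B := by
  obtain ⟨j, j', ⟨j0, j1, g, D, D', g1, g2, g3, g4, g5, g6⟩, h⟩ := adj_eq hK P
  have G : Ada P P.t fun i => g i.succ :=
    ⟨P.ord_t, g3, (jac_ne_iff g4 _).1 (by rw [jac_self g4]; exact one_ne_zero)⟩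
  have dm : ∀ i k, D i (g k) ∈ P.ring := fun i k => by
    rw [g1.dual]
    split_ifs
    exacts [one_mem _, zero_mem _]
  have dc : ∀ i c, D i (algebraMap ℂ K c) ∈ P.ring := fun i c => by
    rw [Derivation.map_algebraMap]; exact zero_mem _
  have rg : ∀ i, Rg P (D i) := fun i =>
    G.rg hK (dr_of _) (g2 ▸ dm i 0) (fun k => dm i k.succ) (dc i)
  have lg : ∀ i : Fin n, Lg P (D i.succ) := fun i => G.lg hK (dr_of _) (by
    rw [← g2, g1.dual, if_neg (Fin.succ_ne_zero i), zero_div]; exact zero_mem _)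
    (fun k => dm _ k.succ) (dc _)
  have bar : ∀ (i : Fin n) (x), x ∈ P.ring → P.rd (D i.succ x) = D' i (P.rd x) := fun i x hx => by
    obtain ⟨e, he, k⟩ := (lg i).bar (dr_of _)
    rw [← k x hx, expand he (fun c => by
      rw [← rd_const, k _ (P.con c), Derivation.map_algebraMap, Gm.rd_zero]) g4,
      Finset.sum_eq_single i (fun l _ hl => by
        rw [k _ (g3 l), g1.dual, if_neg (by simpa using hl.symm), Gm.rd_zero, zero_mul])
        (by simp), k _ (g3 i), g1.dual, if_pos rfl, Bm.rd_one, one_mul, RingHom.id_apply]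
  have a0 := A.ne
  have t0 := P.t_ne
  obtain ⟨w, w1, w2, w3⟩ := ld_eq (dr_of (D 0)) P a0
  have t1 : D 0 P.t = 1 := by rw [← g2, g1.dual, if_pos rfl]
  have m1 : Mx P (P.t * (w⁻¹ * D 0 w)) := mx_t (mul_mem w2 (rg 0 w w1))
  have e1 : P.t * D 0 a / a = P.t * (w⁻¹ * D 0 w) + 1 := by
    rw [mul_div_assoc, w3, t1, A.ord]
    field_simp
    simp
  let r : Fin (n + 1) → K := Fin.cons P.t fun _ => 1
  let c : Fin (n + 1) → K := Fin.cons a⁻¹ fun _ => 1
  let y : Fin (n + 1) → K := Fin.cons a u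
  have mm : ∀ i k, r i * (c k * D i (y k)) ∈ P.ring := fun i k => by
    refine Fin.cases ?_ (fun i => ?_) i <;> refine Fin.cases ?_ (fun k => ?_) k
    · change P.t * (a⁻¹ * D 0 a) ∈ _
      rw [← div_eq_inv_mul, ← mul_div_assoc, e1]
      exact add_mem m1.mem (one_mem _)
    · exact mul_mem (t_mem P) (mul_mem (one_mem _) (rg 0 _ (A.mem k)))
    · change 1 * (a⁻¹ * D i.succ a) ∈ _
      rw [one_mul, ← div_eq_inv_mul]
      exact lg i a
    · exact mul_mem (one_mem _) (mul_mem (one_mem _) (rg _ _ (A.mem k)))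
  let M : Matrix (Fin (n + 1)) (Fin (n + 1)) P.ring := Matrix.of fun i k => ⟨_, mm i k⟩
  have e2 : (M.det : K) = P.t * jac D y / a := by
    refine (RingHom.map_det P.ring.subtype M).trans ?_
    refine (Matrix.det_mul_column r (Matrix.of fun i k => c k * D i (y k))).trans
      ((congrArg _ (Matrix.det_mul_row c (Matrix.of fun i k => D i (y k)))).trans ?_)
    simp only [r, c, Fin.prod_univ_succ, Fin.cons_zero, Fin.cons_succ, Finset.prod_const_one, jac]
    field_simp
  have e3 : P.rd (M.det : K) = jac D' fun i => P.rd (u i) := by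
    let rs : P.ring →+* P.κ := IsLocalRing.residue P.ring
    refine (rd_of M.det.2).trans ((RingHom.map_det rs M).trans ?_)
    have q : ∀ i k, rs.mapMatrix M i k = P.rd (r i * (c k * D i (y k))) :=
      fun i k => (rd_of (mm i k)).symm
    rw [Matrix.det_succ_row_zero, Fin.sum_univ_succ, Finset.sum_eq_zero fun k _ => by
      rw [q, (rd_eq_zero (mm 0 k.succ)).2 (mx_t (mul_mem (one_mem _) (rg 0 _ (A.mem k)))), mul_zero,
        zero_mul], q]
    change _ * P.rd (P.t * (a⁻¹ * D 0 a)) * _ + _ = _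
    rw [← div_eq_inv_mul, ← mul_div_assoc, e1, rd_add m1.mem (one_mem _), (rd_eq_zero m1.mem).2 m1,
      Bm.rd_one, jac]
    simp only [Fin.val_zero, pow_zero, zero_add, add_zero, one_mul]
    congr 1
    ext i k
    refine (q _ _).trans ?_
    change P.rd (1 * (1 * D i.succ (u k))) = _
    rw [one_mul, one_mul, bar i _ (A.mem k)]
    rfl
  have J0 := (jac_ne_iff g1 y).2 A.indep
  have J1 := (jac_ne_iff g4 _).2 A.ind
  have o := ord_zero_of M.det.2 (e3 ▸ J1)
  have d0 : (M.det : K) ≠ 0 := e2 ▸ div_ne_zero (mul_ne_zero t0 J0) a0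
  have e4 : Γ + dv j = B - dv (M.det : K) + dv P.t := by
    rw [kap_chg g1 J0, g5, dsc] at e
    rw [e2, dv_div (mul_ne_zero t0 J0) a0, dv_mul t0 J0]
    linear_combination (exp := 1) -e
  rw [h, e4, res_add hK P (sub_mem hB (dv_mem_Car _)) (dv_mem_Car _), res_dv_t hK,
    res_sub hK P hB (dv_mem_Car _), res_dv_unit hK P d0 o, e3, kap_chg g4 J1, g6, dsc]
  abel

theorem adj_kq (hK : FF K (n + 1)) (c : Fintype.card σ = n) {P : Pl K} {a : K} {u : σ → K}
    (ha : P.ord a = 1) (hu : ∀ i, u i ∈ P.ring) (hi : AlgebraicIndependent ℂ fun i => P.rd (u i))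
    {Γ B : BD K} (hB : B ∈ Car K)
    (e : dsc (n + 1) Γ = kq (fun o : Option σ => o.elim a u) - dv a - B) :
    dsc n (adj n P Γ) = kq (fun i => P.rd (u i)) - res P B := by
  let b := (Fintype.equivFinOfCardEq c).symm
  rw [kq_eq (Gm.ff_κ P hK) b]
  refine adj_kap hK (u := u ∘ b) ⟨ha, fun _ => hu _, hi.comp _ b.injective⟩ hB (e.trans ?_)
  rw [kq_eq hK ((finSuccEquiv _).trans b.optionCongr)]
  congr 3
  funext i
  refine Fin.cases ?_ (fun i => ?_) i <;> simp

/-- a triangular change of coordinates -/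
theorem kq_tri (hK : FF K n) (h : Fintype.card ι = n) (S : ι → Prop) {y a c : ι → K}
    (hy : AlgebraicIndependent ℂ y) (a0 : ∀ i, a i ≠ 0) (h1 : ∀ i, ¬ S i → a i = 1 ∧ c i = 0)
    (h2 : ∀ i, a i ∈ Gm.Cl (y '' {i | ¬ S i}) ∧ c i ∈ Gm.Cl (y '' {i | ¬ S i})) :
    kq (fun i => a i * y i + c i) = kq y + ∑ i, dv (a i) := by
  classical
  let b := (Fintype.equivFinOfCardEq h).symm
  obtain ⟨D, hD⟩ := fr_of hK (hy.comp _ b.injective)
  have du : ∀ i k, D i (y (b k)) = if i = k then 1 else 0 := hD.dual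
  have ki : ∀ i, S (b i) → ∀ x ∈ Gm.Cl (y '' {i | ¬ S i}), D i x = 0 := fun i s x hx =>
    (dr_of (D i)).kill (D i).map_algebraMap (by
      rintro _ ⟨k, hk, rfl⟩
      rw [← b.apply_symm_apply k, du, if_neg fun e => hk (by simpa [e] using s)]) (Gm.mem_Cl.1 hx)
  have e : jac D ((fun i => a i * y i + c i) ∘ b) = ∏ i, a i := by
    rw [← b.prod_comp, ← Matrix.det_diagonal, jac,
      Matrix.twoBlockTriangular_det _ (fun i => ¬ S (b i)) fun i p k q => by
        simp [h1 _ q, du, show i ≠ k from fun e => p (e ▸ q)],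
      Matrix.twoBlockTriangular_det _ (fun i => ¬ S (b i)) fun i p k q =>
        Matrix.diagonal_apply_ne _ fun e : i = k => p (e ▸ q)]
    congr 2
    · ext ⟨i, p⟩ ⟨k, q⟩
      change D i (a (b k) * y (b k) + c (b k)) = if i = k then a (b i) else 0
      simp [h1 _ q, h1 _ p, du]
    · ext ⟨i, p⟩ ⟨k, q⟩
      change D i (a (b k) * y (b k) + c (b k)) = if i = k then a (b i) else 0
      rw [map_add, Derivation.leibniz, ki i (not_not.1 p) _ (h2 _).1, ki i (not_not.1 p) _ (h2 _).2,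
        du]
      split_ifs with z
      · simp [z]
      · simp
  rw [kq_eq hK b, kq_eq hK b, kap_chg hD (e ▸ Finset.prod_ne_zero_iff.2 fun i _ => a0 i), e,
    dv_prod _ fun i _ => a0 i]

/-- the log discrepancy of a product with a torus -/
theorem kq_ge {φ : K →+* K'} (hK : FF K n) (hK' : FF K' m)
    (hc : ∀ c, φ (algebraMap ℂ K c) = algebraMap ℂ K' c) (h : Fintype.card ι = n)
    (k : n + Fintype.card σ = m) {x : ι → K} {s : σ → K'} (hx : AlgebraicIndependent ℂ x)
    (hs : ∀ x : Fin n → K, AlgebraicIndependent ℂ x →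
      AlgebraicIndependent ℂ (Sum.elim (φ ∘ x) s)) (Q : Pl K') :
    pb φ (kq x + 1) Q + ∑ b, (Q.ord (s b) : ℝ) ≤ kq (Sum.elim (φ ∘ x) s) Q + 1 := by
  obtain ⟨x', i, p⟩ : ∃ x' : Fin n → K, AlgebraicIndependent ℂ x' ∧
      (Trv φ Q ∨ ∃ v, Lies φ Q v ∧ Ap v x') := by
    rcases hK'.ok (ah φ hc) Q with t | ⟨v, l⟩
    · exact hK.imp fun _ z => ⟨z.1, .inl t⟩
    · obtain _ | n := n
      · exact (no_pl hK v).elim
      obtain ⟨u, hu⟩ := exists_az hK v
      let b := finSuccEquiv n
      refine ⟨zz v u ∘ b, hu.indep.comp _ b.injective, .inr ⟨v, l, ?_⟩⟩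
      have := hu.ap hK (by simp)
      rw [Ap, kq_congr hK (by simp) b.symm (y := zz v u) (by simp)]
      rwa [Ap, ← b.sum_comp] at this
  have := sum_le_kq hK' (by simp [k]) (hs x' i) Q
  rw [Fintype.sum_sum_type] at this
  rw [kq_chg hK hK' hc h (by simp) k hx i (hs x' i), Pi.add_apply,
    show kq x + 1 = kq x' + 1 + (kq x - kq x') by abel, pb_add, Pi.add_apply, pb_ap p]
  simp only [Sum.elim_inl, Sum.elim_inr, Function.comp_apply] at this
  linarith

end form

section prime

variable {E F : Type} [Field E] [Field F] [Algebra ℂ E] [Algebra ℂ F] [Algebra E F]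
  [IsScalarTower ℂ E F] {σ ι : Type} [Fintype σ] [Fintype ι] {m : ℕ} {y : σ → F}

theorem ff_gen (hE : FF E m) (hy : AlgebraicIndependent E y)
    (hg : IntermediateField.adjoin E (range y) = ⊤) : FF F (m + Fintype.card σ) :=
  Gm.ff_gen (lin E F) hE (Gm.Ga.ind_alg.1 hy) (congrArg IntermediateField.toSubfield hg)

theorem ind_sum (hy : AlgebraicIndependent E y) {x : ι → E} (hx : AlgebraicIndependent ℂ x) :
    AlgebraicIndependent ℂ (Sum.elim (algebraMap E F ∘ x) y) :=
  (congrArg (fun w => AlgebraicIndependent ℂ w) (funext (by rintro (i | i) <;> rfl))).mp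
    ((ind1 hy hx).comp _ (Equiv.sumComm _ _).injective)

/-- the place of a prime polynomial -/
theorem qpl (hE : FF E m) (hy : AlgebraicIndependent E y)
    (hg : IntermediateField.adjoin E (range y) = ⊤) {q : MvPolynomial σ E} (hq : Prime q) :
    ∃ R : Pl F, (∀ p : MvPolynomial σ E, aeval y p ∈ R.ring) ∧
      (∀ p : MvPolynomial σ E, Mx R (aeval y p) ↔ q ∣ p) ∧ R.ord (aeval y q) = 1 ∧
      ∀ x : ι → E, Fintype.card ι = m → AlgebraicIndependent ℂ x →
        kq (Sum.elim (algebraMap E F ∘ x) y) R = 0 := by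
  classical
  have hF := ff_gen hE hy hg
  let _ := (aeval y : MvPolynomial σ E →ₐ[E] F).toRingHom.toAlgebra
  have : FaithfulSMul (MvPolynomial σ E) F := (faithfulSMul_iff_algebraMap_injective _ _).2 hy
  have : IsFractionRing (MvPolynomial σ E) F := IsFractionRing.of_field _ _ fun f =>
    (IntermediateField.mem_adjoin_range_iff E y f).1 (hg ▸ trivial)
  have := (Ideal.span_singleton_prime hq.ne_zero).2 hq
  obtain ⟨V, hV⟩ := Gm.Ga.mk_place (E := F) (Ideal.span {q}) (Ideal.mem_span_singleton_self q)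
    hq.ne_zero fun a ha => (Ideal.mem_span_singleton'.1 ha).imp fun _ => Eq.symm
  replace hV : ∀ f, f ∈ V.ring ↔ ∃ a s : MvPolynomial σ E, ¬ q ∣ s ∧
      f = aeval y a * (aeval y s)⁻¹ := fun f => (hV f).trans (by
    simp only [Ideal.mem_span_singleton]; rfl)
  have ne : ∀ {a : MvPolynomial σ E}, a ≠ 0 → aeval y a ≠ 0 := fun h => (map_ne_zero_iff _ hy).2 h
  have a1 : ∀ a : MvPolynomial σ E, aeval y a ∈ V.ring := fun a =>
    (hV _).2 ⟨a, 1, hq.not_dvd_one, by simp⟩
  have a2 : ∀ a : MvPolynomial σ E, IsLocalRing.residue V.ring ⟨_, a1 a⟩ = 0 ↔ q ∣ a := fun a => by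
    rw [← not_iff_not, ← Ne, IsLocalRing.residue_ne_zero_iff_isUnit]
    refine ⟨fun k d => ?_, fun k => IsUnit.of_mul_eq_one ⟨_, (hV _).2 ⟨1, a, k, rfl⟩⟩ (Subtype.ext ?_)⟩
    · obtain ⟨b, hb⟩ := k.exists_right_inv
      obtain ⟨u, s, hs, e⟩ := (hV _).1 b.2
      have e' : aeval y a * (b : F) = 1 := congrArg Subtype.val hb
      rw [e, ← mul_assoc, mul_inv_eq_one₀ (ne fun z : s = 0 => hs (z ▸ dvd_zero q)), ← map_mul] at e'
      exact hs (hy e' ▸ d.mul_right u)
    · change aeval y a * (aeval y 1 * (aeval y a)⁻¹) = 1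
      rw [map_one, one_mul, mul_inv_cancel₀ (ne fun z : a = 0 => k (z ▸ dvd_zero q))]
  have cE : ∀ e, algebraMap E F e ∈ V.ring := fun e => by simpa using a1 (C e)
  have cy : ∀ i, y i ∈ V.ring := fun i => by simpa using a1 (X i)
  have c : ∀ c, algebraMap ℂ F c ∈ V.ring := fun c => lin E F c ▸ cE _
  obtain ⟨i, hi⟩ : ∃ i, q.degreeOf i ≠ 0 := by
    by_contra! z
    have e := vars_eq_empty_iff_eq_C.1 (Finset.eq_empty_of_forall_notMem fun i hi =>
      mem_vars_iff_degreeOf_ne_zero.1 hi (z i))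
    exact hq.not_isUnit (e ▸ (IsUnit.mk0 _ fun k => hq.ne_zero (by rw [e, k, C_0])).map C)
  let _ := (cst V c).toAlgebra
  have d : Algebra.trdeg ℂ (IsLocalRing.ResidueField V.ring) + 1 = Algebra.trdeg ℂ F := by
    refine le_antisymm (Pb.res_lt (Pl.ring_ne_top V) c fun _ => rfl) ?_
    let rs := IsLocalRing.residue V.ring
    let θ : E →+* V.ring := (algebraMap E F).codRestrict V.ring cE
    let w : {j // j ≠ i} → V.ring := fun j => ⟨_, cy j⟩
    have := (Gm.trdeg_gen (φ := rs.comp θ) (b := rs ∘ w)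
      fun a => congrArg rs (Subtype.ext (lin E F a))).1 fun p hp => by
        have e : (⟨_, a1 (rename Subtype.val p)⟩ : V.ring) = eval₂ θ w p := Subtype.ext
          ((aeval_rename _ _ _).trans (eval₂_comp_left V.ring.subtype θ w p).symm)
        obtain ⟨r, hr⟩ := (a2 _).1 ((congrArg rs e).trans ((eval₂_comp_left rs θ w p).trans hp))
        by_contra p0
        have r0 := (map_ne_zero_iff _ (rename_injective _ Subtype.val_injective)).2 p0
        have := mt (fun k => mem_vars_rename _ p (mem_vars_iff_degreeOf_ne_zero.2 k))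
          fun ⟨j, _, k⟩ => j.2 k
        rw [hr] at r0 this
        rw [degreeOf_mul_eq hq.ne_zero (right_ne_zero_of_mul r0)] at this
        omega
    rw [hF.trdeg]
    refine le_trans ?_ (add_le_add_left this 1)
    rw [hE.trdeg, Cardinal.mk_fintype, Fintype.card_subtype_compl, Fintype.card_subtype_eq]
    have := Fintype.card_pos_iff.2 ⟨i⟩
    exact_mod_cast (by omega)
  let R : Pl F := ⟨V, c, d⟩
  have mx : ∀ p : MvPolynomial σ E, Mx R (aeval y p) ↔ q ∣ p := fun p => by
    rw [← rd_eq_zero (a1 p), rd_of (a1 p)]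
    exact a2 p
  have un : ∀ {s : MvPolynomial σ E}, ¬ q ∣ s → R.ord (aeval y s) = 0 := fun k =>
    ord_zero_of (a1 _) (mt (fun z => (mx _).1 ((rd_eq_zero (a1 _)).1 z)) k)
  refine ⟨R, a1, mx, ?_, fun x cx hx => ?_⟩
  · obtain ⟨a, s, hs, e⟩ := (hV _).1 (t_mem R)
    have s0 := ne fun z : s = 0 => hs (z ▸ dvd_zero q)
    have a0 : aeval y a ≠ 0 := fun z => R.t_ne (by rw [e, z, zero_mul])
    have o := R.ord_t
    rw [e, Pl.ord_mul _ a0 (inv_ne_zero s0), Pl.ord_inv, un hs] at o
    obtain ⟨r, rfl⟩ := (mx a).1 (mx_iff.2 (.inr (by omega)))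
    rw [map_mul] at a0 o
    rw [Pl.ord_mul _ (left_ne_zero_of_mul a0) (right_ne_zero_of_mul a0)] at o
    have := (mx_iff.1 ((mx q).2 dvd_rfl)).resolve_left (left_ne_zero_of_mul a0)
    have := Pl.ord_nonneg_of_mem R.toPlace (a1 r)
    omega
  · let b := (Fintype.equivFinOfCardEq (show Fintype.card (ι ⊕ σ) = m + Fintype.card σ by
      simp [cx])).symm
    let a := (Fintype.equivFinOfCardEq cx).symm
    obtain ⟨D, hD⟩ := fr_of hF ((ind_sum hy hx).comp _ b.injective)
    obtain ⟨D', hD'⟩ := fr_of hE (hx.comp _ a.injective)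
    have dm : ∀ j k, D j (Sum.elim (algebraMap E F ∘ x) y k) ∈ R.ring := fun j k => by
      have := hD.dual j (b.symm k)
      rw [Function.comp_apply, b.apply_symm_apply] at this
      rw [this]
      split_ifs
      exacts [one_mem _, zero_mem _]
    have dp : ∀ j (p : MvPolynomial σ E), D j (aeval y p) ∈ R.ring := fun j p => by
      induction p using MvPolynomial.induction_on with
      | C e =>
        rw [aeval_C]
        exact (expand ((dr_of (D j)).comp (algebraMap E F)) (fun c => by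
          rw [lin, Derivation.map_algebraMap]) hD' e) ▸
            sum_mem fun k _ => mul_mem (dm j (.inl _)) (cE _)
      | add p q hp hq => rw [map_add, map_add]; exact add_mem hp hq
      | mul_X p i hp =>
        rw [map_mul, aeval_X, Derivation.leibniz]
        exact add_mem (mul_mem (a1 p) (dm j (.inr i))) (mul_mem (cy i) hp)
    rw [kq_eq hF b, kap_eq (P := R) ⟨hD, fun j => by
      rw [Function.comp_apply]
      rcases b j with k | k
      exacts [cE _, cy k], fun j f hf => by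
      obtain ⟨a, s, hs, rfl⟩ := (hV _).1 hf
      have := inv_mem_ord (un hs)
      rw [Derivation.leibniz, Derivation.leibniz_inv]
      exact add_mem (mul_mem (a1 a) (mul_mem (neg_mem (pow_mem this 2)) (dp j s)))
        (mul_mem this (dp j a))⟩, jac_self hD, Pl.ord_one, Int.cast_zero]

end prime

section tens

variable {K C F : Type} [Field K] [Field C] [Field F] [Algebra ℂ K] [Algebra ℂ C] [Algebra ℂ F]
  {ι τ : Type} {k r : ℕ}

/-- linear disjointness from the transcendence degree -/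
theorem dis_of [Algebra K F] [IsScalarTower ℂ K F] (ρ : C →ₐ[ℂ] F) {x : τ → C}
    (hx : ∀ e, e ∈ Gm.Cl (range x)) (hi : AlgebraicIndependent K (ρ ∘ x)) {b : ι → C}
    (hb : LinearIndependent ℂ b) : LinearIndependent K (ρ ∘ b) := by
  have := P025H720.isDomain_tensor ℂ K C
  let ν : K ⊗[ℂ] C →ₐ[K] F := Algebra.TensorProduct.lift (Algebra.ofId K F) ρ
    fun _ _ => Commute.all _ _
  let j : C →ₐ[ℂ] K ⊗[ℂ] C := Algebra.TensorProduct.includeRight
  have e : ∀ c, ν (j c) = ρ c := fun c => by simp [ν, j]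
  let A := Algebra.adjoin K (range (j ∘ x))
  have al : ∀ d : K ⊗[ℂ] C, IsAlgebraic A d := fun d => by
    induction d with
    | zero => exact isAlgebraic_zero
    | add a b ha hb => exact ha.add hb
    | tmul a c =>
      rw [show a ⊗ₜ[ℂ] c = algebraMap K _ a * j c by simp [j]]
      refine (isAlgebraic_algebraMap (algebraMap K A a)).mul ?_
      exact (Gm.mem_Cl.1 (hx c)).ringHom_of_comp_eq ((j.toRingHom.comp
        (Algebra.adjoin ℂ (range x)).val.toRingHom).codRestrict A fun z =>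
          (Algebra.adjoin_le (S := (A.restrictScalars ℂ).comap j) (range_subset_iff.2 fun i =>
            Algebra.subset_adjoin ⟨i, rfl⟩)) z.2) j.toRingHom
        (fun _ _ z => Subtype.ext (j.toRingHom.injective (congrArg Subtype.val z))) rfl
  have inj : Function.Injective ν := (injective_iff_map_eq_zero _).2 fun d hd => by
    by_contra d0
    obtain ⟨⟨a, ha⟩, z, a0⟩ := (Submodule.ne_bot_iff _).1
      (Ideal.comap_ne_bot_of_algebraic_mem (I := RingHom.ker ν) d0 hd (al d))
    obtain ⟨p, rfl⟩ := (Algebra.adjoin_range_eq_range_aeval K (j ∘ x)).le ha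
    have : aeval (ρ ∘ x) p = 0 := by
      rw [← show ν ∘ j ∘ x = ρ ∘ x from funext fun i => e _]
      exact (comp_aeval_apply _ ν p).symm.trans z
    exact a0 (Subtype.ext ((congrArg _ (algebraicIndependent_iff.1 hi p this)).trans (map_zero _)))
  rw [← show ν.toLinearMap ∘ (fun i => 1 ⊗ₜ[ℂ] b i) = ρ ∘ b from funext fun i => e _]
  exact (Module.Flat.linearIndependent_one_tmul (S := K) hb).map' _ (LinearMap.ker_eq_bot.2 inj)

variable [Algebra K F] [Algebra C F] [IsScalarTower ℂ K F] [IsScalarTower ℂ C F] [Fintype ι]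
  [Fintype τ]

theorem swap (h : Gf.BE ℂ K C F) : Gf.BE ℂ C K F :=
  ⟨union_comm _ _ ▸ h.gen, fun _ _ hv => Fm.dis_swap h hv⟩

/-- the pull back of a place to a product -/
theorem tens (h : Gf.BE ℂ C K F) (hK : FF K k) (hC : FF C r) (hF : FF F (k + r)) {z : ι → K}
    {x : τ → C} (cz : Fintype.card ι = k) (cx : Fintype.card τ = r)
    (hz : AlgebraicIndependent ℂ z) (hx : AlgebraicIndependent ℂ x) (v : Pl K) :
    ∃ R : Pl F, Lies (algebraMap K F) R v ∧ Trv (algebraMap C F) R ∧
      kq (Sum.elim (algebraMap K F ∘ z) (algebraMap C F ∘ x)) R + 1 =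
        pb (algebraMap K F) (kq z + 1) R ∧
      ∀ (α : Type) [Fintype α] (b : α → C) (c : α → K), LinearIndependent ℂ b → ∀ i, c i ≠ 0 →
        ∑ i, algebraMap K F (c i) * algebraMap C F (b i) ≠ 0 ∧
        R.ord (∑ i, algebraMap K F (c i) * algebraMap C F (b i)) ≤ R.ord (algebraMap K F (c i)) := by
  classical
  obtain _ | k := k
  · exact (no_pl hK v).elim
  let M := IntermediateField.adjoin K (range (algebraMap C F ∘ x))
  let s : τ → M := fun i => ⟨_, IntermediateField.subset_adjoin _ _ ⟨i, rfl⟩⟩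
  have b₃ : AlgebraicIndependent K (algebraMap C F ∘ x) := h.algInd hx
  have gen : IntermediateField.adjoin K (range s) = ⊤ := IntermediateField.lift_injective _ (by
    rw [IntermediateField.lift_adjoin, IntermediateField.lift_top, ← range_comp]; rfl)
  have : IsScalarTower ℂ M F := .of_algebraMap_eq fun _ => rfl
  have hs : AlgebraicIndependent K s := .of_comp M.val b₃
  have := Pb.fin_of_ff (ff_gen hK hs gen) (cx ▸ hF)
  obtain ⟨R₀, l₀, -, ym, gi, -⟩ := exists_gauss hs gen v
  obtain ⟨R, l₁⟩ := Pb.up_fin (K' := F) R₀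
  have l : Lies (algebraMap K F) R v := l₁.comp l₀
  have xm : ∀ i, algebraMap C F (x i) ∈ R.ring := fun i => (l₁ _).1 (ym i)
  let _ := l.κ.toAlgebra
  have : IsScalarTower ℂ v.κ R.κ := .of_algebraMap_eq fun c => by
    rw [← rd_const, ← rd_const, ← lin K F]
    exact (l.isRd _ (v.con c)).symm
  have xi : AlgebraicIndependent v.κ fun i => R.rd (algebraMap C F (x i)) :=
    algebraicIndependent_iff.2 fun p hp => gi p (l₁.κ.injective (by
      rw [eval₂_comp_left, map_zero, ← hp, aeval_def]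
      congr 1
      · exact IsRd.uniq (fun f hf => by
          rw [RingHom.comp_apply, l₀.isRd f hf, l₁.isRd _ ((l₀ f).1 hf)]; rfl) l.isRd
      · exact funext fun i => l₁.isRd _ (ym i)))
  obtain ⟨u, hu⟩ := exists_az hK v
  have ui := hu.ind.sumElim_comp xi
  have t : Trv (algebraMap C F) R := (okL hF R).resolve_right fun ⟨w, l'⟩ => by
    obtain _ | r := r
    · exact no_pl hC w
    have : AlgebraicIndependent ℂ fun i => w.rd (x i) := by
      refine .of_comp (ah l'.κ fun c => by rw [← rd_const, l'.isRd _ (w.con c), lin, rd_const]) ?_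
      change AlgebraicIndependent ℂ fun i => l'.κ (w.rd (x i))
      simp only [fun i => l'.isRd _ ((l' _).2 (xm i))]
      exact xi.restrictScalars (algebraMap ℂ v.κ).injective
    have := this.cardinalMk_le_trdeg
    rw [trdeg_κ hC w, Cardinal.mk_fintype, cx, Nat.cast_le] at this
    omega
  refine ⟨R, l, t, ?_, fun α _ b c hb i c0 => ?_⟩
  · have ap : Ap R (Sum.elim (algebraMap K F ∘ zz v u) (algebraMap C F ∘ x)) :=
      ap_of hF (by simp [cx]) (oL _ _) l.e_pos (by
        rintro (i | i); exacts [(l _).1 (hu.mem i), xm i]) ((congrArg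
          (fun w => AlgebraicIndependent ℂ w) (funext (by
            rintro (i | i); exacts [l.isRd _ (hu.mem i), rfl]))).mp
          (ui.comp _ (Equiv.sumComm _ _).injective))
    rw [Ap, Fintype.sum_sum_type] at ap
    simp only [Sum.elim_inl, Sum.elim_inr, Function.comp_apply, t.ord, Int.cast_zero,
      Finset.sum_const_zero, add_zero] at ap
    rw [kq_chg hK hF (lin K F) cz (by simp) (by rw [cx]) hz hu.indep (ind_sum b₃ hu.indep),
      show kq z + 1 = kq (zz v u) + 1 + (kq z - kq (zz v u)) by abel, pb_add, Pi.add_apply,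
      Pi.add_apply, pb_ap (.inr ⟨v, l, hu.ap hK (by simp)⟩), ← ap]
    ring
  · obtain ⟨j, hj, mn⟩ := (Finset.univ.filter fun i => c i ≠ 0).exists_min_image
      (fun i => v.ord (c i)) ⟨i, by simpa using c0⟩
    have j0 : c j ≠ 0 := by simpa using hj
    have dm : ∀ i, c i / c j ∈ v.ring := fun i => by
      by_cases z : c i = 0
      · rw [z, zero_div]; exact zero_mem _
      · exact mem_ord (by rw [Pl.ord_div _ z j0]; exact sub_nonneg.2 (mn i (by simpa using z)))
    let a : R.ring := ∑ i, ⟨_, (l _).1 (dm i)⟩ * ⟨_, t (b i)⟩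
    let rs : R.ring →+* R.κ := IsLocalRing.residue R.ring
    have a0 : R.rd a ≠ 0 := fun e => by
      have := Fintype.linearIndependent_iff.1 (dis_of (K := v.κ) (ah (Gx.hr t) fun c => by
        rw [Gx.hr_apply t, lin, rd_const]) (Gm.cl_basis hC hx cx.ge) ((congrArg
          (fun w => AlgebraicIndependent v.κ w) (funext fun i => (Gx.hr_apply t _).symm)).mp xi) hb)
        (fun i => v.rd (c i / c j)) ((Finset.sum_congr rfl fun i _ => (Algebra.smul_def _ _).trans
          ((congrArg₂ (· * ·) ((l.isRd _ (dm i)).trans (rd_of _)) ((Gx.hr_apply t _).trans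
            (rd_of _))).trans (map_mul rs _ _).symm)).trans
          ((map_sum rs _ _).symm.trans ((rd_of a.2).symm.trans e))) j
      rw [div_self j0, Bm.rd_one] at this
      exact one_ne_zero this
    have j1 := (map_ne_zero (algebraMap K F)).2 j0
    have e : ∑ i, algebraMap K F (c i) * algebraMap C F (b i) = algebraMap K F (c j) * a := by
      simp only [a, AddSubmonoidClass.coe_finsetSum, MulMemClass.coe_mul, Finset.mul_sum, map_div₀]
      exact Finset.sum_congr rfl fun i _ => by field_simp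
    have a1 : (a : F) ≠ 0 := fun z => a0 (by rw [z, Gm.rd_zero])
    rw [e, Pl.ord_mul _ j1 a1, ord_zero_of a.2 a0, add_zero, l.ord (c j), l.ord (c i)]
    exact ⟨mul_ne_zero j1 a1, mul_le_mul_of_nonneg_left (mn i (by simpa using c0)) l.e_pos.le⟩

theorem big2 (h : Gf.BE ℂ K C F) (hF : FF F k) {X₁ : BD K} {X₂ : BD C} (b₁ : Big X₁)
    (b₂ : Big X₂) : Big (pb (algebraMap K F) X₁ + pb (algebraMap C F) X₂) := by
  classical
  have one : ∀ {K : Type} [Field K] [Algebra ℂ K] [Algebra K F] [IsScalarTower ℂ K F] {X : BD K}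
      {Y : BD F}, Big X → Eff Y → ∀ f, algebraMap K F f ∈ fld (pb (algebraMap K F) X + Y) := by
    intro K _ _ _ _ X Y b e f
    obtain ⟨ε, e0, k⟩ := b {1, f}
    have := ((okL hF).eff k).add e
    rw [pb_sub, pb_smul, (okL hF).pb_mx, Pb.im_eq, Finset.image_insert, Finset.image_singleton,
      map_one, mx_pld, sub_add_eq_add_sub] at this
    exact InF.mem ⟨ε, e0, this⟩
  have e₁ := (okL (K := F) hF).eff b₁.eff
  have e₂ := (okL (K := F) hF).eff b₂.eff
  exact (big_iff_fld (e₁.add e₂)).2 (eq_top_iff.2 fun x _ =>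
    (Subfield.closure_le (t := (fld _).toSubfield)).2 (union_subset (range_subset_iff.2 (one b₁ e₂))
      (range_subset_iff.2 (add_comm (pb (algebraMap C F) X₂) _ ▸ one b₂ e₁)))
      (h.gen ▸ Subfield.mem_top x))

end tens

section main

variable {E L F : Type} [Field E] [Field L] [Field F] [Algebra ℂ E] [Algebra ℂ L] [Algebra ℂ F]
  {σ τ : Type} [Fintype σ] [Fintype τ] {n : ℕ}

theorem rf_ff {z : σ → L} (h : Rf z) : FF L (Fintype.card σ) := by
  refine ⟨z ∘ (Fintype.equivFin σ).symm, h.ind.comp _ (Equiv.injective _), ?_⟩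
  rw [(Equiv.surjective _).range_comp, h.gen]
  exact Module.Finite.of_surjective (Algebra.linearMap _ _) fun x => ⟨⟨x, trivial⟩, rfl⟩

/-- places which are trivial on a field of rational functions -/
theorem rf_trv {z : σ → L} (h : Rf z) (ψ : L →ₐ[ℂ] F) {P : Pl F} (m : ∀ b, ψ (z b) ∈ P.ring)
    (k : ∀ p : MvPolynomial σ ℂ, Mx P (ψ (aeval z p)) → p = 0) : Trv (ψ : L →+* F) P := fun f => by
  obtain ⟨p, q, rfl⟩ := (IntermediateField.mem_adjoin_range_iff ℂ z f).1 (h.gen ▸ trivial)
  by_cases q0 : q = 0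
  · simp [q0]
  rw [map_div₀, div_eq_mul_inv]
  refine mul_mem ?_ (inv_mem_of (mt (k q) q0))
  exact comp_aeval_apply _ ψ p ▸ adj_mem (S := range fun b => ψ (z b)) (forall_mem_range.2 m)
    (by rw [Algebra.adjoin_range_eq_range_aeval]; exact ⟨p, rfl⟩)

variable [Algebra E F] [Algebra L F] [IsScalarTower ℂ E F] [IsScalarTower ℂ L F]

theorem rd_ev {P : Pl F} (t : Trv (algebraMap E F) P) {w : τ → F} (hw : ∀ i, w i ∈ P.ring)
    (p : MvPolynomial τ E) :
    aeval w p ∈ P.ring ∧ P.rd (aeval w p) = eval₂ (Gx.hr t) (fun i => P.rd (w i)) p := by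
  induction p using MvPolynomial.induction_on with
  | C a => rw [aeval_C, eval₂_C]; exact ⟨t a, rd_of _⟩
  | add p q hp hq => rw [map_add, eval₂_add, rd_add hp.1 hq.1, hp.2, hq.2]; exact ⟨add_mem hp.1 hq.1, rfl⟩
  | mul_X p i hp =>
    rw [map_mul, eval₂_mul, aeval_X, eval₂_X, rd_mul hp.1 (hw i), hp.2]
    exact ⟨mul_mem hp.1 (hw i), rfl⟩

theorem gen_of (h : Gf.BE ℂ E L F) {z : σ → L} (hz : Rf z) {w : τ → F}
    (hw : ∀ b, algebraMap L F (z b) ∈ IntermediateField.adjoin E (range w)) :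
    IntermediateField.adjoin E (range w) = ⊤ := eq_top_iff.2 fun x _ =>
  (Subfield.closure_le (t := (IntermediateField.adjoin E (range w)).toSubfield)).2 (union_subset
    (range_subset_iff.2 (IntermediateField.algebraMap_mem _)) (range_subset_iff.2 fun f =>
      (IntermediateField.adjoin_le_iff (T := ((IntermediateField.adjoin E (range w)).restrictScalars
        ℂ).comap (IsScalarTower.toAlgHom ℂ L F))).2 (range_subset_iff.2 hw) (hz.gen ▸ trivial)))
    (h.gen ▸ Subfield.mem_top x)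

/-- extension from the graph to the product -/
theorem ext (h : Gf.BE ℂ E L F) (hE : FF E (n + 1)) {z : Option τ → L} (hz : Rf z) (φ : L →ₐ[ℂ] E)
    {x : Fin (n + 1) → E} (hx : AlgebraicIndependent ℂ x) {A : BD E} {G : BD L} {u : E}
    (a1 : Nef (-A)) (a2 : Big (-A)) (g1 : Nef G) (g2 : Big G)
    (k : ∀ w, 0 < (kq x + 1 - A + pb (φ : L →+* E) G + dv u) w) : ∃ g : F,
      (∀ (α : Type) [Fintype α] (c : α → E) (e : α → L),
        g = ∑ i, algebraMap E F (c i) * algebraMap L F (e i) → u = ∑ i, c i * φ (e i)) ∧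
      ∀ R : Pl F, (∀ b, algebraMap L F (z b) ∈ R.ring) → (∀ b, algebraMap E F (φ (z b)) ∈ R.ring) →
        (g ∈ R.ring ∧ Trv (algebraMap E F) R ∧ Trv (algebraMap L F) R) ∨ g = 0 ∨
        -1 < kq (Sum.elim (algebraMap E F ∘ x) (algebraMap L F ∘ z)) R - pb (algebraMap E F) A R +
          pb (algebraMap L F) G R + R.ord g := by
  classical
  set y := algebraMap L F ∘ z
  let c : Option τ → F := fun b => algebraMap E F (φ (z b))
  have hy : AlgebraicIndependent E y := (swap h).algInd hz.ind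
  have hF : FF F (n + 1 + Fintype.card τ + 1) := by
    have := ff_gen hE hy (gen_of h hz fun b => IntermediateField.subset_adjoin _ _ ⟨b, rfl⟩)
    rwa [Fintype.card_option] at this
  let t := y none - c none
  have t0 : t ≠ 0 := fun e => hy.transcendental none (sub_eq_zero.1 e ▸ isAlgebraic_algebraMap _)
  let T : Option τ → F := fun o => o.elim t fun b => (y (some b) - c (some b)) / t
  have e0 : y none = t + c none := (sub_add_cancel _ _).symm
  have e1 : ∀ b, y (some b) = t * T (some b) + c (some b) := fun b => by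
    rw [show T (some b) = _ / t from rfl, mul_div_cancel₀ _ t0, sub_add_cancel]
  have gT : IntermediateField.adjoin E (range T) = ⊤ := by
    have m : ∀ b, T b ∈ IntermediateField.adjoin E (range T) := fun b =>
      IntermediateField.subset_adjoin _ _ ⟨b, rfl⟩
    refine gen_of h hz fun b => show y b ∈ _ from ?_
    rcases b with _ | b
    · exact e0 ▸ add_mem (m none) (IntermediateField.algebraMap_mem _ _)
    · exact e1 b ▸ add_mem (mul_mem (m none) (m _)) (IntermediateField.algebraMap_mem _ _)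
  have hT : AlgebraicIndependent E T := Gm.Ga.ind_alg.2 (Gm.ind_of_trdeg (lin E F) hE
    (congrArg IntermediateField.toSubfield gT) (by rw [hF.trdeg, Fintype.card_option]; rfl))
  obtain ⟨P, p1, p2, p3, p4⟩ := qpl (ι := Fin (n + 1)) hE hT gT (X_prime (i := none))
  rw [aeval_X] at p3
  have tE : Trv (algebraMap E F) P := fun e => by simpa using p1 (C e)
  have mT : ∀ b, T b ∈ P.ring := fun b => by simpa using p1 (X b)
  have mt : Mx P t := mx_iff.2 (.inr (zero_lt_one.trans_eq p3.symm))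
  let ρ := Gx.hr tE
  have cρ : ∀ a, ρ (algebraMap ℂ E a) = algebraMap ℂ P.κ a := fun a => by
    rw [Gx.hr_apply tE, lin, rd_const]
  let _ := ρ.toAlgebra
  have : IsScalarTower ℂ E P.κ := .of_algebraMap_eq fun a => (cρ a).symm
  have iT : AlgebraicIndependent E fun b => P.rd (T (some b)) :=
    algebraicIndependent_iff.2 fun p hp => by
      have q := rd_ev tE (fun b => mT (some b)) p
      obtain ⟨r, hr⟩ := (p2 (rename some p)).1 (by
        rw [aeval_rename]; exact (rd_eq_zero q.1).1 (q.2.trans hp))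
      have := congrArg (aeval fun o : Option τ => o.elim (0 : MvPolynomial τ E) X) hr
      rw [aeval_rename, map_mul, aeval_X] at this
      exact (aeval_X_left_apply p).symm.trans (this.trans (zero_mul _))
  have my : ∀ b, y b ∈ P.ring ∧ P.rd (y b) = ρ (φ (z b)) := by
    have : ∀ a b, Mx P a → a + c b ∈ P.ring ∧ P.rd (a + c b) = ρ (φ (z b)) := fun a b m =>
      ⟨add_mem m.mem (tE _), by
        rw [rd_add m.mem (tE _), (rd_eq_zero m.mem).2 m, zero_add, Gx.hr_apply tE]⟩
    rintro (_ | b)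
    · exact e0 ▸ this _ _ mt
    · exact e1 b ▸ this _ _ (mul_comm t _ ▸ mt.mul (mT _))
  let ψ := IsScalarTower.toAlgHom ℂ L F
  let θ := (ah ρ cρ).comp φ
  have ev : ∀ p : MvPolynomial (Option τ) ℂ, P.rd (ψ (aeval z p)) = θ (aeval z p) := fun p => by
    rw [comp_aeval_apply _ ψ, comp_aeval_apply _ θ]
    exact (rd_aeval (fun b => (my b).1) p).trans (congrArg (aeval · p) (funext fun b => (my b).2))
  have tL : Trv (algebraMap L F) P := rf_trv hz ψ (fun b => (my b).1) fun p m =>
    algebraicIndependent_iff.1 hz.ind p ((map_eq_zero θ).1 ((ev p).symm.trans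
      ((rd_eq_zero m.mem).2 m)))
  have eL : ∀ f, θ f = P.rd (algebraMap L F f) := fun f => by
    obtain ⟨p, q, rfl⟩ := (IntermediateField.mem_adjoin_range_iff ℂ z f).1 (hz.gen ▸ trivial)
    rw [← Gx.hr_apply tL, map_div₀, map_div₀, Gx.hr_apply tL, Gx.hr_apply tL, ← ev, ← ev]
    rfl
  have cl : ∀ (w : Fin (n + 1) ⊕ Option τ → F) (S : Set _), (∀ i, w (.inl i) = algebraMap E F (x i)) →
      (∀ i, .inl i ∈ S) → ∀ e, algebraMap E F e ∈ Gm.Cl (w '' S) := fun w S a b e =>
    Gm.cl_map (Cst.of_lin (lin E F)) (forall_mem_range.2 fun i => Gm.sub_Cl ⟨_, b i, a i⟩)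
      (Gm.cl_basis hE hx (by simp) e)
  have cd : Fintype.card (Fin (n + 1) ⊕ Option τ) = n + 1 + Fintype.card τ + 1 := by
    simp [add_assoc]
  have f1 := kq_tri hF cd (fun i => ∃ b, i = .inr (some b))
    (a := Sum.elim 1 fun o => o.elim 1 fun _ => t) (c := Sum.elim 0 fun o => o.elim 0 (c ∘ some))
    (ind_sum hT hx) (by rintro (_ | _ | _) <;> simp [t0]) (by rintro (_ | _ | _) <;> simp) (by
      rintro (_ | _ | _)
      exacts [⟨one_mem _, zero_mem _⟩, ⟨one_mem _, zero_mem _⟩,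
        ⟨Gm.sub_Cl ⟨.inr none, by simp, rfl⟩, cl _ _ (fun _ => rfl) (by simp) _⟩])
  have f2 := kq_tri hF cd (· = .inr none) (a := 1)
    (c := Sum.elim 0 fun o => o.elim (-c none) 0) (ind_sum hy hx) (by simp)
    (by rintro (_ | _ | _) <;> simp) (by
      rintro (_ | _ | _)
      exacts [⟨one_mem _, zero_mem _⟩, ⟨one_mem _, neg_mem (cl _ _ (fun _ => rfl) (by simp) _)⟩,
        ⟨one_mem _, zero_mem _⟩])
  have f3 : kq (Sum.elim (algebraMap E F ∘ x) y) =
      kq (Sum.elim (algebraMap E F ∘ x) T) + (Fintype.card τ : ℝ) • dv t := by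
    have := f2.symm.trans ((congrArg kq (funext (by
      rintro (_ | _ | b)
      · rfl
      · simp [e0, T]
      · simp [e1]))).trans f1)
    simpa [Fintype.sum_option, Nat.cast_smul_eq_nsmul] using this
  let S : Finset F := insert 1 (Finset.univ.image fun b => T (some b))
  have s1 : (1 : F) ∈ S := Finset.mem_insert_self _ _
  have s2 : ∀ b, T (some b) ∈ S := fun b => by simp [S]
  have s3 : ∀ R : Pl F, ∀ a : ℤ, 0 ≤ a → (∀ b, -R.ord (T (some b)) ≤ a) → R.mz S ≤ a :=
    fun R a p q => R.mz_le ⟨1, s1, one_ne_zero⟩ (by simpa [S] using ⟨p, fun b _ => q b⟩)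
  have s4 : P.mz S = 0 := le_antisymm (s3 P 0 le_rfl fun b =>
    neg_nonpos.2 (Pl.ord_nonneg_of_mem _ (mT _))) (by simpa using P.le_mz s1 one_ne_zero)
  obtain ⟨j, -, ej⟩ := kq_cn hF cd (ind_sum hT hx)
  have oE := okL (L := E) hF
  have oL := okL (L := L) hF
  have cA : A ∈ Car E := neg_mem_iff.1 a1.car
  let s : ℝ := Fintype.card τ + 1
  have s0 : 0 ≤ s := by positivity
  let B := pb (algebraMap E F) A - pb (algebraMap L F) G - s • mx S
  have d : dsc (n + 1 + Fintype.card τ + 1) (B + (dv t - dv j)) =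
      kq (Sum.elim (algebraMap E F ∘ x) T) - dv t - B := by rw [ej, dsc]; abel
  have pr : -(B + (dv t - dv j)) - (pb (algebraMap E F) (-A) + pb (algebraMap L F) G + s • mx S) ∈
      Prn F := by
    rw [pb_neg, show ∀ a b c d e : BD F, -(a - b - c + (d - e)) - (-a + b + c) = e - d from
      fun _ _ _ _ _ => by abel]
    exact sub_mem (dv_mem_Prn _) (dv_mem_Prn _)
  have hκ := Gm.ff_κ P hF
  have oρ : Ok ρ := okL (L := E) hκ
  have ad := adj_kq hF (σ := Fin (n + 1) ⊕ τ) (by simp) (a := t)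
    (u := Sum.elim (algebraMap E F ∘ x) fun b => T (some b)) p3
    (by rintro (i | i); exacts [tE _, mT (some i)])
    ((congrArg (fun w => AlgebraicIndependent ℂ w) (funext (by
      rintro (i | i); exacts [Gx.hr_apply tE _, rfl]))).mp (ind_sum iT hx))
    (sub_mem (sub_mem (oE.car cA) (oL.car g1.car)) ((Car F).smul_mem s (mx_mem_Car S)))
    (d.trans (congrArg (· - dv t - B)
      (kq_congr hF (by simp) (oR _ _) (by rintro (_ | _ | _) <;> rfl))))
  rw [res_sub_smul hF P (sub_mem (oE.car cA) (oL.car g1.car)) (mx_mem_Car S),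
    res_sub hF P (oE.car cA) (oL.car g1.car), res_mx hF,
    Pb.res_trv res' hF oE tE (ρ := ρ) (Gx.hr_apply tE) oρ cA,
    Pb.res_trv res' hF oL tL (ρ := ρ.comp φ) eL (hκ.ok θ) g1.car, oρ.pb_comp,
    show (fun i => P.rd (Sum.elim (algebraMap E F ∘ x) (fun b => T (some b)) i)) =
      Sum.elim (ρ ∘ x) fun b => P.rd (T (some b)) from funext (by
        rintro (i | i); exacts [(Gx.hr_apply tE _).symm, rfl])] at ad
  obtain ⟨g, m, r, a⟩ := Ku.uext _ F hF P _ (ρ u)
    ((((oE.nef a1).add (oL.nef g1)).add ((nef_mx S).smul s0)).congr pr)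
    (((big2 h hF a2 g2).add_nef ((nef_mx S).smul s0)).congr pr) (by
      rw [d]
      simp only [B, Pi.sub_apply, Pi.smul_apply, p4 x (by simp) hx, tE.pb, tL.pb, mx_apply, s4,
        dv_apply, show P.ord t = 1 from p3]
      simp) fun Q => .inr (by
      have ge := kq_ge hE hκ cρ (by simp) rfl hx (fun x hx => ind_sum iT hx) Q
      have m0 : (0 : ℝ) ≤ Q.mz (P.rs S) := mx_nonneg (Finset.mem_image.2 ⟨1, s1, by
        rw [s4, zpow_zero, mul_one, Bm.rd_one]⟩) Q
      have m1 : ∀ b, -(Q.mz (P.rs S) : ℝ) ≤ Q.ord (P.rd (T (some b))) := fun b => by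
        have := Q.le_mz (s := P.rs S) (Finset.mem_image.2 ⟨_, s2 b, by
          rw [s4, zpow_zero, mul_one]⟩) (iT.ne_zero b)
        exact_mod_cast neg_le.1 this
      have m2 := Finset.sum_le_sum fun b (_ : b ∈ Finset.univ) => m1 b
      rw [Finset.sum_const, Finset.card_univ, nsmul_eq_mul] at m2
      have e := congrFun (show pb ρ (kq x + 1 - A + pb (φ : L →+* E) G + dv u) = pb ρ (kq x + 1) -
        pb ρ A + pb ρ (pb (φ : L →+* E) G) + dv (ρ u) by rw [pb_add, pb_add, pb_sub, oρ.pb_dv]) Q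
      rw [ad]
      simp only [Pi.sub_apply, Pi.add_apply, Pi.smul_apply, smul_eq_mul, mx_apply, dv_apply, s] at e ⊢
      rcases oρ Q with q | ⟨w, l⟩
      · rcases m0.eq_or_lt with v | v
        · have := kq_nonneg hκ (by simp) (y := Sum.elim (ρ ∘ x) fun b => P.rd (T (some b))) (P := Q)
            (by rintro (i | i); exacts [q _, mem_ord (by simpa [← v] using m1 i)])
          simp only [q.pb, q.ord, ← v, Int.cast_zero]
          linarith
        · rw [q.pb] at e
          linarith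
      · have := mul_pos (Int.cast_pos.2 l.e_pos) (k w)
        rw [← l.pb] at this
        linarith)
  refine ⟨g, fun α _ c e hg => ρ.injective ?_, fun R r1 r2 => ?_⟩
  · let b : P.ring := ∑ i, ⟨_, tE (c i)⟩ * ⟨_, tL (e i)⟩
    let rs : P.ring →+* P.κ := IsLocalRing.residue P.ring
    rw [← r, show g = b by simpa [b] using hg, map_sum]
    refine (rd_of b.2).trans ((map_sum rs _ _).trans (Finset.sum_congr rfl fun i _ => ?_))
    rw [map_mul, map_mul]
    exact congrArg _ ((eL _).trans (rd_of _)).symm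
  by_cases v : R = P
  · exact .inl (v ▸ ⟨m, tE, tL⟩)
  refine .inr ((a R v).imp_right fun v => ?_)
  have o : 0 ≤ R.ord t := Pl.ord_nonneg_of_mem _ (sub_mem (r1 _) (r2 _))
  have := s3 R _ o fun b => by
    have := Pl.ord_nonneg_of_mem R.toPlace (sub_mem (r1 (some b)) (r2 (some b)))
    change 0 ≤ R.ord (y (some b) - c (some b)) at this
    rw [e1, add_sub_cancel_right, Pl.ord_mul _ t0 (hT.ne_zero _)] at this
    omega
  have := mul_le_mul_of_nonneg_left (Int.cast_le (R := ℝ).2 this) s0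
  rw [d] at v
  rw [f3]
  simp only [B, s, Pi.sub_apply, Pi.add_apply, Pi.smul_apply, smul_eq_mul, mx_apply, dv_apply] at *
  linarith

/-- a function whose poles come from the factors lies in the tensor product -/
theorem den (h : Gf.BE ℂ E L F) (hE : FF E n) {z : σ → L} (hz : Rf z) {x : Fin n → E}
    (hx : AlgebraicIndependent ℂ x) {g : F} (k : ∀ R : Pl F, Trv (algebraMap E F) R →
      Trv (algebraMap L F) R → kq (Sum.elim (algebraMap E F ∘ x) (algebraMap L F ∘ z)) R = 0 →
      g ∈ R.ring) : ∃ (α : Type) (_ : Fintype α) (c : α → E) (e : α → L),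
      g = ∑ i, algebraMap E F (c i) * algebraMap L F (e i) := by
  set y := algebraMap L F ∘ z
  have hy : AlgebraicIndependent E y := (swap h).algInd hz.ind
  have hg := gen_of h hz (w := y) fun b => IntermediateField.subset_adjoin _ _ ⟨b, rfl⟩
  let ψ := IsScalarTower.toAlgHom ℂ L F
  have ev : ∀ f : MvPolynomial σ ℂ, ψ (aeval z f) = aeval y (map (algebraMap ℂ E) f) := fun f => by
    rw [comp_aeval_apply _ ψ, aeval_map_algebraMap]; rfl
  obtain ⟨a₀, b₀, rfl⟩ := (IntermediateField.mem_adjoin_range_iff E y g).1 (hg ▸ trivial)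
  by_cases b0 : b₀ = 0
  · exact ⟨Empty, inferInstance, Empty.elim, Empty.elim, by simp [b0]⟩
  obtain ⟨a, b, c, rp, rfl, rfl⟩ := UniqueFactorizationMonoid.exists_reduced_factors' a₀ b₀ b0
  have c1 := (map_ne_zero_iff _ hy).2 (left_ne_zero_of_mul b0)
  have b1 := (map_ne_zero_iff _ hy).2 (right_ne_zero_of_mul b0)
  rw [map_mul, map_mul, mul_div_mul_left _ _ c1] at k ⊢
  have cl : ∀ d, d ∣ b → ∃ f : MvPolynomial σ ℂ, f ≠ 0 ∧ d ∣ map (algebraMap ℂ E) f := fun d => by
    induction d using UniqueFactorizationMonoid.induction_on_prime with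
    | h₁ => exact fun e => absurd (zero_dvd_iff.1 e) (right_ne_zero_of_mul b0)
    | h₂ d u => exact fun _ => ⟨1, one_ne_zero, u.dvd⟩
    | h₃ d q _ hq ih =>
      intro e
      obtain ⟨f, f0, hf⟩ := ih (dvd_of_mul_left_dvd e)
      obtain ⟨f', f1, hf'⟩ : ∃ f : MvPolynomial σ ℂ, f ≠ 0 ∧ q ∣ map (algebraMap ℂ E) f := by
        by_contra! v
        obtain ⟨R, p1, p2, -, p4⟩ := qpl (ι := Fin n) hE hy hg hq
        have := ((p2 b).2 (dvd_of_mul_right_dvd e)).mul (k R (fun e => by simpa using p1 (C e))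
          (rf_trv hz ψ (fun i => show y i ∈ _ by simpa using p1 (X i)) fun p m => by_contra fun p0 =>
            v p p0 ((p2 _).1 (ev p ▸ m))) (p4 x (by simp) hx))
        rw [div_mul_cancel₀ _ b1] at this
        exact hq.not_isUnit (rp ((p2 a).1 this) (dvd_of_mul_right_dvd e))
      exact ⟨f' * f, mul_ne_zero f1 f0, map_mul (map (algebraMap ℂ E)) f' f ▸ mul_dvd_mul hf' hf⟩
  obtain ⟨f, f0, r, hr⟩ := cl b dvd_rfl
  have f1 := (map_ne_zero (algebraMap L F)).2 ((map_ne_zero_iff _ hz.ind).2 f0)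
  refine ⟨(a * r).support, inferInstance, fun d => (a * r).coeff d,
    fun d => (∏ i ∈ d.1.support, z i ^ d.1 i) / aeval z f, ?_⟩
  simp only [map_div₀, ← mul_div_assoc, ← Finset.sum_div, map_prod, map_pow]
  rw [div_eq_div_iff b1 f1, Finset.sum_coe_sort (a * r).support fun d => algebraMap E F
    ((a * r).coeff d) * ∏ i ∈ d.support, algebraMap L F (z i) ^ d i,
    show algebraMap L F (aeval z f) = _ from ev f, hr, map_mul, mul_comm (aeval y b), ← mul_assoc,
    ← map_mul, aeval_def y (a * r), eval₂_eq]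
  rfl

theorem red {α : Type} [Fintype α] (c : α → E) (e : α → L) :
    ∃ (r : ℕ) (a : Fin r → α) (c' : Fin r → E), LinearIndependent ℂ (e ∘ a) ∧
      ∑ i, algebraMap E F (c i) * algebraMap L F (e i) =
        ∑ l, algebraMap E F (c' l) * algebraMap L F (e (a l)) := by
  obtain ⟨κ, a, ia, sp, li⟩ := exists_linearIndependent' ℂ e
  have := Finite.of_injective a ia
  obtain ⟨r, ⟨b⟩⟩ := Finite.exists_equiv_fin κ
  rw [← b.symm.surjective.range_comp] at sp
  choose m hm using fun i => (Submodule.mem_span_range_iff_exists_fun ℂ).1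
    (sp ▸ Submodule.subset_span (mem_range_self i) : e i ∈ _)
  refine ⟨r, a ∘ b.symm, fun l => ∑ i, m i l • c i, li.comp _ b.symm.injective, ?_⟩
  simp only [map_sum, Finset.sum_mul]
  rw [Finset.sum_comm]
  refine Finset.sum_congr rfl fun i _ => ?_
  rw [← hm i, map_sum, Finset.mul_sum]
  refine Finset.sum_congr rfl fun l _ => ?_
  rw [Algebra.smul_def, Algebra.smul_def, map_mul, map_mul, lin, lin, mul_left_comm, mul_assoc]
  rfl

end main

open Lcb in
theorem klt_U {K : Type} [Field K] [Algebra ℂ K] {n : ℕ} {Γ H H' : BD K} {C : AddSubmonoid (BD K)}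
    (hK : FF K (n + 1)) (hΓ : Γ ∈ Car K) (hH : H ∈ Car K) (hH' : H' ∈ Car K)
    (hC : ∀ G ∈ C, 0 ≤ G ∧ ∃ m m' : ℝ, G - (m • H + m' • H') ∈ Prn K)
    (k : ∀ P, Zr C P → -1 < dsc (n + 1) Γ P) : ∃ G ∈ C, Klt (n + 1) (Γ - G) := by
  classical
  obtain ⟨s, κ, T, h, l, -, c, d⟩ := exists_ls hK finite_empty (toFinite {Γ, H, H'})
    (forall_mem_insert.2 ⟨hΓ, forall_mem_insert.2 ⟨hH, forall_eq.2 hH'⟩⟩)
  obtain ⟨G, hG, e⟩ := exists_ge (fun G x => (hC G x).1) T.finite_toSet fun P => -dsc (n + 1) Γ P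
  obtain ⟨g0, m, m', hm⟩ := hC G hG
  obtain ⟨a, b⟩ := l.hull_sum G
  have u : ∑ P ∈ T, G P • h P ≤ G := sub_nonneg.1 (l.hart _
    (((((d H (by simp)).1.smul m).add ((d H' (by simp)).1.smul m')).congr hm).sub a) fun P hP => by
      rw [Pi.sub_apply, b P hP]
      split_ifs
      exacts [(sub_self _).ge, sub_nonneg.2 (g0 P)])
  refine ⟨G, hG, fun Q => ?_⟩
  have v := l.gt (Γ := Γ - ∑ P ∈ T, G P • h P) (Q := Q) (by
    rw [← sub_add]
    exact (c.sub (d Γ (.inl rfl))).add ⟨a, fun P p q => (b P p).trans (if_neg q)⟩) le_rfl one_pos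
    fun P p _ => by
      rw [dsc_sub, b P (l.on P p), if_pos p]
      by_cases z : Zr C P
      · linarith [k P z, z G hG]
      · linarith [e P p z]
  rw [dsc_sub] at v ⊢
  linarith [u Q]

end Ot

open P287D Wp Cb Ot Lcb

theorem ot : OT := by
  intro n E _ _ hE L σ _ _ _ z₀ φ Γ H C v k hz₀ hH hC ⟨G₀, g0, g1, g2⟩ hm₀ hv₀ hk
  classical
  have hL := rf_ff hz₀
  obtain ⟨b₀⟩ : Nonempty σ := Fintype.card_pos_iff.1
    (Nat.pos_of_ne_zero fun e => no_pl (e ▸ hL) v)
  let τ := {b // b ≠ b₀}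
  let q : Option τ ≃ σ := Equiv.optionSubtypeNe b₀
  let z := z₀ ∘ q
  have hz : Rf z := ⟨hz₀.ind.comp _ q.injective, by rw [q.surjective.range_comp, hz₀.gen]⟩
  rw [kq_congr hL (Fintype.card_congr q) q (y := z) fun _ => rfl]
  rw [← Fintype.card_congr q, Fintype.card_option] at hL
  obtain ⟨s, κ, T, _, l, hT, -⟩ := exists_ls hL (finite_singleton v) finite_empty (by simp)
  have ok := hE.ok φ
  have nf : ∀ G ∈ C, Nef G := fun G hG => let ⟨_, m, m0, e⟩ := hC G hG; (hH.smul m0).congr e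
  have cΓ : Γ ∈ Car E := by simpa using sub_mem (nf _ g0).car g1.car
  obtain ⟨_, hG, kl⟩ := Ot.klt_U (C := C ⊔ (Wt (mx s) v).map (pbL (φ : L →+* E)).toAddMonoidHom) hE
    (sub_mem cΓ ((Car E).smul_mem (k : ℝ) (dv_mem_Car (φ v.t)))) hH.car (ok.car (mx_mem_Car s))
    (fun G hG => by
      obtain ⟨a, ha, _, ⟨b, hb, rfl⟩, rfl⟩ := AddSubmonoid.mem_sup.1 hG
      obtain ⟨a0, m, -, e⟩ := hC a ha
      obtain ⟨m', e'⟩ := wt_prn hb
      refine ⟨add_nonneg a0 (pb_nonneg _ (wt_nn hb)), m, m', ?_⟩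
      have := ok.prn e'
      rw [pb_sub, pb_smul] at this
      rw [add_sub_add_comm]
      exact add_mem e this)
    fun w hw => by
      have := hk w fun G hG => hw G (AddSubmonoid.mem_sup_left hG)
      rw [dsc_sub, Pi.smul_apply, dv_apply, smul_eq_mul]
      rcases ok w with t | ⟨u, p⟩
      · have e : w.ord (φ v.t) = 0 := t.ord _
        have := this.1 t
        rw [ld] at this
        rw [e, Int.cast_zero]
        linarith
      · obtain rfl := Api.sep _ L hL _ v u l.smp l.big (l.on v (hT v rfl)) ((ov_iff hL).2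
          fun G hG => by
            have := hw _ (AddSubmonoid.mem_sup_right ⟨G, hG, rfl⟩)
            exact (mul_eq_zero.1 ((p.pb G).symm.trans this)).resolve_left
              (Int.cast_ne_zero.2 p.e_pos.ne'))
        have := this.2 p
        rw [ld] at this
        linarith
  obtain ⟨G₁, h₁, _, ⟨G₂, h₂, rfl⟩, rfl⟩ := AddSubmonoid.mem_sup.1 hG
  obtain ⟨G, h₃, le, m, m1, pr⟩ := wt_large h₂ 1
  obtain ⟨x, hx, -⟩ := id hE
  obtain ⟨f, -, ef⟩ := kq_cn hE (by simp) hx
  obtain ⟨F, _, _, _, _, _, _, h⟩ := amal ℂ E L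
  have p1 : -(Γ + dv f - (G₀ + G₁)) - (G₀ - Γ + G₁) ∈ Prn E := by
    rw [show -(Γ + dv f - (G₀ + G₁)) - (G₀ - Γ + G₁) = -dv f by abel]
    exact neg_mem (dv_mem_Prn f)
  obtain ⟨g, e, a⟩ := ext h hE hz φ hx (u := φ v.t ^ k) ((g1.add (nf _ h₁)).congr p1)
    ((g2.add_nef (nf _ h₁)).congr p1) (((nef_mx s).smul (zero_le_one.trans m1)).congr pr)
    ((l.big.smul (one_pos.trans_le m1)).congr pr) fun w => by
      have a := kl w
      have b := pb_mono (φ : L →+* E) le w
      have c : 0 ≤ G₀ w := (hC _ g0).1 w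
      change -1 < dsc (n + 1) (_ - (G₁ + pb _ G₂)) w at a
      rw [ef, dv_zpow]
      simp only [dsc, Pi.sub_apply, Pi.add_apply, Pi.one_apply] at a ⊢
      linarith
  obtain ⟨α, _, c₀, e₀, rfl⟩ := den h hE hz hx (g := g) fun R t t' r => by
    rcases a R (fun _ => t' _) fun _ => t _ with u | rfl | u
    · exact u.1
    · exact zero_mem _
    · rw [r, t.pb, t'.pb, sub_self, add_zero, zero_add] at u
      exact mem_ord (by have : (-1 : ℤ) < R.ord g := by exact_mod_cast u
                        omega)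
  have hF : FF F (n + 1 + (Fintype.card τ + 1)) := Fintype.card_option (α := τ) ▸ ff_gen hE
    ((swap h).algInd hz.ind) (gen_of h hz fun b => IntermediateField.subset_adjoin _ _ ⟨b, rfl⟩)
  obtain ⟨r₁, a₁, c₁, i₁, q₁⟩ := red (F := F) c₀ e₀
  obtain ⟨r, a₂, e₂, i₂, q₂⟩ := red (F := F) (e₀ ∘ a₁) c₁
  simp only [mul_comm (algebraMap L F _)] at q₂
  refine ⟨r, c₁ ∘ a₂, e₂, fun i w hw => or_iff_not_imp_left.2 fun c0 => ?_,
    fun i => or_iff_not_imp_left.2 fun c0 => ?_, e _ _ _ (q₁.trans q₂)⟩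
  · obtain ⟨R, p, t, u, o⟩ := tens (swap h) hE hL hF (by simp) Fintype.card_option hx hz.ind w
    obtain ⟨o1, o2⟩ := o _ (e₀ ∘ a₁) c₁ i₁ _ c0
    rw [q₁] at a
    have := ((a R (fun _ => t _) fun _ => (p _).1 (hm₀ w hw _)).resolve_left
      fun j => p.not_trv j.2.1).resolve_left o1
    have o3 := Int.cast_le (R := ℝ).2 o2
    rw [p.ord, Int.cast_mul] at o3
    rw [p.pb, ef] at u
    rw [p.pb, t.pb] at this
    simp only [dsc, Pi.add_apply, Pi.sub_apply, Pi.one_apply, hw _ g0, hw _ h₁,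
      Function.comp_apply] at u this o3 ⊢
    refine neg_lt_iff_pos_add.2 (pos_of_mul_pos_left (b := _) ?_ (Int.cast_pos.2 p.e_pos).le)
    linarith
  · obtain ⟨R, p, t, u, o⟩ := tens h hL hE (add_comm (n + 1) _ ▸ hF) Fintype.card_option (by simp)
      hz.ind hx v
    obtain ⟨o1, o2⟩ := o _ (c₁ ∘ a₂) e₂ i₂ _ c0
    simp only [mul_comm (algebraMap L F _)] at o1 o2
    rw [q₁.trans q₂] at a
    have := ((a R (fun _ => (p _).1 (hv₀ _)) fun _ => t _).resolve_left
      fun j => p.not_trv j.2.2).resolve_left o1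
    have o3 := Int.cast_le (R := ℝ).2 o2
    rw [p.ord, Int.cast_mul] at o3
    rw [p.pb, kq_congr hF (by simp) (Equiv.sumComm _ _)
      (y := Sum.elim (algebraMap E F ∘ x) (algebraMap L F ∘ z)) (by rintro (_ | _) <;> rfl)] at u
    rw [p.pb, t.pb, h₃.1] at this
    obtain ⟨j, hj⟩ : ∃ j : ℤ, kq z v = j := kap_int _ v
    simp only [Pi.add_apply, Pi.one_apply, Function.comp_apply, hj] at u this o3 ⊢
    have : (0 : ℝ) < j + 1 + v.ord (e₂ i) :=
      pos_of_mul_pos_left (b := _) (by linarith) (Int.cast_pos.2 p.e_pos).le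
    have : 0 < j + 1 + v.ord (e₂ i) := by exact_mod_cast this
    exact_mod_cast (by omega : -j ≤ v.ord (e₂ i))

end Vale.Agent.P283B.Ls
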