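import Vale.Agent.P283B.LS.St
import Vale.Agent.P283B.U.Lg
import Vale.Agent.P287D.Gm.PtA

/-!
# P283B, block LS: general linear coordinates
-/

set_option linter.unusedVariables false
set_option linter.unusedSectionVars false

open Set Function MvPolynomial
open Vale.Agent.P297Z

noncomputable section

namespace Vale.Agent.P283B.Bi

open P287D P287D.Cb Wp Ls

variable {F Ω : Type} [Field F] [Algebra ℂ F] [Field Ω] [Algebra ℂ Ω] {ι κ : Type} {n : ℕ}
  {y : ι → F} {z : κ → F} {J : Finset F} {c : ℝ} {P : Pl F}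

theorem rf_div (h : Rf y) (f : F) : ∃ p q : MvPolynomial ι ℂ, f = aeval y p / aeval y q :=
  (IntermediateField.mem_adjoin_range_iff ℂ y f).1 (h.gen ▸ IntermediateField.mem_top)

theorem rf_ext (h : Rf y) {τ τ' : F →ₐ[ℂ] Ω} (e : ∀ i, τ (y i) = τ' (y i)) : τ = τ' :=
  AlgHom.ext fun f => by
    obtain ⟨p, q, rfl⟩ := rf_div h f
    simp only [map_div₀, ← AlgHom.comp_apply, comp_aeval, funext e]

theorem rf_hom (h : Rf y) {x : ι → Ω} (hx : AlgebraicIndependent ℂ x) :
    ∃ τ : F →ₐ[ℂ] Ω, ∀ i, τ (y i) = x i := by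
  let a := (IntermediateField.equivOfEq h.gen).trans IntermediateField.topEquiv
  refine ⟨(IntermediateField.val _).comp (hx.aevalEquivField.toAlgHom.comp
    (h.ind.aevalEquivField.trans a).symm.toAlgHom), fun i => ?_⟩
  have : (h.ind.aevalEquivField.trans a).symm (y i) = algebraMap (MvPolynomial ι ℂ) _ (X i) := by
    rw [AlgEquiv.symm_apply_eq]
    exact ((h.ind.aevalEquivField_algebraMap_apply_coe (X i)).trans (aeval_X _ _)).symm
  exact (congrArg (fun b => (hx.aevalEquivField b : Ω)) this).trans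
    ((hx.aevalEquivField_algebraMap_apply_coe (X i)).trans (aeval_X _ _))

theorem rf_ff [Fintype ι] (h : Rf y) (e : Fintype.card ι = n) : FF F n := by
  let a := (Fintype.equivFinOfCardEq e).symm
  refine ⟨y ∘ a, h.ind.comp _ a.injective, ?_⟩
  rw [a.surjective.range_comp, h.gen]
  exact Module.Finite.of_surjective (Algebra.linearMap _ F) fun f => ⟨⟨f, trivial⟩, rfl⟩

theorem rf_adj (h : AlgebraicIndependent ℂ y) : Rf fun i =>
    (⟨y i, IntermediateField.subset_adjoin _ _ ⟨i, rfl⟩⟩ : IntermediateField.adjoin ℂ (range y)) := by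
  refine ⟨.of_comp (IntermediateField.val _) h, IntermediateField.map_injective
    (IntermediateField.val _) ?_⟩
  rw [IntermediateField.adjoin_map, ← range_comp, ← AlgHom.fieldRange_eq_map,
    IntermediateField.fieldRange_val]
  rfl

theorem fi_iff : Fi y P ↔ ∀ f ∈ Submodule.span ℂ (range y), f ∈ P.ring := by
  refine ⟨fun h f hf => ?_, fun h i => h _ (Submodule.subset_span ⟨i, rfl⟩)⟩
  induction hf using Submodule.span_induction with
  | mem f hf => obtain ⟨i, rfl⟩ := hf; exact h i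
  | zero => exact zero_mem _
  | add a b _ _ ha hb => exact add_mem ha hb
  | smul a b _ hb => rw [Algebra.smul_def]; exact mul_mem (P.con a) hb

theorem ce_iff (hy : AlgebraicIndependent ℂ y) :
    Ce y P ↔ ∀ f ∈ Submodule.span ℂ (range y), Mx P f := by
  refine ⟨fun h f hf => ?_, fun h i =>
    (mx_iff.1 (h _ (Submodule.subset_span ⟨i, rfl⟩))).resolve_left (hy.ne_zero i)⟩
  induction hf using Submodule.span_induction with
  | mem f hf => obtain ⟨i, rfl⟩ := hf; exact mx_iff.2 (.inr (h i))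
  | zero => exact mx_zero
  | add a b _ _ ha hb => exact ha.add hb
  | smul a b _ hb => rw [Algebra.smul_def]; exact hb.mul (P.con a)

theorem ce_fi (h : Ce y P) : Fi y P := fun i => (mx_iff.2 (.inr (h i))).mem

theorem id_le (h : Id y J) (f : Fi y P) : mx J P ≤ 0 := by
  by_cases z : ∃ g ∈ J, g ≠ 0
  · obtain ⟨g, hg, g0, e⟩ := Pb.mz_att P z
    obtain ⟨p, rfl⟩ := h.pol g hg
    have := Pl.ord_nonneg_of_mem _ (adj_mem (P := P) (S := range y)
      (by rintro _ ⟨i, rfl⟩; exact f i) (a := aeval y p)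
      (by rw [Algebra.adjoin_range_eq_range_aeval]; exact ⟨p, rfl⟩))
    rw [mx, e]
    exact_mod_cast neg_nonpos.2 this
  · push Not at z
    rw [mx, Pb.mz_eq_zero P z, Int.cast_zero]

variable [Fintype ι] [Fintype κ]

/-- a linear change of the coordinates -/
structure Co (y : ι → F) (z : κ → F) : Prop where
  ind : AlgebraicIndependent ℂ z
  spn : Submodule.span ℂ (range z) = Submodule.span ℂ (range y)
  kq : kq z = kq y

theorem rf_co (h : Rf y) (e : κ ≃ ι) : Co y (y ∘ e) :=
  ⟨h.ind.comp _ e.injective, by rw [e.surjective.range_comp],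
    (kq_congr (rf_ff h rfl) (Fintype.card_congr e) e fun _ => rfl).symm⟩

namespace Co

variable (h : Co y z)

include h

theorem adj : Algebra.adjoin ℂ (range z) = Algebra.adjoin ℂ (range y) := by
  rw [← Algebra.adjoin_span, h.spn, Algebra.adjoin_span]

theorem rf (hy : Rf y) : Rf z := ⟨h.ind, eq_top_iff.2 (hy.gen.ge.trans
  (IntermediateField.adjoin_le_iff.2 fun f hf => IntermediateField.algebra_adjoin_le_adjoin _ _
    (h.adj ▸ Algebra.subset_adjoin hf)))⟩

theorem fi : Fi z P ↔ Fi y P := by rw [fi_iff, fi_iff, h.spn]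

theorem ce (hy : Rf y) : Ce z P ↔ Ce y P := by rw [ce_iff h.ind, ce_iff hy.ind, h.spn]

theorem id (hy : Rf y) (hJ : Id y J) : Id z J := by
  refine ⟨fun f hf => ?_, fun P a b => hJ.pri P (h.fi.1 a) (mt (h.ce hy).2 b)⟩
  obtain ⟨p, rfl⟩ := hJ.pol f hf
  have : aeval y p ∈ Algebra.adjoin ℂ (range z) := by
    rw [h.adj, Algebra.adjoin_range_eq_range_aeval]
    exact ⟨p, rfl⟩
  rw [Algebra.adjoin_range_eq_range_aeval] at this
  exact this.imp fun _ e => e.symm

theorem psi : psi z J c = psi y J c := by rw [Ls.psi, Ls.psi, h.kq]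

end Co

theorem Co.step {z : Fin (n + 1) → F} (hF : FF F (n + 1)) (h : Co y z) {s : Finset F}
    (hs : (s : Set F) = range y) (k : Fin (n + 1)) : ∃ P : Pl F,
      ∀ g ∈ Submodule.span ℂ (s : Set F), g ≠ 0 → (dv g + mx s) P = 0 → Co y (update z k g) := by
  obtain ⟨D, hD⟩ := fr_of hF h.ind
  have z0 := h.ind.ne_zero k
  have i1 := (U.kap_upd hD (j := k) (f := (z k)⁻¹) (by
    rw [Derivation.leibniz_inv, hD.dual]; simpa using z0)).1.comp
      (Fin.cons k k.succAbove : Fin (n + 1) → Fin (n + 1))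
      (Fin.cons_injective_iff.2 ⟨by simp, Fin.succAbove_right_injective⟩)
  obtain ⟨P, p0, A⟩ := Gm.exists_pl hF (z := (z k)⁻¹) (u := fun i => z (k.succAbove i)) (by
    convert i1 using 1
    funext i
    induction i using Fin.cases <;> simp)
  refine ⟨P, fun g hg g0 e => ?_⟩
  rw [hs, ← h.spn] at hg
  obtain ⟨a, rfl⟩ := (Submodule.mem_span_range_iff_exists_fun ℂ).1 hg
  have a0 : a k ≠ 0 := fun a0 => by
    have m : ∑ i, a i • z i ∈ P.ring := sum_mem fun i _ => by
      rw [Algebra.smul_def]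
      rcases Fin.eq_self_or_eq_succAbove k i with rfl | ⟨j, rfl⟩
      · simp [a0, zero_mem]
      · exact mul_mem (P.con _) (A.mem j)
    have k1 := Pl.ord_nonneg_of_mem _ m
    have k2 := P.le_mz_of_span (s := s) (f := z k) (by
      rw [hs, ← h.spn]; exact Submodule.subset_span ⟨k, rfl⟩) z0
    rw [Pl.ord_inv] at p0
    have k3 : P.ord (∑ i, a i • z i) + P.mz s = 0 := by
      rw [Pi.add_apply, dv, mx] at e
      exact_mod_cast e
    omega
  have d : D k (∑ i, a i • z i) = algebraMap ℂ F (a k) := by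
    simp [map_sum, hD.dual, Algebra.smul_def]
  obtain ⟨i2, k2⟩ := U.kap_upd hD (j := k) (d ▸ (map_ne_zero _).2 a0)
  refine ⟨i2, h.spn ▸ le_antisymm (Submodule.span_le.2 ?_) (Submodule.span_le.2 ?_), ?_⟩
  · rintro _ ⟨i, rfl⟩
    by_cases e : i = k
    · subst e
      rwa [update_self]
    · rw [update_of_ne e]
      exact Submodule.subset_span ⟨i, rfl⟩
  · have m : ∀ i, i ≠ k → z i ∈ Submodule.span ℂ (range (update z k (∑ i, a i • z i))) :=
      fun i e => Submodule.subset_span ⟨i, update_of_ne e _ _⟩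
    rintro _ ⟨i, rfl⟩
    by_cases e : i = k
    · subst e
      have := sub_mem (Submodule.subset_span (R := ℂ) (mem_range_self
        (f := update z i (∑ i, a i • z i)) i)) (sum_mem (t := Finset.univ.erase i)
          fun j hj => Submodule.smul_mem _ (a j) (m j (Finset.ne_of_mem_erase hj)))
      rw [update_self, ← Finset.add_sum_erase _ _ (Finset.mem_univ i), add_sub_cancel_right] at this
      exact (Submodule.smul_mem_iff _ a0).1 (by
        rwa [Finset.add_sum_erase _ (fun i => a i • z i) (Finset.mem_univ i)] at this)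
    · exact m i e
  · rw [kq_fin hF, k2, d, dv_const, add_zero, ← kq_fin hF, h.kq]

/-- general coordinates -/
theorem ber (hB : BERT) {y : Fin (n + 1) → F} (hy : Rf y) (hJ : Id y J)
    (h0 : ∀ P, Ce y P → 0 ≤ psi y J c P) {s : Finset F} (hs : (s : Set F) = range y) :
    ∃ z : Fin (n + 1) → F, Co y z ∧ ∀ P, Fi y P → ∑ i, (dv (z i) + mx s) P ≤ psi y J c P := by
  classical
  have hF := rf_ff hy (Fintype.card_fin _)
  obtain ⟨f, f0, e⟩ := kq_cn hF (Fintype.card_fin _) hy.ind
  obtain ⟨s₀, -, b⟩ := exists_big hF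
  have ys : ∀ i, y i ∈ s := fun i => Finset.mem_coe.1 (hs ▸ ⟨i, rfl⟩)
  have l : ∀ G P, ld (n + 1) (-dv f - c • mx J + G) P = psi y J c P - G P := fun G P => by
    simp only [ld, dsc, psi, e, Pi.add_apply, Pi.sub_apply, Pi.neg_apply, Pi.one_apply]
    ring
  have fi : ∀ P P', Fi y P → CLe (mx (insert 1 s)) P P' → Fi y P' := fun P P' a b i => by
    have := mt (b (mx (insert 1 s)) ⟨mx_nonneg (Finset.mem_insert_self _ _), by simp⟩) (not_lt.2 (by
      rw [mx]
      refine Int.cast_nonpos.2 (P.mz_le ⟨1, Finset.mem_insert_self _ _, one_ne_zero⟩ fun g hg g0 =>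
        neg_nonpos.2 (Pl.ord_nonneg_of_mem _ ?_))
      rcases Finset.mem_insert.1 hg with rfl | hg
      · exact one_mem _
      · obtain ⟨j, rfl⟩ : g ∈ range y := hs ▸ Finset.mem_coe.2 hg
        exact a j))
    have k := P'.le_mz (Finset.mem_insert_of_mem (b := 1) (ys i)) (hy.ind.ne_zero i)
    have k' : P'.mz (insert 1 s) ≤ 0 := (Int.cast_nonpos (R := ℝ)).1 (not_lt.1 this)
    exact (Pl.ord_nonneg_iff _ (hy.ind.ne_zero i)).1 (by omega)
  suffices H : ∀ S : Finset (Fin (n + 1)), ∃ z : Fin (n + 1) → F, Co y z ∧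
      ∀ P, Fi y P → (∑ i ∈ S, (dv (z i) + mx s)) P ≤ psi y J c P by
    simpa only [Finset.sum_apply] using H Finset.univ
  intro S
  induction S using Finset.induction_on with
  | empty =>
    refine ⟨y, ⟨hy.ind, rfl, rfl⟩, fun P a => ?_⟩
    by_cases b : Ce y P
    · exact h0 P b
    · have := kq_nonneg hF (Fintype.card_fin _) a
      simp only [psi, Pi.add_apply, Pi.smul_apply, hJ.pri P a b, Pi.one_apply, Finset.sum_empty,
        Pi.zero_apply, smul_zero]
      linarith
  | insert k S hk ih =>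
    obtain ⟨z, h, H⟩ := ih
    obtain ⟨Q, hQ⟩ := h.step hF hs k
    obtain ⟨g, g1, g0, g2, -, g3⟩ := hB n F hF (mx s₀) (mx (insert 1 s))
      (-dv f - c • mx J + ∑ i ∈ S, (dv (z i) + mx s)) s {Q} (smp_mx _) b (smp_mx _)
      (add_mem (sub_mem (neg_mem (dv_mem_Car _)) (Submodule.smul_mem _ _ (mx_mem_Car _)))
        (sum_mem fun i _ => add_mem (dv_mem_Car _) (mx_mem_Car _)))
      ⟨y 0, ys 0, hy.ind.ne_zero 0⟩ (finite_singleton _)
    refine ⟨_, hQ g g1 g0 (g2 Q rfl), fun P a => ?_⟩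
    obtain ⟨P', p1, p2⟩ := g3 1 P zero_le_one le_rfl fun P' p =>
      l _ _ ▸ sub_nonneg.2 (H P' (fi P P' a p))
    rw [add_assoc, l, l, sub_self, min_eq_right (sub_nonneg.2 (H P' (fi P P' a p1))), one_smul,
      sub_nonneg, add_comm] at p2
    rwa [Finset.sum_insert hk, update_self, Finset.sum_congr rfl fun i hi => by
      rw [update_of_ne (ne_of_mem_of_not_mem hi hk)]]

end Vale.Agent.P283B.Bi
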