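import Vale.Agent.P283B.LS.St
import Vale.Agent.P283B.MONO.Va1
import Vale.Agent.P287D.On.Val
import Vale.Agent.P287D.Va.Fld

/-!
# P283B, block LS: the leaf `SBERG`
-/

set_option linter.unusedVariables false
set_option linter.unusedSectionVars false

open Set MvPolynomial
open Vale.Agent.P285N.Brep (jac Fr)
open Vale.Agent.P297Z

noncomputable section

namespace Vale.Agent.P283B.Ls.Be

open P287D P287D.Cb Wp

variable {L F E : Type} [Field L] [Algebra ℂ L] [Field F] [Algebra ℂ F] [Field E] [Algebra ℂ E]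
  {ι σ : Type} {n : ℕ}

theorem ff [Fintype ι] {y : ι → F} (h : Rf y) : FF F (Fintype.card ι) := by
  refine ⟨y ∘ (Fintype.equivFin ι).symm, h.ind.comp _ (Equiv.injective _), ?_⟩
  rw [(Equiv.surjective _).range_comp, h.gen]
  exact Module.Finite.of_surjective (Algebra.linearMap _ _) fun x => ⟨⟨x, trivial⟩, rfl⟩

theorem lift {y : ι → F} (h : Rf y) {Y : ι → E} (hY : AlgebraicIndependent ℂ Y) :
    ∃ ψ : F →ₐ[ℂ] E, ∀ i, ψ (y i) = Y i := by
  let e := (h.ind.aevalEquivField.trans (IntermediateField.equivOfEq h.gen)).trans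
    IntermediateField.topEquiv
  refine ⟨((IntermediateField.val _).comp hY.aevalEquivField.toAlgHom).comp e.symm.toAlgHom,
    fun i => ?_⟩
  have : e (algebraMap (MvPolynomial ι ℂ) _ (X i)) = y i :=
    (h.ind.aevalEquivField_algebraMap_apply_coe (X i)).trans (aeval_X _ _)
  rw [← this]
  exact (congrArg (fun a => (hY.aevalEquivField a : E)) (e.symm_apply_apply _)).trans
    ((hY.aevalEquivField_algebraMap_apply_coe (X i)).trans (aeval_X _ _))

theorem ext {y : ι → F} (h : Rf y) {a b : F →ₐ[ℂ] E} (e : ∀ i, a (y i) = b (y i)) (f : F) :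
    a f = b f := by
  have m : f ∈ IntermediateField.adjoin ℂ (range y) := h.gen ▸ IntermediateField.mem_top
  induction m using IntermediateField.adjoin_induction with
  | mem x hx => obtain ⟨i, rfl⟩ := hx; exact e i
  | algebraMap c => rw [a.commutes, b.commutes]
  | add x z _ _ u v => rw [map_add, map_add, u, v]
  | inv x _ u => rw [map_inv₀, map_inv₀, u]
  | mul x z _ _ u v => rw [map_mul, map_mul, u, v]

theorem rf_frac (ι : Type) :
    Rf fun i => algebraMap (MvPolynomial ι ℂ) (FractionRing (MvPolynomial ι ℂ)) (X i) := by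
  have e : ∀ p, aeval (fun i => algebraMap (MvPolynomial ι ℂ) (FractionRing (MvPolynomial ι ℂ))
      (X i)) p = algebraMap _ _ p := fun p => DFunLike.congr_fun (MvPolynomial.algHom_ext
    (g := IsScalarTower.toAlgHom ℂ (MvPolynomial ι ℂ) _) fun i => aeval_X _ _) p
  refine ⟨fun p q h => IsFractionRing.injective _ _ (e p ▸ e q ▸ h), eq_top_iff.2 fun x _ => ?_⟩
  obtain ⟨p, q, -, rfl⟩ := IsFractionRing.div_surjective (A := MvPolynomial ι ℂ) x
  exact (IntermediateField.mem_adjoin_range_iff _ _ _).2 ⟨p, q, by rw [e, e]⟩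

theorem ev_mem {y : ι → F} {P : Pl F} (h : Fi y P) (p : MvPolynomial ι ℂ) : aeval y p ∈ P.ring :=
  adj_mem (S := range y) (forall_mem_range.2 h)
    (by rw [Algebra.adjoin_range_eq_range_aeval]; exact ⟨p, rfl⟩)

theorem der_ev {y : Fin n → F} {D : Fin n → Derivation ℂ F F} (h : Fr y D) (i : Fin n)
    (p : MvPolynomial (Fin n) ℂ) : D i (aeval y p) = aeval y (pderiv i p) := by
  induction p using MvPolynomial.induction_on with
  | C a => simp
  | add p q hp hq => simp [hp, hq]
  | mul_X p j hp =>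
    rw [map_mul, Derivation.leibniz, Derivation.leibniz, hp, aeval_X, h.dual, pderiv_X,
      Pi.single_apply]
    by_cases hij : i = j
    · simp [hij]
    · simp [hij, Ne.symm hij]

theorem jac_upd {y : Fin n → F} {D : Fin n → Derivation ℂ F F} (h : Fr y D) (j : Fin n) (f : F) :
    jac D (Function.update y j f) = D j f := by
  have e : (Matrix.of fun i l => D i (Function.update y j f l)) =
      (1 : Matrix (Fin n) (Fin n) F).updateCol j fun i => D i f := by
    ext i l
    by_cases k : l = j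
    · simp [k]
    · simp [k, h.dual, Matrix.one_apply]
  rw [jac, e, ← Matrix.cramer_apply, Matrix.cramer_one]
  rfl

/-- the place of a prime polynomial -/
theorem exists_pl {y : Fin n → F} (h : Rf y) {q : MvPolynomial (Fin n) ℂ} (hq : Prime q) :
    ∃ P, Fi y P ∧ kap y P + 1 ≤ P.ord (aeval y q) ∧
      ∀ a, ¬ q ∣ a → P.ord (aeval y a) = 0 := by
  have hK : FF F n := by simpa using ff h
  let e := AlgEquiv.ofInjective _ h.ind
  have := (Ideal.span_singleton_prime hq.ne_zero).2 hq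
  obtain ⟨P, a, b⟩ := On.ctr (k := ℂ) hK (B := (aeval y).range) (by
    rw [← Algebra.adjoin_range_eq_range_aeval]
    exact Subalgebra.fg_def.2 ⟨_, finite_range y, rfl⟩) ((Ideal.span {q}).comap e.symm)
    fun z => hq.ne_zero (e.injective (by
      rw [map_zero, ← Ideal.mem_bot, ← z, Ideal.mem_comap, e.symm_apply_apply]
      exact Ideal.mem_span_singleton_self q))
  have f : Fi y P := fun i => a _ ⟨X i, aeval_X _ _⟩
  have b : ∀ p, q ∣ p ↔ Mx P (aeval y p) := fun p => by
    have := b (e p)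
    rwa [Ideal.mem_comap, e.symm_apply_apply, Ideal.mem_span_singleton, ← mx_iff] at this
  have q0 : aeval y q ≠ 0 := fun z => hq.ne_zero (h.ind (z.trans (map_zero _).symm))
  obtain ⟨i, hi⟩ : ∃ i, q.degreeOf i ≠ 0 := by
    by_contra! z
    have : q.vars = ∅ := Finset.eq_empty_of_forall_notMem fun i k =>
      mem_vars_iff_degreeOf_ne_zero.1 k (z i)
    rw [vars_eq_empty_iff_eq_C] at this
    refine hq.not_isUnit (this ▸ (IsUnit.mk0 _ fun k => hq.ne_zero ?_).map C)
    rw [this, k, map_zero]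
  obtain ⟨n, rfl⟩ : ∃ m, n = m + 1 := ⟨n - 1, by have := i.pos; omega⟩
  have ind : AlgebraicIndependent ℂ fun j => P.rd (y (i.succAbove j)) :=
    algebraicIndependent_iff.2 fun p hp => by_contra fun p0 => by
      rw [← rd_aeval fun j => f _, rd_eq_zero (ev_mem (fun j => f _) p)] at hp
      obtain ⟨r, hr⟩ := (b (rename i.succAbove p)).2 (by rwa [aeval_rename])
      have k : rename i.succAbove p ≠ 0 := fun z =>
        p0 (rename_injective _ Fin.succAbove_right_injective (z.trans (map_zero _).symm))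
      have d : i ∉ (rename i.succAbove p).vars := fun z => by
        obtain ⟨j, -, z⟩ := mem_vars_rename _ _ z
        exact Fin.succAbove_ne i j z
      rw [mem_vars_iff_degreeOf_ne_zero, not_not, hr, degreeOf_mul_eq hq.ne_zero
        (right_ne_zero_of_mul (hr ▸ k))] at d
      omega
  have p := (mx_iff.1 ((b q).1 dvd_rfl)).resolve_left q0
  obtain ⟨D, hD⟩ := fr_of hK h.ind
  have k : ∀ o, Function.update y i (aeval y q) ((finSuccEquiv' i).symm o) =
      o.elim (aeval y q) fun j => y (i.succAbove j) := by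
    rintro (_ | j) <;> simp
  have j0 : jac D (Function.update y i (aeval y q)) ≠ 0 := (jac_ne_iff hD _).2
    (ind_of (P := P) (finSuccEquiv' i).symm (k none ▸ p) (fun j => k (some j) ▸ f _)
      (by simp only [k]; exact ind))
  have c := kq_ada hK (by simp) p (fun j => f _) ind
  rw [← kq_congr hK (by simp) (finSuccEquiv' i).symm k, kq_fin hK, kap_chg hD j0, jac_upd hD,
    der_ev hD, Pi.add_apply, dv_apply] at c
  have : (0 : ℝ) ≤ P.ord (aeval y (pderiv i q)) :=
    Int.cast_nonneg_iff.2 (Pl.ord_nonneg_of_mem _ (ev_mem f _))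
  refine ⟨P, f, by linarith, fun a z => ord_zero_of (ev_mem f a) fun k =>
    z ((b a).2 ((rd_eq_zero (ev_mem f a)).1 k))⟩

/-- adjoint functions on the affine space are polynomials -/
theorem pol [Fintype ι] {y : ι → F} (h : Rf y) {g : F}
    (hg : ∀ P, Fi y P → g = 0 ∨ -1 < kq y P + P.ord g) : ∃ p : MvPolynomial ι ℂ, g = aeval y p := by
  let e := (Fintype.equivFin ι).symm
  have h' : Rf (y ∘ e) := ⟨h.ind.comp _ e.injective, by rw [e.surjective.range_comp, h.gen]⟩
  obtain ⟨a, b, rfl⟩ := (IntermediateField.mem_adjoin_range_iff _ _ g).1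
    (h'.gen ▸ IntermediateField.mem_top)
  by_cases b0 : b = 0
  · exact ⟨0, by simp [b0]⟩
  obtain ⟨a, b, c, cp, rfl, rfl⟩ := UniqueFactorizationMonoid.exists_reduced_factors' a b b0
  have ne : ∀ p, p ≠ 0 → aeval (y ∘ e) p ≠ 0 := fun p z k => z (h'.ind (k.trans (map_zero _).symm))
  have b1 := right_ne_zero_of_mul b0
  rw [map_mul, map_mul, mul_div_mul_left _ _ (ne c (left_ne_zero_of_mul b0))] at hg ⊢
  by_cases u : IsUnit b
  · obtain ⟨d, hd⟩ := u.exists_right_inv
    refine ⟨rename e (a * d), ?_⟩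
    rw [aeval_rename, map_mul, div_eq_mul_inv, inv_eq_of_mul_eq_one_right
      (by rw [← map_mul, hd, map_one])]
  obtain ⟨q, hq, r, rfl⟩ := WfDvdMonoid.exists_irreducible_factor u b1
  obtain ⟨P, f, k, z⟩ := exists_pl h' hq.prime
  have nd : ¬ q ∣ a := fun d => hq.not_isUnit (cp d (dvd_mul_right q r))
  have a0 := ne a fun k => nd (k ▸ dvd_zero q)
  have := (hg P fun i => by simpa using f (e.symm i)).resolve_left (div_ne_zero a0 (ne _ b1))
  rw [Pl.ord_div _ a0 (ne _ b1), z a nd, map_mul, Pl.ord_mul _ (ne _ hq.ne_zero)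
    (ne _ (right_ne_zero_of_mul b1))] at this
  have r0 : (0 : ℝ) ≤ P.ord (aeval (y ∘ e) r) :=
    Int.cast_nonneg_iff.2 (Pl.ord_nonneg_of_mem _ (ev_mem f _))
  push_cast at this
  exact (by linarith [show kq y P = kap (y ∘ e) P from rfl] : False).elim

variable [Fintype ι] [Fintype σ] {z : σ → L} {y : σ ⊕ ι → F} {φ : L →ₐ[ℂ] F}

theorem ind_fib (hz : Rf z) (hy : Rf y) (e : ∀ b, φ (z b) = y (.inl b)) :
    Function.Injective (eval₂Hom (φ : L →+* F) fun i => y (.inr i)) := by
  let _ := (φ : L →+* F).toAlgebra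
  have : IsScalarTower ℂ L F := .of_algebraMap_eq fun c => (φ.commutes c).symm
  exact indL (r := Fintype.card ι) (ff hz) (by simpa [add_comm] using ff hy) rfl rfl (z := z)
    (y := fun i => y (.inr i)) (by
      convert hy.ind.comp _ (Equiv.sumComm ι σ).injective using 1
      funext i
      rcases i with i | i
      exacts [rfl, e i])

/-- the log discrepancy of a finite place is at least the one of its image -/
theorem ge (hz : Rf z) (hy : Rf y) (e : ∀ b, φ (z b) = y (.inl b)) {P : Pl F} {v : Pl L}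
    (f : Fi y P) (l : Lies (φ : L →+* F) P v) :
    pb (φ : L →+* F) (kq z + 1) P ≤ kq y P + 1 := by
  have hL := ff hz
  have hF := ff hy
  obtain ⟨k, hk⟩ : ∃ k, Fintype.card σ = k + 1 := Nat.exists_eq_succ_of_ne_zero fun k =>
    no_pl (k ▸ hL) v
  obtain ⟨x, a⟩ := exists_az (hk ▸ hL) v
  have ey : y = Sum.elim ((φ : L →+* F) ∘ z) fun i => y (.inr i) := by
    funext i
    rcases i with i | i
    exacts [(e i).symm, rfl]
  have i : AlgebraicIndependent ℂ (Sum.elim ((φ : L →+* F) ∘ zz v x) fun i => y (.inr i)) := by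
    let _ := (φ : L →+* F).toAlgebra
    have : IsScalarTower ℂ L F := .of_algebraMap_eq fun c => (φ.commutes c).symm
    have i0 : AlgebraicIndependent L fun i => y (.inr i) := ind_fib hz hy e
    convert (ind1 i0 a.indep).comp _
      (Equiv.sumComm _ ι).injective using 1
    funext i
    rcases i with i | i <;> rfl
  have c := congrFun (kq_chg (φ := (φ : L →+* F)) hL hF φ.commutes rfl (by simp [hk]) (by simp)
    hz.ind a.indep i) P
  have s := sum_le_kq hF (by simp [hk]) i P
  have p := pb_ap (φ := (φ : L →+* F)) (w := P) (.inr ⟨v, l, a.ap hL (by simp [hk])⟩)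
  have o : (0 : ℝ) ≤ ∑ i, (P.ord (y (.inr i)) : ℝ) := Finset.sum_nonneg fun i _ =>
    Int.cast_nonneg_iff.2 (Pl.ord_nonneg_of_mem _ (f _))
  rw [← ey] at c
  simp only [Fintype.sum_sum_type, Sum.elim_inl, Sum.elim_inr, Function.comp_apply] at s
  simp only [Pi.add_apply, Pi.sub_apply, Pi.one_apply, l.pb] at c p ⊢
  linarith

theorem mx_np {J : Finset F} (h : Id y J) {P : Pl F} (f : Fi y P) : mx J P ≤ 0 := by
  by_cases k : ∃ g ∈ J, g ≠ 0
  · obtain ⟨g, hg, -, e⟩ := Pb.mz_att P k
    obtain ⟨p, rfl⟩ := h.pol g hg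
    rw [mx_apply, e]
    exact Int.cast_nonpos.2 (neg_nonpos.2 (Pl.ord_nonneg_of_mem _ (ev_mem f p)))
  · rw [mx_apply, Pb.mz_eq_zero P fun g hg => by_contra fun g0 => k ⟨g, hg, g0⟩, Int.cast_zero]

theorem mx_fin [DecidableEq F] {y : ι → F} {P : Pl F} :
    mx (insert 1 (Finset.univ.image y)) P = 0 ↔ Fi y P := by
  refine ⟨fun h i => ?_, fun h => ?_⟩
  · by_cases y0 : y i = 0
    · exact y0 ▸ zero_mem _
    have := Pb.le_mz P (s := insert 1 (Finset.univ.image y)) (Finset.mem_insert_of_mem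
      (Finset.mem_image_of_mem y (Finset.mem_univ i))) y0
    rw [mx_apply, Int.cast_eq_zero] at h
    exact (Pl.ord_nonneg_iff _ y0).1 (by omega)
  · rw [mx_apply, Pb.mz_eq P (Finset.mem_insert_self _ _) one_ne_zero fun f hf _ => ?_]
    · simp
    rw [Pl.ord_one]
    rcases Finset.mem_insert.1 hf with rfl | hf
    · exact (Pl.ord_one _).ge
    · obtain ⟨i, -, rfl⟩ := Finset.mem_image.1 hf
      exact Pl.ord_nonneg_of_mem _ (h i)

theorem big_fin [DecidableEq F] {y : ι → F} (h : Rf y) :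
    Big (mx (insert 1 (Finset.univ.image y))) := by
  refine (big_iff_fld (eff_mx _)).2 (eq_top_iff.2 (h.gen.ge.trans
    (IntermediateField.adjoin_le_iff.2 fun _ ⟨i, hi⟩ => rts_le_fld _ ?_)))
  have := div_mem_rts (s := insert 1 (Finset.univ.image y)) (Finset.mem_insert_of_mem
    (Finset.mem_image_of_mem y (Finset.mem_univ i))) (Finset.mem_insert_self _ _)
  rwa [div_one, hi] at this

end Vale.Agent.P283B.Ls.Be

namespace Vale.Agent.P283B.Ls

open P287D P287D.Cb Wp Be

/-- **SBERG** -/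
theorem sberg : SBERG := by
  classical
  intro ot di L F σ ι _ _ _ _ _ _ z y φ J c s k v hz hy e id c0 s0 fv H Ω _ _ w ρ x na hρ hx x1
  let E := FractionRing (MvPolynomial (σ ⊕ ι × Fin s) ℂ)
  obtain ⟨Y, hY⟩ : ∃ Y : σ ⊕ ι × Fin s → E, Rf Y := ⟨_, rf_frac _⟩
  have inj : ∀ j : Fin s, Function.Injective (cp (σ := σ) (ι := ι) j) := fun j =>
    Sum.map_injective.2 ⟨Function.injective_id, fun _ _ h => (Prod.ext_iff.1 h).1⟩
  choose ψ hψ using fun j => lift hy (hY.ind.comp _ (inj j))
  obtain ⟨φ', e'⟩ := lift hz (hY.ind.comp _ Sum.inl_injective)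
  have cm : ∀ j, (ψ j : F →+* E).comp (φ : L →+* F) = φ' := fun j => RingHom.ext
    (ext hz (a := (ψ j).comp φ) fun b => (congrArg (ψ j) (e b)).trans ((hψ j _).trans (e' b).symm))
  obtain ⟨d1, d2⟩ := di L F E σ ι s z y Y φ φ' ψ s0 hz hy hY e e' hψ
  have hE := ff hY
  obtain ⟨b0⟩ : Nonempty σ := Fintype.card_pos_iff.1 (Nat.pos_of_ne_zero fun k =>
    no_pl (k ▸ ff hz) v)
  obtain ⟨n, hn⟩ := Nat.exists_eq_succ_of_ne_zero
    (Fintype.card_pos_iff.2 ⟨(.inl b0 : σ ⊕ ι × Fin s)⟩).ne'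
  rw [hn] at hE
  obtain ⟨f₀, -, kf⟩ := kq_cn hE hn hY.ind
  obtain ⟨m, hm⟩ : ∃ m : ℤ, kq z v = m := kap_int _ v
  have ok := fun j => hE.ok (ψ j)
  set Γ : BD E := -dv f₀ - c • ∑ j, pb (ψ j : F →+* E) (mx J) with hΓ
  have ds : ∀ u, dsc (n + 1) Γ u = kq Y u + c * ∑ j, pb (ψ j : F →+* E) (mx J) u := fun u => by
    simp only [dsc, hΓ, kf, Pi.sub_apply, Pi.add_apply, Pi.neg_apply, Pi.smul_apply,
      Finset.sum_apply, smul_eq_mul]
    ring
  have sm : ∀ u, ∑ j, pb (ψ j : F →+* E) (psi y J c) u = ∑ j, pb (ψ j : F →+* E) (kq y + 1) u +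
      c * ∑ j, pb (ψ j : F →+* E) (mx J) u := fun u => by
    simp only [psi, pb_add _ (kq y + 1), pb_smul, Pi.add_apply, Pi.smul_apply, smul_eq_mul,
      Finset.sum_add_distrib, Finset.mul_sum]
  set H₀ : BD E := mx (insert 1 (Finset.univ.image Y)) with hH
  have zr : ∀ u, (∀ G ∈ AddSubmonoid.multiples H₀, G u = 0) ↔ Fi Y u := fun u =>
    ⟨fun h => mx_fin.1 (h _ (AddSubmonoid.mem_multiples _)), fun h G ⟨j, hj⟩ => by
      have : G = j • H₀ := hj.symm
      rw [this, Pi.smul_apply, hH, mx_fin.2 h, smul_zero]⟩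
  have dn : ∀ j u P, Fi Y u → Lies (ψ j : F →+* E) u P → Fi y P := fun j u P f l i =>
    (l _).2 (by rw [show (ψ j : F →+* E) (y i) = _ from hψ j i]; exact f _)
  have nf : Nef (c • ∑ j, pb (ψ j : F →+* E) (mx J)) := Smp.nef (Smp.smul
    (Finset.sum_induction _ Smp (fun _ _ => Smp.add) Smp.zero fun j _ => (ok j).smp (smp_mx J)) c0)
  have pr : H₀ - Γ - (H₀ + c • ∑ j, pb (ψ j : F →+* E) (mx J)) ∈ Prn E := by
    convert dv_mem_Prn f₀ using 1
    rw [hΓ]
    abel
  have s1 : (0 : ℝ) < s := Nat.cast_pos.2 s0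
  obtain ⟨r, g, a, g1, g2, g3⟩ := ot n E hE L σ z φ' Γ H₀ (AddSubmonoid.multiples H₀) v (k - m) hz
    (smp_mx _).nef (fun G ⟨j, hj⟩ => by
      have : G = j • H₀ := hj.symm
      exact ⟨this ▸ nsmul_nonneg (sec_one.1 (sec_of_mem (Finset.mem_insert_self _ _))) j, j,
        j.cast_nonneg, by simp [this, Nat.cast_smul_eq_nsmul]⟩)
    ⟨H₀, AddSubmonoid.mem_multiples _, ((smp_mx _).nef.add nf).congr pr,
      ((big_fin hY).add_nef nf).congr pr⟩
    (fun u h b => e' b ▸ (zr u).1 h _) fv fun u h => by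
      have f := (zr u).1 h
      refine ⟨fun t => ?_, fun l => ?_⟩
      · have : ∀ j, pb (ψ j : F →+* E) (mx J) u = 0 := fun j => (ok j u).elim (·.pb _)
          fun ⟨P, l⟩ => by
            rw [l.pb, id.pri P (dn j u P f l) fun k => ?_, mul_zero]
            have := (l.ord_pos_iff _).2 (k (.inl b0))
            rw [← e b0] at this
            exact this.ne' ((congrArg (fun a : L →+* E => u.ord (a (z b0))) (cm j)).trans
              (t.ord _))
        rw [ld, ds, Finset.sum_eq_zero fun j _ => this j]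
        linarith [kq_nonneg hE hn f]
      · have : ∀ j, s * (pb (φ' : L →+* E) (kq z + 1) u - pb (ψ j : F →+* E) (psi y J c) u) <
            (k + 1) * u.ord (φ' v.t) := fun j => by
          obtain ⟨P, p⟩ := (ok j u).resolve_left fun t => l.not_trv (cm j ▸ t.comp _)
          have q : Lies (φ : L →+* F) P v := p.of_comp (cm j ▸ l)
          have e0 : (0 : ℝ) < u.ord (ψ j P.t) := Int.cast_pos.2 p.e_pos
          have e1 : (0 : ℝ) < P.ord (φ v.t) := Int.cast_pos.2 q.e_pos
          have o : (u.ord (φ' v.t) : ℝ) = u.ord (ψ j P.t) * P.ord (φ v.t) := by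
            exact_mod_cast (congrArg (fun a : L →+* E => u.ord (a v.t)) (cm j)).symm.trans
              (p.ord _)
          have k1 : s * (pb (φ : L →+* F) (kq z + 1) P - psi y J c P) < (k + 1) * P.ord (φ v.t) := by
            by_cases ce : ∀ i, 0 < P.ord (y (.inr i))
            · exact H P q ce
            have := ge hz hy e (dn j u P f p) q
            rw [psi, Pi.add_apply _ (c • mx J), Pi.smul_apply, id.pri P (dn j u P f p)
              fun k => ce fun i => k _, smul_zero, add_zero]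
            exact (mul_nonpos_of_nonneg_of_nonpos s1.le (sub_nonpos.2 this)).trans_lt
              (by positivity)
          rw [← cm j, (ok j).pb_comp, p.pb, p.pb]
          exact lt_of_eq_of_lt (by simp only [RingHom.coe_coe]; ring)
            ((mul_lt_mul_of_pos_left k1 e0).trans_eq (by rw [o]; ring))
        have t := Finset.sum_lt_sum_of_nonempty (s := Finset.univ)
          ⟨⟨0, s0⟩, Finset.mem_univ _⟩ fun j _ => this j
        rw [← Finset.mul_sum, Finset.sum_sub_distrib, sm, Finset.sum_const, Finset.sum_const,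
          Finset.card_fin, nsmul_eq_mul, nsmul_eq_mul] at t
        have t := lt_of_mul_lt_mul_left t s1.le
        have d := d1 u
        rw [l.pb, Pi.add_apply, hm, Pi.one_apply] at t d
        rw [ld, ds]
        simp only [RingHom.coe_coe] at t d
        push_cast
        linarith
  choose p hp using fun l => pol hY (g := g l) fun u f => (g1 l u ((zr u).2 f)).imp_right
    fun h => by
      have : ∑ j, pb (ψ j : F →+* E) (mx J) u ≤ 0 := Finset.sum_nonpos fun j _ =>
        (ok j u).elim (fun t => (t.pb _).le) fun ⟨P, l⟩ => l.pb (mx J) ▸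
          mul_nonpos_of_nonneg_of_nonpos (Int.cast_nonneg l.e_pos.le) (mx_np id (dn j u P f l))
      rw [ds] at h
      linarith [mul_nonpos_of_nonneg_of_nonpos c0 this]
  have t0 := Pb.t_ne v
  have am : ∀ l, a l * v.t ^ m ∈ v.ring := fun l => by
    by_cases a0 : a l = 0
    · rw [a0, zero_mul]
      exact zero_mem _
    have := (g2 l).resolve_left a0
    rw [hm, ← Int.cast_neg, Int.cast_le] at this
    rw [← Pl.ord_nonneg_iff _ (mul_ne_zero a0 (zpow_ne_zero m t0)),
      Pl.ord_mul _ a0 (zpow_ne_zero m t0), Pl.ord_zpow, v.ord_t]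
    omega
  let θ : MvPolynomial (σ ⊕ ι × Fin s) ℂ →ₐ[ℂ] MvPolynomial (ι × Fin s) L :=
    aeval (Sum.elim (fun b => C (z b)) X)
  have ev : ∀ {T : Type} [Field T] [Algebra ℂ T] (τ : L →ₐ[ℂ] T) (V : σ ⊕ ι × Fin s → T),
      (∀ b, τ (z b) = V (.inl b)) → ∀ q, eval₂Hom (τ : L →+* T) (fun i => V (.inr i)) (θ q) =
        aeval V q := fun τ V h q => by
    induction q using MvPolynomial.induction_on with
    | C a => simp [θ]
    | add a b u v => simp only [map_add, u, v]
    | mul_X a i u =>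
      rw [map_mul, map_mul, map_mul, u]
      rcases i with i | i <;> simp [θ, h]
  have id1 : C (v.t ^ k) = ∑ l, θ (p l) * C (a l * v.t ^ m) := ind_fib hz hY e' (by
    have := congrArg (· * φ' v.t ^ m) g3
    rw [← zpow_add₀ ((map_ne_zero φ').2 t0), sub_add_cancel, zpow_natCast, Finset.sum_mul] at this
    simp only [map_sum, map_mul, ev φ' Y e', ← hp, eval₂Hom_C, map_pow, map_zpow₀,
      RingHom.coe_coe, this, mul_assoc])
  have id2 := congrArg (eval₂Hom (ρ : L →+* Ω) fun i => (x ∘ dg) (.inr i)) id1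
  simp only [map_sum, map_mul _ (θ _), ev ρ (x ∘ dg) fun b => (hx b).symm, eval₂Hom_C,
    map_pow, RingHom.coe_coe] at id2
  obtain ⟨l, hl⟩ : ∃ l, w (ρ v.t) ^ k ≤ w (aeval (x ∘ dg) (p l)) := by
    by_contra! z
    have := Mono.na_sum_lt na Finset.univ (fun l => aeval (x ∘ dg) (p l) * ρ (a l * v.t ^ m))
      (pow_pos (w.pos ((map_ne_zero ρ).2 t0)) k) fun l _ => by
        rw [map_mul]
        exact (mul_le_of_le_one_right (w.nonneg _) ((hρ _).1 (am l))).trans_lt (z l)
    rw [← id2, map_pow] at this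
    exact this.false
  refine ⟨rename dg (p l), fun P f nt g0 => ?_, by rwa [aeval_rename]⟩
  obtain ⟨u, l1, l2, l3⟩ := d2 P (p l) nt g0
  obtain ⟨v', q⟩ := ((ff hy).ok φ P).resolve_left nt
  have fu : Fi Y u := by
    rintro (b | ⟨i, j⟩)
    · exact (show ψ ⟨0, s0⟩ (y (.inl b)) = Y (.inl b) from hψ _ _) ▸ (l1 _ _).1 (f _)
    · exact (show ψ j (y (.inr i)) = Y (.inr (i, j)) from hψ _ _) ▸ (l1 _ _).1 (f _)
  have e1 : (0 : ℤ) < P.ord (φ v'.t) := q.e_pos
  have o : ∀ j, u.ord (φ' v'.t) = u.ord (ψ j P.t) * P.ord (φ v'.t) := fun j =>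
    (congrArg (fun a : L →+* E => u.ord (a v'.t)) (cm j)).symm.trans ((l1 j).ord _)
  have eq : ∀ j, u.ord (ψ j P.t) = u.ord (ψ ⟨0, s0⟩ P.t) := fun j =>
    mul_right_cancel₀ e1.ne' ((o j).symm.trans (o _))
  have e0 : (0 : ℝ) < u.ord (ψ ⟨0, s0⟩ P.t) := Int.cast_pos.2 (l1 _).e_pos
  have h := (g1 l u ((zr u).2 fu)).resolve_left fun k => g0 (by
    rw [show p l = 0 from hY.ind (((hp l).symm.trans k).trans (map_zero _).symm), map_zero,
      map_zero])
  have h2 := sm u
  have h3 : (u.ord (aeval Y (p l)) : ℝ) ≤ u.ord (ψ ⟨0, s0⟩ P.t) *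
    P.ord (aeval y (rename dg (p l))) := by exact_mod_cast l3 _
  rw [Finset.sum_congr rfl fun j _ => ((l1 j).pb _).trans (congrArg (fun a : ℤ => (a : ℝ) * _)
    (eq j)), Finset.sum_const, Finset.card_fin, nsmul_eq_mul] at h2
  rw [← cm ⟨0, s0⟩, (ok _).pb_comp, (l1 ⟨0, s0⟩).pb (pb _ _)] at l2
  rw [ds, hp l] at h
  simp only [RingHom.coe_coe] at l2
  refine le_of_mul_le_mul_left ?_ e0
  linarith

end Vale.Agent.P283B.Ls
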