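import Vale.Agent.P283B.LS.Tw
import Vale.Agent.P283B.MONO.Va2

/-!
# P283B, block LS: composition of correspondences
-/

open Set Polynomial

noncomputable section

namespace Vale.Agent.P283B.Ls.Cp

open Mono

variable {Ω : Type} [Field Ω] {w : AbsoluteValue Ω ℝ}

theorem prod_close (hw : IsNonarchimedean w) {ι : Type} (B : Multiset ι) (f f' : ι → Ω)
    (g : ι → ℝ) (h : ∀ σ ∈ B, w (f σ) ≤ g σ ∧ w (f' σ) ≤ g σ ∧ w (f σ - f' σ) < g σ) :
    w (B.map f').prod ≤ (B.map g).prod ∧
      w ((B.map f).prod - (B.map f').prod) < (B.map g).prod := by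
  induction B using Multiset.induction_on with
  | empty => simp
  | cons a B ih =>
    obtain ⟨x, y⟩ := ih fun σ k => h σ (Multiset.mem_cons_of_mem k)
    obtain ⟨h1, h2, h3⟩ := h a (Multiset.mem_cons_self a B)
    have g0 := (w.nonneg _).trans_lt h3
    have p0 := (w.nonneg _).trans_lt y
    simp only [Multiset.map_cons, Multiset.prod_cons]
    refine ⟨by rw [map_mul]; exact mul_le_mul h2 x (w.nonneg _) g0.le, ?_⟩
    rw [show ∀ x y z v : Ω, x * y - z * v = x * (y - v) + (x - z) * v from fun _ _ _ _ => by ring]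
    refine (hw _ _).trans_lt (max_lt ?_ ?_) <;> rw [map_mul]
    · exact mul_lt_mul' h1 y (w.nonneg _) g0
    · exact (mul_le_mul_of_nonneg_left x (w.nonneg _)).trans_lt (mul_lt_mul_of_pos_right h3 p0)

open Classical in
theorem prod_max {ι : Type} (B : Multiset ι) (f : ι → ℝ) {s r : ℝ} (s0 : 0 < s) (sr : s ≤ r) :
    0 < (B.map fun σ => max s (f σ)).prod ∧
    (r / s) ^ (B.filter fun σ => f σ ≤ s).card * (B.map fun σ => max s (f σ)).prod ≤
      (B.map fun σ => max r (f σ)).prod ∧ ((∀ σ ∈ B, f σ ≤ s ∨ r ≤ f σ) →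
    (B.map fun σ => max r (f σ)).prod =
      (r / s) ^ (B.filter fun σ => f σ ≤ s).card * (B.map fun σ => max s (f σ)).prod) := by
  induction B using Multiset.induction_on with
  | empty => simp
  | cons a B ih =>
    obtain ⟨p, x, y⟩ := ih
    have q : 0 < r / s := div_pos (s0.trans_le sr) s0
    simp only [Multiset.map_cons, Multiset.prod_cons]
    refine ⟨mul_pos (lt_max_of_lt_left s0) p, ?_⟩
    by_cases k : f a ≤ s
    · rw [Multiset.filter_cons_of_pos _ (by exact k), Multiset.card_cons, max_eq_left k,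
        max_eq_left (k.trans sr), pow_succ, mul_assoc, ← mul_assoc (r / s),
        div_mul_cancel₀ _ s0.ne', mul_left_comm]
      exact ⟨mul_le_mul_of_nonneg_left x (s0.le.trans sr),
        fun h => by rw [y fun σ k => h σ (Multiset.mem_cons_of_mem k)]⟩
    · rw [Multiset.filter_cons_of_neg _ (by exact k), mul_left_comm]
      refine ⟨mul_le_mul (max_le_max sr le_rfl) x (by positivity)
        (le_max_of_le_left (s0.le.trans sr)), fun h => ?_⟩
      rw [y fun σ k => h σ (Multiset.mem_cons_of_mem k), max_eq_right (not_le.1 k).le,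
        max_eq_right ((h a (Multiset.mem_cons_self a B)).resolve_left k)]

variable [Algebra ℂ Ω] {n : ℕ} {E : Subfield Ω} {t : Ω} {u η : Fin n → Ω}

theorem sub_eval (c : Fin n) (β : Ω) (p : Pn n) :
    ((sub c p).map (ev t η)).eval β = ev t (Function.update η c β) p := by
  have : (evalRingHom β).comp ((mapRingHom (ev t η)).comp (sub c)) =
      ev t (Function.update η c β) := MvPolynomial.ringHom_ext (fun q => by simp [sub, ev])
    fun j => by by_cases h : j = c <;> simp [sub, ev, h]
  exact RingHom.congr_fun this p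

theorem w_cst (s : Se w E t u) (c : ℂ) : w (algebraMap ℂ Ω c) ≤ 1 := by
  by_cases h : c = 0
  · simp [h]
  · exact (s.c1 c h).le

theorem ev_close (s : Se w E t u) (h : Op w η) (p : Pn n) :
    w (ev t η p - algebraMap ℂ Ω (c0 p)) < 1 := by
  have hw := s.vs.na
  have add : ∀ p q : Pn n, w (ev t η p - algebraMap ℂ Ω (c0 p)) < 1 →
      w (ev t η q - algebraMap ℂ Ω (c0 q)) < 1 →
      w (ev t η (p + q) - algebraMap ℂ Ω (c0 (p + q))) < 1 := fun p q x y => by
    rw [map_add, map_add, map_add, add_sub_add_comm]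
    exact (hw _ _).trans_lt (max_lt x y)
  have mul : ∀ p q : Pn n, w (ev t η p - algebraMap ℂ Ω (c0 p)) < 1 → w (ev t η q) < 1 →
      c0 q = 0 → w (ev t η (p * q) - algebraMap ℂ Ω (c0 (p * q))) < 1 := fun p q x y z => by
    rw [map_mul, map_mul, z, mul_zero, map_zero, sub_zero, map_mul]
    have := (hw _ _).trans (max_le x.le (w_cst s (c0 p)))
    rw [sub_add_cancel] at this
    exact mul_lt_one_of_nonneg_of_lt_one_right this (w.nonneg _) y
  induction p using MvPolynomial.induction_on with
  | C q =>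
    induction q using Polynomial.induction_on with
    | C a => simp [ev, c0]
    | add p q x y => rw [map_add]; exact add _ _ x y
    | monomial m a x =>
      rw [pow_succ, ← mul_assoc, map_mul]
      exact mul _ _ x (by simpa [ev] using s.t1) (by simp [ev, c0])
  | add p q x y => exact add _ _ x y
  | mul_X p j x => exact mul _ _ x (by simpa [ev] using h j) (by simp [ev, c0])

theorem dis_root (s : Se w E t u) (h : Op w η) {W : (Pn n)[X]} (d : Dis W) {β : Ω}
    (r : β ∈ (W.map (ev t η)).roots) : w β < 1 := by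
  by_contra! k
  have m : (W.map (ev t η)).coeff W.natDegree = 1 := by rw [coeff_map, d.1.coeff_natDegree, map_one]
  have b0 : 0 < w β := one_pos.trans_le k
  obtain ⟨j, ne, e⟩ := two_of_root s.vs.na (isRoot_of_mem_roots r) W.natDegree
    (by rw [m, one_mul]; exact pow_ne_zero _ (w.pos_iff.1 b0))
  rw [m, map_one, one_mul, coeff_map] at e
  rcases ne.lt_or_gt with l | l
  · have := ev_close s h (W.coeff j)
    rw [← coeff_map c0, d.2, coeff_X_pow, if_neg ne, map_zero, sub_zero] at this
    exact ((mul_lt_of_lt_one_left (pow_pos b0 j) this).trans_le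
      (pow_le_pow_right₀ k l.le)).not_ge e
  · rw [coeff_eq_zero_of_natDegree_lt l, map_zero, map_zero, zero_mul] at e
    exact (pow_pos b0 _).not_ge e

theorem res_map {R S : Type} [CommRing R] [CommRing S] [IsDomain S] {V : R[X]} (hV : V.Monic)
    (G : R[X]) : ∃ r, ∀ f : R →+* S, (V.map f).Splits →
      f r = ((V.map f).roots.map (G.map f).eval).prod :=
  ⟨resultant V G V.natDegree G.natDegree, fun f sp => by
    rw [← resultant_map_map, ← hV.natDegree_map f,
      resultant_eq_prod_eval _ _ _ natDegree_map_le sp, (hV.map f).leadingCoeff, one_pow, one_mul]⟩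

theorem nrm {R S : Type} [CommRing R] [Field S] [IsAlgClosed S] (σ : R →+* R[X]) {V : R[X]}
    (hV : V.Monic) (χ : R[X]) : ∃ χ' : R[X], ∀ (f : R →+* S) (g : S → R →+* S),
      (∀ β p, ((σ p).map f).eval β = g β p) →
        χ'.map f = ((V.map f).roots.map fun β => χ.map (g β)).prod := by
  obtain ⟨r, h⟩ := res_map (S := S[X]) (hV.map C)
    (eval₂RingHom ((mapRingHom C).comp σ) (C X) χ)
  refine ⟨r, fun f g k => ?_⟩
  have sp := IsAlgClosed.splits (V.map f)
  have e : ∀ V : R[X], (V.map C).map (mapRingHom f) = (V.map f).map C :=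
    fun V => by rw [map_map, map_map, mapRingHom_comp_C]
  have := h (mapRingHom f) (e V ▸ sp.map _)
  rw [e, sp.roots_map_of_injective C_injective, Multiset.map_map] at this
  refine this.trans (congrArg _ (Multiset.map_congr rfl fun β _ => ?_))
  have : (evalRingHom (C β)).comp ((mapRingHom (mapRingHom f)).comp
      (eval₂RingHom ((mapRingHom C).comp σ) (C X))) = mapRingHom (g β) :=
    Polynomial.ringHom_ext (fun p => by
      simp only [RingHom.comp_apply, coe_eval₂RingHom, eval₂_C, coe_mapRingHom, coe_evalRingHom,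
        map_C]
      rw [e, eval_map, eval₂_hom, k]) (by simp)
  exact RingHom.congr_fun this χ

theorem exists_nrm [IsAlgClosed Ω] (t : Ω) (c : Fin n) {V : (Pn n)[X]} (hV : V.Monic)
    (χ : (Pn n)[X]) : ∃ χ' : (Pn n)[X], ∀ η, χ'.map (ev t η) =
      ((V.map (ev t η)).roots.map fun β => χ.map (ev t (Function.update η c β))).prod :=
  (nrm (S := Ω) (sub c) hV χ).imp fun _ h _ => h _ _ (sub_eval c)

theorem fv_eq (hw : IsNonarchimedean w) (S : Multiset (Fin n → Ω)) (H : Pn n) (l : ℝ) :
    0 < (S.map fun x => X - C (ev t x H)).prod.gaussNorm w (Real.exp (-l)) ∧ fv w t S H l =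
      -Real.log ((S.map fun x => X - C (ev t x H)).prod.gaussNorm w (Real.exp (-l))) := by
  have p := Real.exp_pos (-l)
  induction S using Multiset.induction_on with
  | empty =>
    have : gaussNorm w (Real.exp (-l)) (1 : Polynomial Ω) = 1 := by
      simpa using gaussNorm_C w (Real.exp (-l)) (1 : Ω)
    simp [fv, this]
  | cons a S ih =>
    have q : 0 < max (Real.exp (-l)) (w (ev t a H)) := lt_max_of_lt_left p
    rw [fv] at ih
    simp only [fv, Multiset.map_cons, Multiset.prod_cons, Multiset.sum_cons, gaussNorm_mul hw p,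
      gn_lin hw p]
    exact ⟨mul_pos q ih.1, by rw [ih.2, Real.log_mul q.ne' ih.1.ne', mv, max_comm, neg_add]⟩

theorem fv_mono (S : Multiset (Fin n → Ω)) (H : Pn n) {l l' : ℝ} (e : l ≤ l') :
    fv w t S H l ≤ fv w t S H l' :=
  Multiset.sum_map_le_sum_map _ _ fun _ _ => neg_le_neg (Real.log_le_log
    (lt_max_of_lt_right (Real.exp_pos _)) (max_le_max le_rfl (Real.exp_le_exp.2 (neg_le_neg e))))

end Cp

open Mono Cp in
/-- **COMP** -/
theorem comp : COMP := by
  intro n Ω _ _ _ w E t u s c d k Y x γ W a b A cor pt dis k0 aM bE b0 a1 b1 hk hA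
  classical
  have hw := s.vs.na
  have oη : Op w (cut (c + 1) x) := fun j => by
    unfold cut
    split_ifs
    exacts [pt.op j, by simp]
  have ηM : ∀ j, cut (c + 1) x j ∈ Lv E u c := fun j => by
    unfold cut
    split_ifs with h
    · have m : ∀ i, c < i → u i ∈ Lv E u c := fun i hi => sub_acl _ _ ⟨i, hi, rfl⟩
      simpa using add_mem (acl_le (lv_cl u c) (le_lv u c) (by
        rintro _ ⟨i, hi, rfl⟩
        exact m i (lt_trans h hi)) (pt.tri.cen j)) (mul_mem (le_lv u c (pt.tri.mem j)) (m j h))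
    · exact zero_mem _
  generalize cut (c + 1) x = η at oη ηM hk ⊢
  have rtM : ∀ V : (Pn n)[X], ∀ ρ ∈ (V.map (ev t η)).roots, ρ ∈ Lv E u c := fun V =>
    (lv_cl u c).roots fun i => by
      rw [coeff_map]
      refine ev_mem _ (fun q => le_lv u c ?_) ηM _
      change aeval t q ∈ E
      rw [aeval_eq_sum_range]
      exact sum_mem fun i _ => by
        rw [Algebra.smul_def]; exact mul_mem (s.cE _) (pow_mem s.tE _)
  have val : ∀ {V : (Pn n)[X]} {z}, V.Monic → z ∈ Lv E u c → z ≠ 0 →
      w ((V.map (ev t η)).eval (a + z * u c)) =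
        ((V.map (ev t η)).roots.map fun ρ => max (w z) (w (ρ - a))).prod := fun {V z} m x y => by
    rw [(s.tw c).eval_roots hw aM x y (rtM V), (m.map _).leadingCoeff, map_one, one_mul]
  have bM := le_lv u c bE
  have wb := w.pos b0
  have ξ1 : w (a + b * u c) < 1 :=
    (hw _ _).trans_lt (max_lt a1 (by rwa [map_mul, (s.tw c).one, mul_one]))
  have up : ∀ {η β}, Op w η → w β < 1 → Op w (Function.update η c β) := fun {η β} x y j => by
    rw [Function.update_apply]
    split_ifs
    exacts [y, x j]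
  have cd : ∀ {V : (Pn n)[X]} (η), V.Monic → (V.map (ev t η)).roots.card = V.natDegree :=
    fun η m => by rw [← (IsAlgClosed.splits _).natDegree_eq_card_roots, m.natDegree_map]
  have evp : ∀ y, (W.map (ev t η)).eval y = ((W.map (ev t η)).roots.map (y - ·)).prod := fun y =>
    (IsAlgClosed.splits _).eval_eq_prod_roots_of_monic (dis.1.map _) y
  have D0 : 0 < W.natDegree := k0.trans_le (hk.trans
    ((Multiset.card_le_card (Multiset.filter_le _ _)).trans_eq (cd η dis.1)))
  have p0 : 0 < w ((W.map (ev t η)).eval (a + b * u c)) := by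
    rw [val dis.1 bM b0]; exact (prod_max _ _ wb le_rfl).1
  have p1 : w ((W.map (ev t η)).eval (a + b * u c)) < 1 := by
    have := (prod_close hw (W.map (ev t η)).roots (a + b * u c - ·) (fun _ => 0) (fun _ => 1)
      fun ρ r => by
        have := (na_sub hw _ _).trans_lt (max_lt ξ1 (dis_root s oη dis r))
        exact ⟨this.le, by simp, by rwa [sub_zero]⟩).2
    simpa [← evp, cd η dis.1, D0.ne'] using this
  obtain ⟨N, M, N0, e⟩ := s.rat _ (w.pos_iff.1 p0)
  have wt := w.pos s.t0
  have M0 : 0 < M := (zpow_lt_one_iff_right_of_lt_one₀ wt s.t1).1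
    (e ▸ pow_lt_one₀ p0.le p1 N0.ne')
  obtain ⟨M, rfl⟩ := Int.eq_ofNat_of_zero_le M0.le
  rw [zpow_natCast] at e
  have tM := pow_pos wt M
  choose χ hχ using cor.chi
  obtain ⟨l, hl⟩ : ∃ l : ℂ, ∀ ρ ∈ ⋃ H ∈ A, ⋃ i : ℕ,
      {ρ | ρ ∈ ((sub c ((χ H).coeff i)).map (ev t η)).roots},
      w t ^ M ≤ w ((W.map (ev t η)).eval ρ ^ N - algebraMap ℂ Ω l * t ^ M) := by
    by_contra! h
    refine not_countable_complex (((hA.biUnion fun H _ => countable_iUnion fun i =>
      (Multiset.finite_toSet _).countable).biUnion (t := fun ρ _ =>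
        {l | w ((W.map (ev t η)).eval ρ ^ N - algebraMap ℂ Ω l * t ^ M) < w t ^ M})
      fun ρ _ => Set.Subsingleton.countable fun l x l' y => by_contra fun ne => ?_).mono
        fun l _ => let ⟨ρ, x, y⟩ := h l; mem_iUnion₂.2 ⟨ρ, x, y⟩)
    have := (na_sub hw _ _).trans_lt (max_lt x y)
    rw [sub_sub_sub_cancel_left, ← sub_mul, ← map_sub, map_mul, s.c1 _ (sub_ne_zero.2 (Ne.symm ne)),
      one_mul, map_pow] at this
    exact this.false
  have lM : w (algebraMap ℂ Ω l * t ^ M) ≤ w t ^ M := by
    rw [map_mul, map_pow]; exact mul_le_of_le_one_left tM.le (w_cst s l)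
  obtain ⟨V, hV⟩ : ∃ V : (Pn n)[X], V = W ^ N - C (MvPolynomial.C (C l * X ^ M)) := ⟨_, rfl⟩
  have Ve : ∀ y, (V.map (ev t η)).eval y =
      (W.map (ev t η)).eval y ^ N - algebraMap ℂ Ω l * t ^ M := fun y => by simp [hV, ev]
  have Vd : V.natDegree = N * W.natDegree := by rw [hV, natDegree_sub_C, dis.1.natDegree_pow]
  have dV : Dis V := ⟨hV ▸ (dis.1.pow N).sub_of_left (degree_C_le.trans_lt
      (natDegree_pos_iff_degree_pos.1 (dis.1.natDegree_pow N ▸ Nat.mul_pos N0 D0))), by
    rw [Vd, hV, Polynomial.map_sub, Polynomial.map_pow, dis.2, pow_mul']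
    simp [c0, ev, (Int.natCast_pos.1 M0).ne']⟩
  have cb : ∀ η, Op w η → ((V.map (ev t η)).roots.bind fun β =>
      Y (Function.update η c β)).card = V.natDegree * d := fun η o => by
    refine (Multiset.card_bind _ _).trans ((congrArg _ (Multiset.map_congr (g := fun _ => d) rfl
      fun β r => cor.card _ (up o (dis_root s o dV r)))).trans ?_)
    simp [cd η dV.1]
  refine ⟨V.natDegree * d, fun η => (V.map (ev t η)).roots.bind fun β =>
    Y (Function.update η c β), ⟨Vd ▸ Nat.mul_pos (Nat.mul_pos N0 D0) cor.pos, cb,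
      fun η o y hy => ?_, fun H => (exists_nrm t c dV.1 (χ H)).imp fun χ' h η o => ?_⟩,
    fun H hH κ x₀ κ0 g l₁ l₂ l12 hx => ?_⟩
  · obtain ⟨β, r, hy⟩ := Multiset.mem_bind.1 hy
    obtain ⟨p, q⟩ := cor.mem _ (up o (dis_root s o dV r)) y hy
    exact ⟨p, fun j hj => (q j (Nat.le_of_succ_le hj)).trans
      (Function.update_of_ne (Fin.ne_of_gt hj) _ _)⟩
  · rw [h, Multiset.map_bind, Multiset.prod_bind]
    exact congrArg _ (Multiset.map_congr rfl fun β r => hχ H _ (up o (dis_root s o dV r)))
  have cnt : N * k ≤ ((V.map (ev t η)).roots.filter fun β => w (β - a) ≤ w b).card := by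
    obtain ⟨z, hz, mn⟩ := (insert 1 (((V.map (ev t η)).roots.filter
      fun β => w b < w (β - a)).map (· - a)).toFinset).exists_min_image w (Finset.insert_nonempty _ _)
    obtain ⟨zM, bz⟩ : z ∈ Lv E u c ∧ w b < w z := by
      rcases Finset.mem_insert.1 hz with rfl | hz
      · exact ⟨one_mem _, by rwa [map_one]⟩
      · obtain ⟨β, r, rfl⟩ := Multiset.mem_map.1 (Multiset.mem_toFinset.1 hz)
        exact ⟨sub_mem (rtM V β (Multiset.mem_filter.1 r).1) aM, (Multiset.mem_filter.1 r).2⟩
    have z0 := w.pos_iff.1 (wb.trans bz)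
    have q1 := (one_lt_div wb).2 bz
    have i := (prod_max (W.map (ev t η)).roots (fun ρ => w (ρ - a)) wb bz.le).2.1
    have j := (prod_max (V.map (ev t η)).roots (fun ρ => w (ρ - a)) wb bz.le).2.2 fun β r =>
      (le_or_gt _ _).imp_right fun k => mn _ (Finset.mem_insert_of_mem (Multiset.mem_toFinset.2
        (Multiset.mem_map_of_mem _ (Multiset.mem_filter.2 ⟨r, k⟩))))
    rw [← val dis.1 bM b0, ← val dis.1 zM z0] at i
    rw [← val dV.1 bM b0, ← val dV.1 zM z0, Ve, Ve] at j
    have i := pow_le_pow_left₀ (by positivity) ((mul_le_mul_of_nonneg_right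
      (pow_le_pow_right₀ q1.le hk) p0.le).trans i) N
    rw [mul_pow, e, ← pow_mul', ← map_pow w _ N] at i
    rw [na_sub_lt hw (lM.trans_lt ((lt_mul_of_one_lt_left tM
      (one_lt_pow₀ q1 (Nat.mul_pos N0 k0).ne')).trans_le i))] at j
    have v := (na_sub hw _ _).trans (max_le ((map_pow w _ N).trans e).le lM)
    exact (pow_le_pow_iff_right₀ q1).1 (le_of_mul_le_mul_right
      ((i.trans_eq j).trans (mul_le_mul_of_nonneg_left v (by positivity))) tM)
  have good : ∀ β ∈ (V.map (ev t η)).roots.filter fun β => w (β - a) ≤ w b, ∀ l,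
      fv w t (Y (Function.update η c β)) H l =
        fv w t (Y (Function.update η c (a + b * u c))) H l := fun β r l' => by
    obtain ⟨r, βa⟩ := Multiset.mem_filter.1 r
    have co : ∀ i, w (((χ H).map (ev t (Function.update η c β))).coeff i) =
        w (((χ H).map (ev t (Function.update η c (a + b * u c)))).coeff i) := fun i => by
      rw [coeff_map, coeff_map, ← sub_eval, ← sub_eval, (s.tw c).eval_roots hw aM bM b0 (rtM _),
        (IsAlgClosed.splits _).eval_eq_prod_roots, map_mul, map_multiset_prod, Multiset.map_map]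
      refine congrArg _ (congrArg _ (Multiset.map_congr rfl fun ρ hρ => ?_))
      have e1 : β - ρ = (β - a) - (ρ - a) := by ring
      change w (β - ρ) = _
      rcases lt_or_ge (w b) (w (ρ - a)) with k | k
      · rw [max_eq_right k.le, e1, w.map_sub, na_sub_lt hw (βa.trans_lt k)]
      rw [max_eq_left k]
      refine le_antisymm (e1 ▸ (na_sub hw _ _).trans (max_le βa k)) (not_lt.1 fun lt => ?_)
      have m : ∀ {y σ}, w (y - a) ≤ w b → w (y - σ) ≤ max (w b) (w (σ - a)) := fun {y σ} h => by
        rw [show y - σ = (y - a) - (σ - a) by ring]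
        exact (na_sub hw _ _).trans (max_le_max h le_rfl)
      have := (prod_close hw (N • (W.map (ev t η)).roots) (ρ - ·) (β - ·)
        (fun σ => max (w b) (w (σ - a))) fun σ _ => ⟨m k, m βa, by
          rw [sub_sub_sub_cancel_right, w.map_sub]; exact lt_max_of_lt_left lt⟩).2
      simp only [Multiset.map_nsmul, Multiset.prod_nsmul] at this
      rw [← evp, ← evp, ← val dis.1 bM b0, e,
        sub_eq_zero.1 ((Ve β).symm.trans (isRoot_of_mem_roots r).eq_zero)] at this
      exact this.not_ge (hl ρ (mem_iUnion₂.2 ⟨H, hH, mem_iUnion.2 ⟨i, hρ⟩⟩))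
    have p := (Real.exp_pos (-l')).le
    have i := gn_le p (fun i => ((co i).trans (one_mul _).symm).le) zero_le_one
    have j := gn_le p (fun i => ((co i).symm.trans (one_mul _).symm).le) zero_le_one
    rw [one_mul] at i j
    rw [(fv_eq hw _ H l').2, (fv_eq hw _ H l').2, ← hχ H _ (up oη (dis_root s oη dV r)),
      ← hχ H _ (up oη ξ1), le_antisymm i j]
  have g := g l₁ l₂ l12 hx
  rw [cor.card _ (up oη ξ1)] at g
  have fb : ∀ l, fv w t ((V.map (ev t η)).roots.bind fun β => Y (Function.update η c β)) H l =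
      ((V.map (ev t η)).roots.filter fun β => w (β - a) ≤ w b).card *
        fv w t (Y (Function.update η c (a + b * u c))) H l +
      (((V.map (ev t η)).roots.filter fun β => ¬ w (β - a) ≤ w b).map
        fun β => fv w t (Y (Function.update η c β)) H l).sum := fun l => by
    rw [fv, Multiset.map_bind, Multiset.sum_bind]
    conv_lhs => rw [← Multiset.filter_add_not (fun β => w (β - a) ≤ w b) (V.map (ev t η)).roots]
    rw [Multiset.map_add, Multiset.sum_add]
    refine congrArg₂ _ ((congrArg _ (Multiset.map_congr rfl fun β r => good β r l)).trans ?_) rfl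
    simp
  have mo := Multiset.sum_map_le_sum_map (s := (V.map (ev t η)).roots.filter
    fun β => ¬ w (β - a) ≤ w b) _ _ fun β _ => fv_mono (w := w) (t := t)
      (Y (Function.update η c β)) H l12
  have D1 : (0 : ℝ) < W.natDegree := Nat.cast_pos.2 D0
  have c1 := (Nat.cast_mul N k).ge.trans ((Nat.cast_le (α := ℝ)).2 cnt)
  have g0 : 0 ≤ κ * d * (l₂ - l₁) := mul_nonneg (by positivity) (sub_nonneg.2 l12)
  beta_reduce
  rw [fb, fb, cb η oη, Vd, show κ * k / W.natDegree * (N * W.natDegree * d : ℕ) * (l₂ - l₁) =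
    N * k * (κ * d * (l₂ - l₁)) by push_cast; field_simp]
  nlinarith [mul_le_mul c1 g g0 (Nat.cast_nonneg _)]

end Vale.Agent.P283B.Ls
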