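import Vale.Agent.P283B.LS.DiagG

/-!
# P283B, block LS: horizontal primes and the restriction to the diagonal
-/

set_option linter.unusedVariables false
set_option linter.unusedSectionVars false

open Set MvPolynomial
open Vale.Agent.P285N.Brep (jac Fr)
open Vale.Agent.P297 (Place)
open Vale.Agent.P297Z Vale.Agent.P287D Vale.Agent.P287D.Cb

noncomputable section

namespace Vale.Agent.P283B.Ld

open Wp Ls Bi

section q

variable {K M τ τ' : Type} [Field K] [Algebra ℂ K] [Field M] [Algebra ℂ M] {n : ℕ} {P : Pl K}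
  {y : τ → K}

theorem ev_mem (h : Fi y P) (p : MvPolynomial τ ℂ) : aeval y p ∈ P.ring :=
  adj_mem (S := range y) (forall_mem_range.2 h)
    (by rw [Algebra.adjoin_range_eq_range_aeval]; exact ⟨p, rfl⟩)

theorem qx_of (e : Option τ' ≃ τ) (f : Fi y P) (h0 : Mx P (y (e none)))
    (h : AlgebraicIndependent ℂ fun i => P.rd (y (e (some i)))) (p : MvPolynomial τ ℂ)
    (hp : Mx P (aeval y p)) : X (e none) ∣ p := by
  let π : MvPolynomial τ ℂ →ₐ[ℂ] MvPolynomial τ' ℂ := aeval fun i => (e.symm i).elim 0 X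
  have d : X (e none) ∣ p - rename (fun i => e (some i)) (π p) := by
    clear hp
    induction p using MvPolynomial.induction_on with
    | C a => simp
    | add p q hp hq => simpa [add_sub_add_comm] using hp.add hq
    | mul_X p i hp =>
      obtain ⟨_ | i, rfl⟩ := e.surjective i
      · simp [π]
      · simpa [π, sub_mul] using hp.mul_right (X (e (some i)))
  obtain ⟨q, hq⟩ := id d
  have := hp.sub (h0.mul (ev_mem f q))
  rw [mul_comm, ← aeval_X (R := ℂ) y (e none), ← map_mul, ← hq, ← map_sub, sub_sub_cancel,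
    ← rd_eq_zero (ev_mem f _), aeval_rename, rd_aeval (u := y ∘ _) fun _ => f _] at this
  rwa [algebraicIndependent_iff.1 h _ this, map_zero, sub_zero] at d

theorem ind_q (f : Fi y P) {q : MvPolynomial τ ℂ} (b : ∀ p, Mx P (aeval y p) → q ∣ p) {i : τ}
    (hi : q.degreeOf i ≠ 0) : AlgebraicIndependent ℂ fun j : {j // j ≠ i} => P.rd (y j) :=
  algebraicIndependent_iff.2 fun p hp => by_contra fun p0 => by
    classical
    rw [← rd_aeval fun j => f _, rd_eq_zero (ev_mem (fun j => f _) p)] at hp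
    obtain ⟨r, hr⟩ := b (rename Subtype.val p) (by rwa [aeval_rename])
    have k : rename Subtype.val p ≠ 0 := fun z =>
      p0 (rename_injective _ Subtype.val_injective (z.trans (map_zero _).symm))
    have d : i ∉ (rename Subtype.val p).vars := fun z => by
      obtain ⟨j, -, z⟩ := mem_vars_rename _ _ z
      exact j.2 z
    rw [mem_vars_iff_degreeOf_ne_zero, not_not, hr, degreeOf_mul_eq
      (left_ne_zero_of_mul (hr ▸ k)) (right_ne_zero_of_mul (hr ▸ k))] at d
    omega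

theorem sp_q [Fintype τ] (hK : FF K n) (c : Fintype.card τ = n) (f : Fi y P)
    {q : MvPolynomial τ ℂ} (hq : Prime q) (b : ∀ p, Mx P (aeval y p) → q ∣ p) :
    Sp P (range y) := by
  classical
  obtain ⟨i, hi⟩ : ∃ i, q.degreeOf i ≠ 0 := by
    by_contra! z
    have : q.vars = ∅ := Finset.eq_empty_of_forall_notMem fun i k =>
      mem_vars_iff_degreeOf_ne_zero.1 k (z i)
    rw [vars_eq_empty_iff_eq_C] at this
    refine hq.not_isUnit (this ▸ (IsUnit.mk0 _ fun k => hq.ne_zero ?_).map C)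
    rw [this, k, map_zero]
  obtain _ | n := n
  · exact (no_pl hK P).elim
  exact Gm.sp_iff.2 ⟨forall_mem_range.2 f, fun g => Gm.cl_le
    (by rintro _ ⟨i, rfl⟩; exact Gm.sub_Cl ⟨_, ⟨i, rfl⟩, rfl⟩)
    (Gm.cl_basis (Gm.ff_κ P hK) (ind_q f b hi) (by simp [c]) g)⟩

theorem ap_q [Fintype τ] (hK : FF K n) (c : Fintype.card τ = n) (f : Fi y P) {i : τ}
    (h0 : 0 < P.ord (y i)) (b : ∀ p : MvPolynomial τ ℂ, Mx P (aeval y p) → X i ∣ p) :
    Ap P y ∧ kq y P + 1 = P.ord (y i) ∧ ∀ D : Derivation ℂ K K, y i = P.t →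
      (∀ j, D (y j) ∈ P.ring) → Rg P D := by
  classical
  have a := ind_q f b (i := i) (by simp)
  obtain ⟨e, e0, e1⟩ : ∃ e : Option {j // j ≠ i} ≃ τ, e none = i ∧ ∀ j, e (some j) = j :=
    ⟨Equiv.optionSubtypeNe i, by simp, by simp⟩
  have k := ap_of hK c e (by rwa [e0]) (fun _ => f _) (by simpa only [e1] using a)
  refine ⟨k, ?_, fun D t m => ?_⟩
  · rw [k, ← e.sum_comp, Fintype.sum_option, e0, Finset.sum_eq_zero fun j _ => by
      rw [e1, ord_zero_of (f _) (a.ne_zero j), Int.cast_zero], add_zero]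
  obtain _ | n := n
  · exact (no_pl hK P).elim
  let u : Fin n ≃ {j // j ≠ i} := (Fintype.equivFinOfCardEq (by simp [c])).symm
  exact Ada.rg (u := fun j => y (u j)) ⟨P.ord_t, fun _ => f _, a.comp _ u.injective⟩ hK (dr_of _)
    (t ▸ m _) (fun _ => m _) fun c => by simp

/-- the place of a prime polynomial -/
theorem pl_q [Finite τ] (hK : FF K n) (h : AlgebraicIndependent ℂ y) {q : MvPolynomial τ ℂ}
    (hq : Prime q) : ∃ P, Fi y P ∧ ∀ p, Mx P (aeval y p) ↔ q ∣ p := by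
  let e := AlgEquiv.ofInjective _ h
  have := (Ideal.span_singleton_prime hq.ne_zero).2 hq
  obtain ⟨P, a, b⟩ := On.ctr (k := ℂ) hK (B := (aeval y).range) (by
    rw [← Algebra.adjoin_range_eq_range_aeval]
    exact Subalgebra.fg_def.2 ⟨_, finite_range y, rfl⟩) ((Ideal.span {q}).comap e.symm)
    fun z => hq.ne_zero (e.injective (by
      rw [map_zero, ← Ideal.mem_bot, ← z, Ideal.mem_comap, e.symm_apply_apply]
      exact Ideal.mem_span_singleton_self q))
  refine ⟨P, fun i => a _ ⟨X i, aeval_X _ _⟩, fun p => ?_⟩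
  have := b (e p)
  rw [Ideal.mem_comap, e.symm_apply_apply, Ideal.mem_span_singleton, ← mx_iff] at this
  exact this.symm

theorem int_v [Algebra M K] [IsScalarTower ℂ M K] [FiniteDimensional M K] (R : Pl M) {g : K}
    (h : ∀ w, Lies (algebraMap M K) w R → g ∈ w.ring) (i : ℕ) :
    (minpoly M g).coeff i ∈ R.ring := by
  have i : IsIntegral R.ring g := by
    have := (iInf_valuationSubring_superset (K := K) (s := range (algebraMap R.ring K))).le
      (Subring.mem_iInf.2 fun V => show g ∈ V.1 from ?_)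
    · rw [← RingHom.coe_range, Subring.closure_eq] at this
      obtain ⟨p, p1, p2⟩ := this
      obtain ⟨q, rfl, -, q1⟩ := Polynomial.lifts_and_degree_eq_and_monic
        (Polynomial.mem_lifts _ |>.2 (Polynomial.map_surjective _
          (algebraMap R.ring K).rangeRestrict_surjective p)) p1
      exact ⟨q, q1, by rw [Polynomial.eval₂_map] at p2; exact p2⟩
    have le : R.ring ≤ V.1.comap (algebraMap M K) := fun x hx => V.2 ⟨⟨x, hx⟩, rfl⟩
    by_cases t : V.1.comap (algebraMap M K) = ⊤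
    · obtain ⟨p, hp, hpx⟩ : IsIntegral M g := Algebra.IsIntegral.isIntegral _
      obtain ⟨y, hy⟩ := IsIntegrallyClosed.isIntegral_iff.1 (⟨p.map ((algebraMap M K).codRestrict V.1
        fun x => (t ▸ ValuationSubring.mem_top x : x ∈ V.1.comap (algebraMap M K))), hp.map _, by
          rw [Polynomial.eval₂_map]; exact hpx⟩ : IsIntegral V.1 g)
      exact hy ▸ y.2
    obtain ⟨⟨w, l⟩, e⟩ := (Pb.fund0 (K' := K) R).2.1
      ⟨V.1, (ValuationSubring.eq_of_le_of_ne_top _ le t).symm⟩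
    rw [← show w.ring = V.1 from congrArg P298.H416.Ovr.val e]
    exact h w l
  rw [minpoly.isIntegrallyClosed_eq_field_fractions' M i, Polynomial.coeff_map]
  exact Subtype.property _

theorem lies_mx {ψ : K →+* M} {w : Pl M} (l : Lies ψ w P) (f : K) : Mx w (ψ f) ↔ Mx P f := by
  rw [mx_iff, mx_iff, l.ord_pos_iff, map_eq_zero]

theorem trv_of [Fintype τ] {m : ℕ} (hK : FF K n) (hM : FF M m) (c : Fintype.card τ = n)
    (ψ : K →ₐ[ℂ] M) {w : Pl M} (f : ∀ i, ψ (y i) ∈ w.ring)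
    (h : ∀ p : MvPolynomial τ ℂ, Mx w (ψ (aeval y p)) → p = 0) : Trv (ψ : K →+* M) w := by
  refine (hM.ok ψ w).resolve_right fun ⟨P, l⟩ => ?_
  obtain _ | n := n
  · exact no_pl hK P
  have f' : Fi y P := fun i => (l _).2 (f i)
  have := (algebraicIndependent_iff.2 fun p hp => h p ((lies_mx l _).2 (by
    rwa [← rd_aeval f', rd_eq_zero (ev_mem f' p)] at hp))).cardinalMk_le_trdeg
    (x := fun i => P.rd (y i))
  rw [trdeg_κ hK P, Cardinal.mk_fintype, c, Nat.cast_le] at this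
  omega

/-- `P` lies over the prime polynomial `q` -/
def Pq (y : τ → K) (q : MvPolynomial τ ℂ) (P : Pl K) : Prop :=
  Fi y P ∧ ∀ p, Mx P (aeval y p) ↔ q ∣ p

theorem red (h : Rf y) (f : K) : ∃ a b : MvPolynomial τ ℂ, f * aeval y b = aeval y a ∧
    aeval y b ≠ 0 ∧ IsRelPrime a b := by
  obtain ⟨a, b, rfl⟩ := rf_div h f
  by_cases b0 : b = 0
  · exact ⟨0, 1, by simp [b0], by simp, isRelPrime_one_right⟩
  obtain ⟨a, b, c, cp, rfl, rfl⟩ := UniqueFactorizationMonoid.exists_reduced_factors' a b b0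
  have ne : ∀ p, p ≠ 0 → aeval y p ≠ 0 := fun p z k => z (h.ind (k.trans (map_zero _).symm))
  have b1 := ne _ (right_ne_zero_of_mul b0)
  exact ⟨a, b, by rw [map_mul, map_mul, mul_div_mul_left _ _ (ne c (left_ne_zero_of_mul b0)),
    div_mul_cancel₀ _ b1], b1, cp⟩

variable [Fintype τ] (hK : FF K n) (c : Fintype.card τ = n) (hy : AlgebraicIndependent ℂ y)
include hK c hy

theorem base : ∃ (M : IntermediateField ℂ K) (u : τ → M), Rf u ∧ (∀ i, (u i : K) = y i) ∧
    (∀ p : MvPolynomial τ ℂ, algebraMap M K (aeval u p) = aeval y p) ∧ FiniteDimensional M K := by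
  have fi := hK.fin (hy.comp _ (Fintype.equivFinOfCardEq c).symm.injective)
  rw [(Equiv.surjective _).range_comp] at fi
  exact ⟨_, _, rf_adj hy, fun _ => rfl, comp_aeval_apply _ (IntermediateField.val _), fi⟩

theorem fin_q {q : MvPolynomial τ ℂ} (hq : Prime q) : {P | Pq y q P}.Finite := by
  obtain ⟨M, u, r, e0, e, _⟩ := base hK c hy
  obtain ⟨v, f, b⟩ := pl_q (rf_ff r c) r.ind hq
  refine (Pb.fin_above (K' := K) v).subset fun P h g => ?_
  obtain ⟨a, d, k, d0, cp⟩ := red r g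
  have k' := congrArg (algebraMap M K) k
  rw [map_mul, e, e] at k'
  by_cases z : q ∣ d
  · exact iff_of_false (fun m => hq.not_isUnit (cp ((b a).1 (k ▸ ((b d).2 z).mul m)) z))
      fun m => hq.not_isUnit (cp ((h.2 a).1 (k' ▸ ((h.2 d).2 z).mul m)) z)
  · rw [eq_div_of_mul_eq d0 k, map_div₀, e, e, div_eq_mul_inv, div_eq_mul_inv]
    exact iff_of_true (mul_mem (ev_mem f a) (inv_mem_of (mt (b d).1 z)))
      (mul_mem (ev_mem h.1 a) (inv_mem_of (mt (h.2 d).1 z)))

theorem int_of {S : Subalgebra ℂ K} (hS : ∀ i, y i ∈ S) {g : K}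
    (hg : ∀ q, Prime q → (aeval y q)⁻¹ ∉ S → ∀ P, Pq y q P → g ∈ P.ring) : IsIntegral S g := by
  obtain ⟨M, u, r, e0, e, _⟩ := base hK c hy
  have m : ∀ p : MvPolynomial τ ℂ, aeval y p ∈ S := fun p => (Algebra.adjoin_le
    (forall_mem_range.2 hS)) (by rw [Algebra.adjoin_range_eq_range_aeval]; exact ⟨p, rfl⟩)
  obtain ⟨p, h1, -, h2⟩ := Polynomial.lifts_and_degree_eq_and_monic (f := algebraMap S K)
    (p := (minpoly M g).map (algebraMap M K)) ((Polynomial.lifts_iff_coeff_lifts _).2 fun i => by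
      obtain ⟨a, d, k, d0, cp⟩ := red r ((minpoly M g).coeff i)
      have : ∀ b, b ∣ d → (aeval y b)⁻¹ ∈ S := fun b => by
        induction b using UniqueFactorizationMonoid.induction_on_prime with
        | h₁ => simp
        | h₂ b hb =>
          obtain ⟨b', hb⟩ := hb.exists_right_inv
          intro
          rw [inv_eq_of_mul_eq_one_right (show aeval y b * aeval y b' = 1 by
            rw [← map_mul, hb, map_one])]
          exact m b'
        | h₃ b q _ hq ih =>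
          intro z
          rw [map_mul, mul_inv]
          refine mul_mem (by_contra fun n => ?_) (ih ((dvd_mul_left _ _).trans z))
          obtain ⟨v, f, t⟩ := pl_q (rf_ff r c) r.ind hq
          have z' := (dvd_mul_right _ _).trans z
          exact hq.not_isUnit (cp ((t a).1 (k ▸ ((t d).2 z').mul (int_v v (fun w l => hg q hq n w
            ⟨fun i => e0 i ▸ (l _).1 (f i), fun p => by rw [← e, lies_mx l, t]⟩) i))) z')
      refine ⟨⟨_, mul_mem (m a) (this d dvd_rfl)⟩, ?_⟩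
      rw [Polynomial.coeff_map, eq_div_of_mul_eq d0 k, map_div₀, e, e, div_eq_mul_inv]
      rfl) ((minpoly.monic (Algebra.IsIntegral.isIntegral g)).map _)
  exact ⟨p, h2, by rw [← Polynomial.eval_map, h1, Polynomial.eval_map, ← Polynomial.aeval_def,
    minpoly.aeval]⟩

end q

variable {L F E ι σ : Type} [Field L] [Field F] [Field E] [Algebra ℂ L] [Algebra ℂ F]
  [Algebra ℂ E] [Algebra L F] [IsScalarTower ℂ L F] [Fintype ι] [Fintype σ] {s k : ℕ}
  {φ : L →ₐ[ℂ] E} {ψ : Fin s → F →ₐ[ℂ] E} {P : Pl F} {z : σ → L} {x : ι → F}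

theorem ad_h (hL : FF L k) (hF : FF F (Fintype.card ι + k)) (c : Fintype.card σ = k)
    (hz : AlgebraicIndependent ℂ z) (t : Trv (algebraMap L F) P) : ∃ (x : ι → F) (b : ι),
      x b = P.t ∧ AlgebraicIndependent L x ∧ Fi (g1 z x) P ∧
      ∀ p : MvPolynomial (σ ⊕ ι) ℂ, Mx P (aeval (g1 z x) p) → X (.inr b) ∣ p := by
  have i : AlgebraicIndependent ℂ fun i => P.rd (algebraMap L F (z i)) := by
    have := ind_ah (φ := Gx.hr t) (fun c => by rw [Gx.hr_apply t, lin, rd_const]) hz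
    simpa only [Gx.hr_apply t] using this
  obtain ⟨r, hr⟩ : ∃ r, Fintype.card ι = r + 1 := Nat.exists_eq_add_one_of_ne_zero fun e => by
    rw [e] at hF
    obtain _ | k := k
    · exact no_pl hF P
    · have := i.cardinalMk_le_trdeg
      rw [trdeg_κ (n := k) (by simpa using hF) P, Cardinal.mk_fintype, c, Nat.cast_le] at this
      omega
  obtain ⟨y, a, b⟩ := ext_rd (r := r) hF (x := algebraMap L F ∘ z) (fun i => t _) i (by omega)
  let e₀ : Option (Fin r) ≃ ι := Fintype.equivOfCardEq (by simp [hr])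
  let e : Option (Fin r ⊕ σ) ≃ σ ⊕ ι :=
    (oL _ _).trans ((Equiv.sumComm _ _).trans ((Equiv.refl σ).sumCongr e₀))
  have q : ∀ i, g1 z (zz P y ∘ e₀.symm) (e (some i)) = Sum.elim y (algebraMap L F ∘ z) i := by
    rintro (i | i) <;> simp [e, g1, oL, zz]
  have q0 : g1 z (zz P y ∘ e₀.symm) (e none) = P.t := by simp [e, g1, oL, zz]
  have f : Fi (g1 z (zz P y ∘ e₀.symm)) P := fun i => by
    obtain ⟨_ | i, rfl⟩ := e.surjective i
    exacts [q0 ▸ t_mem P, q i ▸ a i]
  have i1 := ind_of e (by rw [q0, P.ord_t]; exact one_pos) (fun _ => f _) (by simpa only [q] using b)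
  exact ⟨_, e₀ none, by simp [zz], indL hL hF rfl c (z := z) ((algebraicIndependent_equiv'
    (Equiv.sumComm _ _) (by funext i; rcases i with i | i <;> rfl)).2 i1), f,
    qx_of e f (q0 ▸ mul_one P.t ▸ mx_t (one_mem _)) (by simpa only [q] using b)⟩

/-- no ramification at primes -/
theorem Fp.kz (h : Fp ι k φ ψ) (c : Fintype.card σ = k) (hz : AlgebraicIndependent ℂ z)
    (hx : AlgebraicIndependent L x) {S : Set F} (h1 : ∀ f, f ∈ S ∨ f⁻¹ ∈ S)
    (h2 : ∀ D : Derivation ℂ F F, (∀ i, D (g1 z x i) = 1 ∨ D (g1 z x i) = 0) → ∀ f ∈ S, D f ∈ S)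
    {w : Pl E} (h3 : ∀ i, ∀ f ∈ S, ψ i f ∈ w.ring) (h4 : Sp w (range (gs φ ψ z fun _ => x))) :
    kq (gs φ ψ z fun _ => x) w = 0 := by
  obtain ⟨n, hn⟩ := Nat.exists_eq_add_one_of_ne_zero fun z => no_pl (z ▸ h.fE) w
  have hE : FF E (n + 1) := hn ▸ h.fE
  let a := (Fintype.equivFinOfCardEq ((h.cs c).trans hn)).symm
  let a' := (Fintype.equivFinOfCardEq (h.c1 c)).symm
  obtain ⟨D, hD⟩ := fr_of hE ((h.ind (x := fun _ => x) c hz fun _ => hx).comp _ a.injective)
  obtain ⟨D', hD'⟩ := fr_of h.fF ((ind_g hz hx).comp _ a'.injective)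
  rw [kq_eq hE a]
  refine Gm.kap_zero hE hD (a.surjective.range_comp _ ▸ h4) (S := ⋃ i, ψ i '' S)
    (iUnion_subset fun i => by rintro _ ⟨g, m, rfl⟩; exact h3 i g m) (fun m g hg => ?_)
    (h.gen _ fun i g => (h1 g).elim
      (fun m => IntermediateField.subset_adjoin _ _ (mem_iUnion.2 ⟨i, g, m, rfl⟩)) fun m =>
      inv_mem_iff.1 (IntermediateField.subset_adjoin _ _ (mem_iUnion.2 ⟨i, _, m, map_inv₀ _ _⟩)))
  obtain ⟨i, g, hm, rfl⟩ := mem_iUnion.1 hg
  rw [show D m (ψ i g) = _ from expand ((dr_of (D m)).comp (ψ i : F →+* E))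
    (fun c => by simp) hD' g]
  refine sum_mem fun m' _ => mul_mem ?_ (Algebra.subset_adjoin (mem_iUnion.2 ⟨i, _, h2 (D' m')
    (fun j => ?_) g hm, rfl⟩))
  · rw [show (ψ i : F →+* E) ((g1 z x ∘ a') m') = (gs φ ψ z (fun _ => x) ∘ a)
      (a.symm (Ls.cp i (a' m'))) by simp [h.cp], hD.dual]
    split_ifs
    exacts [one_mem _, zero_mem _]
  · rw [show g1 z x j = (g1 z x ∘ a') (a'.symm j) by simp, hD'.dual]
    split_ifs <;> simp

theorem Fp.ev (h : Fp ι k φ ψ) (j : Fin s) (p : MvPolynomial (σ ⊕ ι) ℂ) :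
    aeval (gs φ ψ z fun _ => x) (rename (Ls.cp j) p) = ψ j (aeval (g1 z x) p) := by
  rw [aeval_rename, comp_aeval_apply, ← funext (h.cp (x := fun _ => x) j)]
  rfl

theorem Fp.mem (h : Fp ι k φ ψ) {S : Subalgebra ℂ E} (hS : ∀ j i, ψ j (g1 z x i) ∈ S) (i) :
    gs φ ψ z (fun _ => x) i ∈ S := by
  rcases i with i | ⟨i, j⟩
  exacts [h.cp (x := fun _ => x) ⟨0, h.pos⟩ (.inl i) ▸ hS _ _, hS j (.inr i)]

theorem inv_dvd {K τ : Type} [Field K] [Algebra ℂ K] {y : τ → K} {S : Subalgebra ℂ K}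
    (hS : ∀ i, y i ∈ S) {q p : MvPolynomial τ ℂ} (d : q ∣ p) (p0 : aeval y p ≠ 0)
    (h : (aeval y p)⁻¹ ∈ S) : (aeval y q)⁻¹ ∈ S := by
  obtain ⟨r, rfl⟩ := d
  rw [map_mul] at p0 h
  have := mul_mem h ((Algebra.adjoin_le (forall_mem_range.2 hS)) (by
    rw [Algebra.adjoin_range_eq_range_aeval]; exact ⟨r, rfl⟩ : aeval y r ∈ _))
  rwa [mul_inv, inv_mul_cancel_right₀ (right_ne_zero_of_mul p0)] at this

/-- **adjoint functions lie in the ring generated by the copies** -/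
theorem Fp.adj (h : Fp ι k φ ψ) (c : Fintype.card σ = k) (hz : AlgebraicIndependent ℂ z)
    (hx : AlgebraicIndependent L x) {g : E} (hg : ∀ w : Pl E, (∀ j, Trv (ψ j : F →+* E) w) →
      g = 0 ∨ 0 < kq (gs φ ψ z fun _ => x) w + 1 + w.ord g) : g ∈ Bd ψ := by
  have m := h.mem (z := z) (x := x) fun j i => mem_Bd j _
  have i := int_of h.fE (h.cs c) (h.ind (x := fun _ => x) c hz fun _ => hx) m (g := g)
    fun q hq n w a => by
      have t : ∀ j, Trv (ψ j : F →+* E) w := fun j => trv_of h.fF h.fE (h.c1 c) (ψ j)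
        (fun i => h.cp (x := fun _ => x) j i ▸ a.1 _) fun p hp => by_contra fun p0 => n
          (inv_dvd m ((a.2 _).1 (h.ev j p ▸ hp)) (by
            rw [h.ev, map_ne_zero]; exact fun z => p0 (ind_g hz hx (z.trans (map_zero _).symm)))
          (by rw [h.ev, ← map_inv₀]; exact mem_Bd _ _))
      rcases hg w t with rfl | k
      · exact zero_mem _
      rw [h.kz c hz hx (S := univ) (fun _ => .inl trivial) (fun _ _ _ _ => trivial)
        (fun i f _ => t i f) (sp_q h.fE (h.cs c) a.1 hq fun p => (a.2 p).1)] at k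
      have : ((-1 : ℤ) : ℝ) < w.ord g := by push_cast; linarith
      exact mem_ord (Int.cast_lt.1 this)
  refine h.nrm fun w t => ?_
  obtain ⟨p, p1, p2⟩ := i
  obtain ⟨a, rfl⟩ := IsIntegrallyClosed.isIntegral_iff.1 (⟨p.map ((algebraMap (Bd ψ) E).codRestrict
    w.ring fun b => adj_mem (iUnion_subset fun j => range_subset_iff.2 (t j)) b.2), p1.map _, by
      rw [Polynomial.eval₂_map]; exact p2⟩ : IsIntegral w.ring g)
  exact a.2

/-- **restriction to the diagonal along a horizontal prime** -/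
theorem Fp.hor (h : Fp ι k φ ψ) {δ : Bd ψ →ₐ[ℂ] F} (hδ : ∀ j f, δ ⟨_, mem_Bd j f⟩ = f)
    {y : Fin s → ι → F} (c : Fintype.card σ = k) (hz : AlgebraicIndependent ℂ z)
    (hy : ∀ j, AlgebraicIndependent L (y j)) (t : Trv (algebraMap L F) P) (g : Bd ψ)
    (hg : ∀ j (w : Pl E), Lies (ψ j : F →+* E) w P → w.ord (ψ j P.t) = 1 → df φ ψ z y w = 0 →
      (∀ i, i ≠ j → Trv (ψ i : F →+* E) w) → (g : E) ∈ w.ring) : δ g ∈ P.ring := by
  classical
  obtain ⟨x, b, xb, hx, f, q⟩ := ad_h h.fL h.fF c hz t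
  have iW := h.ind (x := fun _ => x) c hz fun _ => hx
  have a1 := ap_q h.fF (h.c1 c) f (i := .inr b) (by rw [g1, Sum.elim_inr, xb, P.ord_t]; exact one_pos) q
  let O : Subalgebra ℂ F := { P.ring.toSubring with algebraMap_mem' := P.con }
  let S := (O.comap δ).map (Bd ψ).val
  have mS : ∀ j f, f ∈ P.ring → ψ j f ∈ S := fun j f m =>
    ⟨⟨_, mem_Bd j f⟩, show δ _ ∈ P.ring from (hδ j f).symm ▸ m, rfl⟩
  have m := h.mem (z := z) (x := x) fun j i => mS j _ (f i)
  have fT : (⋃ j, {w | Pq (gs φ ψ z fun _ => x) (X (.inr (b, j))) w}).Finite :=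
    finite_iUnion fun j => fin_q h.fE (h.cs c) iW X_prime
  obtain ⟨a, a2, a3⟩ := wk P (S := (⋃ j, ⋃ w ∈ ⋃ j, {w | Pq (gs φ ψ z fun _ => x)
      (X (.inr (b, j))) w}, {Q | Lies (ψ j : F →+* E) w Q}) \ {P})
    ((finite_iUnion fun j => fT.biUnion fun w _ =>
      Set.Subsingleton.finite fun _ a _ b => a.uniq b).sdiff) (by simp)
  obtain ⟨N, hN⟩ := (fT.image fun w => (w.ord g).natAbs).bddAbove
  have a0 : a ≠ 0 := fun e => by simp [e] at a2
  have u1 : P.ord (1 + a) = 0 := by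
    rw [Pl.ord_add_eq_of_lt _ one_ne_zero a0 (by simpa using a2), Pl.ord_one]
  have u0 : 1 + a ≠ 0 := fun e => by
    rw [eq_neg_of_add_eq_zero_right e, Pl.ord_neg, Pl.ord_one] at a2
    exact a2.false
  have i := int_of h.fE (h.cs c) iW m (g := g * ∏ j, ψ j (1 + a)⁻¹ ^ N) fun r hr n w k => by
    have tr : ∀ j, ¬ r ∣ X (.inr (b, j)) → Trv (ψ j : F →+* E) w := fun j nd =>
      trv_of h.fF h.fE (h.c1 c) (ψ j) (fun i => h.cp (x := fun _ => x) j i ▸ k.1 _)
        fun p hp => by_contra fun p0 => by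
          obtain ⟨l, p, n1, rfl⟩ := WfDvdMonoid.max_power_factor' p0
            (X_prime (i := Sum.inr b)).not_isUnit
          rw [← h.ev] at hp
          have := (k.2 _).1 hp
          rw [map_mul, map_pow, rename_X] at this
          refine (hr.dvd_or_dvd this).elim (fun d => nd (hr.dvd_of_dvd_pow d)) fun d => n
            (inv_dvd m d ?_ ?_)
          · rw [h.ev, map_ne_zero]
            exact fun z => n1 (q _ (z ▸ mx_zero))
          · rw [h.ev, ← map_inv₀]
            exact mS _ _ (inv_mem_of (mt (q _) n1))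
    by_cases z : ∃ j, r ∣ X (.inr (b, j))
    swap
    · exact adj_mem (iUnion_subset fun j => range_subset_iff.2 (tr j fun d => z ⟨j, d⟩))
        (mul_mem g.2 (prod_mem fun j _ => pow_mem (mem_Bd _ _) _))
    obtain ⟨j, d⟩ := z
    have as := hr.associated_of_dvd X_prime d
    have k' : Pq (gs φ ψ z fun _ => x) (X (.inr (b, j))) w :=
      ⟨k.1, fun p => (k.2 p).trans as.dvd_iff_dvd_left⟩
    have t' : ∀ i, i ≠ j → Trv (ψ i : F →+* E) w := fun i e => tr i fun d => e (by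
      simpa [eq_comm] using X_dvd_X.1 (as.symm.dvd.trans d))
    have p0 : 0 < w.ord (ψ j (x b)) := (mx_iff.1 (by
      simpa [gs] using (k'.2 _).2 dvd_rfl)).resolve_left (iW.ne_zero (.inr (b, j)))
    obtain ⟨Q, l⟩ := (h.fE.ok (ψ j) w).resolve_left fun e => p0.ne' (e.ord _)
    rw [← Finset.mul_prod_erase _ _ (Finset.mem_univ j), ← mul_assoc]
    refine mul_mem ?_ (prod_mem fun i hi => pow_mem (t' i (Finset.ne_of_mem_erase hi) _) _)
    by_cases e : Q = P
    · subst e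
      have a2 := ap_q h.fE (h.cs c) k.1 (i := .inr (b, j)) p0 fun p => (k'.2 p).1
      refine mul_mem (hg j w l ?_ ?_ t') (pow_mem ((l _).1 (inv_mem_ord u1)) _)
      · have := a2.2.1
        rw [h.kz c hz hx (S := Q.ring) Q.ring.mem_or_inv_mem (fun D hD => a1.2.2 D xb fun i =>
          (hD i).elim (· ▸ one_mem _) (· ▸ zero_mem _)) (fun i f m => by
            by_cases e : i = j
            exacts [e ▸ (l f).1 m, t' i e f]) (sp_q h.fE (h.cs c) k.1 hr fun p => (k.2 p).1)] at this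
        rw [← xb]
        exact_mod_cast (show (w.ord (ψ j (x b)) : ℝ) = 1 from this.symm.trans (zero_add 1))
      · rw [h.chg c hz (fun _ => hx) c hz hy, h.val c (fun i => ?_)
          (.inl (h.cmp j ▸ l.comp_trv t)), sub_eq_zero]
        · exact a2.1
        · by_cases e : i = j
          exacts [.inr ⟨Q, e ▸ l, a1.1⟩, .inl (t' i e)]
    · have w1 : w ∈ ⋃ j, {w | Pq (gs φ ψ z fun _ => x) (X (.inr (b, j))) w} := mem_iUnion.2 ⟨j, k'⟩
      have n1 : (w.ord g).natAbs ≤ N := hN (mem_image_of_mem _ w1)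
      have n2 := a3 Q ⟨mem_iUnion.2 ⟨j, mem_biUnion w1 l⟩, e⟩
      have n3 : 0 < w.ord (ψ j (1 + a)⁻¹) := (l.ord_pos_iff _).2 (by
        rw [Pl.ord_inv, add_comm, Pl.ord_add_eq_of_lt _ a0 one_ne_zero (by simpa using n2)]
        omega)
      by_cases g0 : (g : E) = 0
      · simp [g0]
      refine mem_ord ?_
      rw [Pl.ord_mul _ g0 (pow_ne_zero _ ((map_ne_zero _).2 (inv_ne_zero u0))), Pl.ord_pow]
      have := mul_le_mul_of_nonneg_left (Int.add_one_le_iff.2 n3) (Nat.cast_nonneg N)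
      omega
  let g' : Bd ψ := g * ∏ j, ⟨_, mem_Bd j (1 + a)⁻¹⟩ ^ N
  let e := (O.comap δ).equivMapOfInjective (Bd ψ).val Subtype.val_injective
  let ρ : S →+* P.ring := ((δ.comp ((O.comap δ).val.comp e.symm.toAlgHom) : S →ₐ[ℂ] F) :
    S →+* F).codRestrict P.ring fun c => (e.symm c).2
  obtain ⟨p, p1, p2⟩ := i
  obtain ⟨u, hu⟩ := IsIntegrallyClosed.isIntegral_iff.1 (⟨p.map ρ, p1.map _, by
    have : p.eval₂ ((O.comap δ).val.comp e.symm.toAlgHom : S →+* Bd ψ) g' = 0 := Subtype.ext (by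
      refine (Polynomial.hom_eval₂ p _ ((Bd ψ).val : Bd ψ →+* E) g').trans
        (Eq.trans ?_ p2)
      exact congrArg₂ (Polynomial.eval₂ · · p) (RingHom.ext fun c =>
        congrArg Subtype.val (e.apply_symm_apply c)) (by simp [g']))
    rw [Polynomial.eval₂_map]
    exact (Polynomial.hom_eval₂ p _ (δ : Bd ψ →+* F) g').symm.trans
      ((congrArg δ this).trans (map_zero δ))⟩ : IsIntegral P.ring (δ g'))
  have := mul_mem (show δ g' ∈ P.ring from hu ▸ u.2) (pow_mem (pow_mem (mem_ord u1.ge) N) s)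
  simp only [g', map_mul, map_prod, map_pow, hδ] at this
  simpa [u0] using this

/-- **the general form of DIAG with the horizontal primes** -/
theorem diagM (L F σ ι : Type) [Field L] [Algebra ℂ L] [Field F] [Algebra ℂ F] [Fintype σ]
    [Fintype ι] (s : ℕ) (z : σ → L) (y : σ ⊕ ι → F) (φ : L →ₐ[ℂ] F) (s0 : 0 < s)
    (hL : FF L (Fintype.card σ)) (hz : AlgebraicIndependent ℂ z) (hy : AlgebraicIndependent ℂ y)
    (hF : FF F (Fintype.card (σ ⊕ ι))) (e1 : ∀ b, φ (z b) = y (.inl b)) :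
    ∃ (E : Type) (_ : Field E) (_ : Algebra ℂ E) (φ' : L →ₐ[ℂ] E) (ψ : Fin s → F →ₐ[ℂ] E)
      (Y : σ ⊕ ι × Fin s → E) (B : Subalgebra ℂ E) (δ : B →ₐ[ℂ] F),
      FF E (Fintype.card (σ ⊕ ι × Fin s)) ∧ AlgebraicIndependent ℂ Y ∧
      (∀ j f, ψ j (φ f) = φ' f) ∧ (∀ j i, ψ j (y i) = Y (cp j i)) ∧
      (∀ j f, ∃ h : ψ j f ∈ B, δ ⟨_, h⟩ = f) ∧
      (∀ w : Pl E, ∑ j, pb (ψ j : F →+* E) (kq y + 1) w -
        (s - 1) * pb (φ' : L →+* E) (kq z + 1) w ≤ kq Y w + 1) ∧
      (∀ g, (∀ w : Pl E, (∀ j, Trv (ψ j : F →+* E) w) → g = 0 ∨ 0 < kq Y w + 1 + w.ord g) →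
        g ∈ B) ∧
      (∀ P : Pl F, ¬ Trv (φ : L →+* F) P → ∃ w : Pl E, (∀ j, Lies (ψ j : F →+* E) w P) ∧
        kq Y w + 1 = ∑ j, pb (ψ j : F →+* E) (kq y + 1) w -
          (s - 1) * pb (φ' : L →+* E) (kq z + 1) w ∧
        ∀ g : B, δ g ≠ 0 → ∀ j, w.ord g ≤ w.ord (ψ j P.t) * P.ord (δ g)) ∧
      ∀ P : Pl F, Trv (φ : L →+* F) P → ∀ g : B, (∀ j (w : Pl E), Lies (ψ j : F →+* E) w P →
        w.ord (ψ j P.t) = 1 → kq Y w = kq y P → (∀ i, i ≠ j → Trv (ψ i : F →+* E) w) →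
        (g : E) ∈ w.ring) → δ g ∈ P.ring := by
  let _ := (φ : L →+* F).toAlgebra
  have : IsScalarTower ℂ L F := .of_algebraMap_eq fun c => (φ.commutes c).symm
  have hF' : FF F (Fintype.card ι + Fintype.card σ) := by simpa [add_comm] using hF
  obtain ⟨E, _, _, φ', ψ, δ, h, hδ⟩ := exists_fp hL hF' s0
  have g : g1 z (fun i => y (.inr i)) = y := funext (by rintro (i | i); exacts [e1 i, rfl])
  have b : AlgebraicIndependent L fun i => y (.inr i) := indL hL hF' rfl rfl (z := z)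
    ((algebraicIndependent_equiv' (Equiv.sumComm _ _) (by
      funext i; rcases i with i | i; exacts [rfl, (e1 i).symm])).2 hy)
  have d := df_apply (φ := φ') (ψ := ψ) z fun _ i => y (.inr i)
  rw [g] at d
  refine ⟨E, _, _, φ', ψ, gs φ' ψ z fun _ i => y (.inr i), _, δ, by simpa using h.fE,
    h.ind rfl hz fun _ => b, h.sq, fun j i => by rw [h.cp, g], fun j f => ⟨_, hδ j f⟩,
    fun w => sub_nonneg.1 (d w ▸ h.ge rfl hz (fun _ => b) w), fun g => h.adj rfl hz b,
    fun P t => ?_, fun P t f k => h.hor hδ rfl hz (fun _ => b) t f fun j w l e o r =>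
      k j w l e ?_ r⟩
  · obtain ⟨w, a, b, c⟩ := h.eq hδ rfl hz (fun _ => b) t
    exact ⟨w, a, sub_eq_zero.1 (d w ▸ b), fun g k j => c j g k⟩
  · rw [d, Finset.sum_eq_single j (fun i _ ij => (r i ij).pb _) (by simp), l.pb,
      (h.cmp j ▸ l.comp_trv t : Trv (φ' : L →+* E) w).pb, RingHom.coe_coe, e] at o
    simp only [Pi.add_apply, Pi.one_apply, Int.cast_one] at o
    linarith

end Vale.Agent.P283B.Ld
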