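import Vale.Agent.P283B.BR.SmDf
import Vale.Agent.P283B.MONO.Br
import Vale.Agent.P283B.MONO.Va3

/-!
# P283B, block LS: standard etale charts, closed points
-/

set_option linter.unusedVariables false
set_option linter.unusedSectionVars false

open Set Polynomial
open Vale.Agent.P287D Vale.Agent.P287D.Cb
open Vale.Agent.P297Z

noncomputable section

namespace Vale.Agent.P283B.Le

variable {K L : Type} [Field K] [Algebra ℂ K] [Field L] [Algebra ℂ L] {n e : ℕ}

/-- a simple root gives an unramified place -/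
theorem unr {φ : K →+* L} {u : Pl L} {v : Pl K} (l : Lies φ u v) (F : v.ring[X]) {θ : L}
    (hθ : θ ∈ u.ring) (r : F.eval₂ (φ.comp v.ring.subtype) θ = 0)
    (d : ¬ Mx u (F.derivative.eval₂ (φ.comp v.ring.subtype) θ))
    (gen : ∀ f : L, ∃ p : K[X], p.eval₂ φ θ = f) : u.ord (φ v.t) = 1 := by
  let E : v.ring[X] →+* u.ring := eval₂RingHom (Pb.rh l) ⟨θ, hθ⟩
  have cE : ∀ a, (E a : L) = a.eval₂ (φ.comp v.ring.subtype) θ := fun a =>
    hom_eval₂ a (Pb.rh l) u.ring.subtype _
  let G : v.κ[X] →+* u.κ := eval₂RingHom l.κ (u.rd θ)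
  have cG : ∀ a, G (a.map (Gm.rdA v)) = 0 ↔ Mx u (E a) := fun a => by
    rw [← rd_eq_zero (E a).2, rd_of (E a).2]
    change eval₂ _ _ _ = 0 ↔ Gm.rdA u (eval₂ _ _ _) = 0
    rw [eval₂_map, hom_eval₂, rd_of hθ]
    rfl
  obtain ⟨g, hg⟩ := (IsPrincipalIdealRing.principal (RingHom.ker G)).principal
  have dv : ∀ a, Mx u (E a) → ∃ q : v.ring[X], a.map (Gm.rdA v) = g * q.map (Gm.rdA v) :=
    fun a k => by
      obtain ⟨q, hq⟩ := Ideal.mem_span_singleton.1 (hg.le ((cG a).2 k))
      obtain ⟨q, rfl⟩ := map_surjective _ (Gm.rdA_surj v) q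
      exact ⟨q, hq⟩
  have E0 : E F = 0 := Subtype.ext ((cE F).trans r)
  obtain ⟨h, hh⟩ := dv F (by rw [E0]; exact mx_zero)
  have g0 : G g = 0 := hg.ge (Ideal.mem_span_singleton_self g)
  have h0 : ¬ Mx u (E h) := fun k => d (by
    rw [← cE, ← cG, ← derivative_map, hh, derivative_mul, map_add, map_mul, map_mul, g0,
      (cG h).2 k, mul_zero, zero_mul, add_zero])
  rw [mx_iff, not_or] at h0
  have h1 : u.ord (E h) = 0 := le_antisymm (not_lt.1 h0.2) (Pl.ord_nonneg_of_mem _ (E h).2)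
  have t0 : φ v.t ≠ 0 := (map_ne_zero φ).2 v.t_ne
  have key : ∀ (m : ℕ) (a : v.ring[X]), (E a : L) ≠ 0 → u.ord (E a) < m →
      u.ord (φ v.t) ∣ u.ord (E a) := fun m => by
    induction m with
    | zero => exact fun a _ k => absurd (Pl.ord_nonneg_of_mem _ (E a).2) (by simpa using k)
    | succ m ih =>
      intro a a0 k
      rcases (Pl.ord_nonneg_of_mem _ (E a).2).eq_or_lt with z | z
      · exact z ▸ dvd_zero _
      obtain ⟨q, hq⟩ := dv a (mx_iff.2 (.inr z))
      obtain ⟨b, hb⟩ : C (⟨v.t, Gm.t_mem v⟩ : v.ring) ∣ a * h - F * q :=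
        (C_dvd_iff_dvd_coeff _ _).2 fun i => by
          have x : Gm.rdA v ((a * h - F * q).coeff i) = 0 := by
            rw [← coeff_map, Polynomial.map_sub, Polynomial.map_mul, Polynomial.map_mul, hq, hh,
              mul_right_comm, mul_assoc, sub_self, coeff_zero]
          exact ⟨⟨_, (rd_eq_zero ((a * h - F * q).coeff i).2).1 ((rd_of _).trans x)⟩,
            Subtype.ext (mul_div_cancel₀ _ v.t_ne).symm⟩
      have x : (E a : L) * E h = φ v.t * E b := by
        have := congrArg E hb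
        rw [map_sub, map_mul, map_mul, E0, zero_mul, sub_zero, map_mul] at this
        have := congrArg Subtype.val this
        rwa [MulMemClass.coe_mul, MulMemClass.coe_mul, cE (C _), eval₂_C] at this
      have b0 : (E b : L) ≠ 0 := fun z => mul_ne_zero a0 h0.1 (by rw [x, z, mul_zero])
      have y := congrArg u.ord x
      rw [Pl.ord_mul _ a0 h0.1, Pl.ord_mul _ t0 b0, h1, add_zero] at y
      have := l.e_pos
      exact y ▸ dvd_add dvd_rfl (ih b b0 (by push_cast at k; omega))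
  obtain ⟨p, hp⟩ := gen u.t
  obtain ⟨c, hc⟩ := exists_pow v fun i : p.support => p.coeff i
  obtain ⟨a, ha⟩ : C (v.t ^ c) * p ∈ lifts v.ring.subtype := (lifts_iff_coeff_lifts _).2 fun i => by
    rw [coeff_C_mul]
    by_cases z : i ∈ p.support
    · exact ⟨⟨_, hc ⟨i, z⟩⟩, rfl⟩
    · exact ⟨0, by simp [notMem_support_iff.1 z]⟩
  have x : (E a : L) = φ v.t ^ c * u.t := by
    rw [cE, ← eval₂_map, show a.map _ = _ from ha, eval₂_mul, eval₂_C, hp, map_pow]
  have a0 : (E a : L) ≠ 0 := x ▸ mul_ne_zero (pow_ne_zero _ t0) u.t_ne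
  have := key ((u.ord (E a)).toNat + 1) a a0 (by omega)
  rw [x, Pl.ord_mul _ (pow_ne_zero _ t0) u.t_ne, Pl.ord_pow, u.ord_t,
    dvd_add_right (dvd_mul_left _ _)] at this
  exact Int.eq_one_of_dvd_one l.e_pos.le this

end Vale.Agent.P283B.Le
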