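import Vale.Agent.P283B.LS.St
import Vale.Agent.P283B.LS.Et1

/-!
# P283B, block LS: the leaf `UNR`
-/

set_option linter.unusedVariables false

open Set Polynomial
open Vale.Agent.P287D Vale.Agent.P287D.Cb

noncomputable section

namespace Vale.Agent.P283B.Ls

theorem unr : UNR := fun L M ι _ _ _ _ _ z φ θ F P v hz h l => by
  have zv : ∀ p : MvPolynomial ι ℂ, MvPolynomial.aeval z p ∈ v.ring := fun p => by
    induction p using MvPolynomial.induction_on with
    | C c => rw [MvPolynomial.aeval_C]; exact v.con c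
    | add p q a b => rw [map_add]; exact add_mem a b
    | mul_X p i a =>
      rw [map_mul, MvPolynomial.aeval_X]; exact mul_mem a ((l _).2 (h.fi i))
  let ψ : MvPolynomial ι ℂ →+* v.ring :=
    (MvPolynomial.aeval z : MvPolynomial ι ℂ →ₐ[ℂ] L).toRingHom.codRestrict _ zv
  have cψ : ∀ a : (MvPolynomial ι ℂ)[X],
      (a.map ψ).eval₂ ((φ : L →+* M).comp v.ring.subtype) θ = ey (fun i => φ (z i)) θ a :=
    fun a => by
      rw [eval₂_map, ey]
      congr 1
      refine MvPolynomial.ringHom_ext (fun c => ?_) fun i => ?_ <;> simp [ψ]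
  let _ : Algebra L M := (φ : L →+* M).toAlgebra
  have int : IsIntegral L θ := ⟨(F.map ψ).map v.ring.subtype, (h.mon.map _).map _, by
    rw [eval₂_map]; exact (cψ F).trans h.root⟩
  refine Le.unr (φ := (φ : L →+* M)) l (F.map ψ) ?_ ((cψ F).trans h.root) ?_ fun f => ?_
  · have : IsIntegral P.ring θ := ⟨(F.map ψ).map (Pb.rh l), (h.mon.map _).map _, by
      rw [eval₂_map]; exact (cψ F).trans h.root⟩
    obtain ⟨a, rfl⟩ := IsIntegrallyClosed.isIntegral_iff.1 this
    exact a.2
  · rw [derivative_map, cψ, mx_iff, h.un, not_or]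
    exact ⟨h.ne, lt_irrefl _⟩
  · have : IsScalarTower ℂ L M := .of_algebraMap_eq fun c => (φ.commutes c).symm
    have : f ∈ (IntermediateField.adjoin L {θ}).restrictScalars ℂ :=
      (IntermediateField.adjoin_le_iff.2 (insert_subset
        (IntermediateField.mem_adjoin_simple_self L θ) (range_subset_iff.2 fun i =>
          IntermediateField.algebraMap_mem (IntermediateField.adjoin L {θ}) (z i))) :
        IntermediateField.adjoin ℂ _ ≤ _) (h.gen.ge trivial)
    have : f ∈ Algebra.adjoin L {θ} := by
      rw [← IntermediateField.adjoin_simple_toSubalgebra_of_isAlgebraic int.isAlgebraic]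
      exact this
    rw [Algebra.adjoin_singleton_eq_range_aeval] at this
    exact this

end Vale.Agent.P283B.Ls
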