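import Vale.Agent.P283B.LS.St
import Vale.Agent.P287D.On.Cen
import Vale.Agent.P287D.Gm.Unit

/-!
# P283B, block LS: etale charts with any index type
-/

set_option linter.unusedVariables false
set_option linter.unusedSectionVars false

open Set Polynomial
open Vale.Agent.P287D Vale.Agent.P287D.Cb
open Vale.Agent.P297Z

noncomputable section

namespace Vale.Agent.P283B.Ls.Sl

variable {K M ι ι' : Type} [Field K] [Algebra ℂ K] [Field M] [Algebra ℂ M] {n : ℕ} {y : ι → K}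
  {θ : K} {P R₀ w : Pl K} {s₀ : Finset K} {F a : (MvPolynomial ι ℂ)[X]}

theorem ey_map (ψ : M →ₐ[ℂ] K) (y : ι → M) (θ : M) (a : (MvPolynomial ι ℂ)[X]) :
    ψ (ey y θ a) = ey (fun i => ψ (y i)) (ψ θ) a := by
  rw [ey, ey]
  refine (hom_eval₂ a _ (ψ : M →+* K) θ).trans ?_
  congr 1
  refine MvPolynomial.ringHom_ext (fun c => ?_) fun i => ?_ <;> simp

theorem ey_ren (f : ι → ι') (y : ι' → K) (θ : K) (a : (MvPolynomial ι ℂ)[X]) :
    ey y θ (a.map (MvPolynomial.rename f : _ →ₐ[ℂ] _)) = ey (y ∘ f) θ a := by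
  rw [ey, ey, eval₂_map]
  congr 1
  refine MvPolynomial.ringHom_ext (fun c => ?_) fun i => ?_ <;> simp

theorem ey_opt (y : ι → K) (θ : K) (p : MvPolynomial (Option ι) ℂ) :
    ey y θ (MvPolynomial.optionEquivLeft ℂ ι p) =
      MvPolynomial.aeval (fun o : Option ι => o.elim θ y) p := by
  induction p using MvPolynomial.induction_on with
  | C c => simp [ey]
  | add p q a b => rw [map_add, map_add, ← a, ← b, ey, eval₂_add]; rfl
  | mul_X p i a =>
    rw [map_mul, map_mul, ← a, ey, eval₂_mul]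
    cases i <;> simp [ey]

theorem int_mem {A : Type} [CommRing A] [Algebra A K] (h : ∀ a, algebraMap A K a ∈ P.ring) {f : K}
    (hf : IsIntegral A f) : f ∈ P.ring := by
  obtain ⟨p, m, r⟩ := hf
  have : IsIntegral P.ring f :=
    ⟨p.map ((algebraMap A K).codRestrict _ h), m.map _, by rw [eval₂_map]; exact r⟩
  obtain ⟨a, rfl⟩ := IsIntegrallyClosed.isIntegral_iff.1 this
  exact a.2

theorem ey_adj (y : ι → K) (θ : K) (a : (MvPolynomial ι ℂ)[X]) :
    ey y θ a ∈ Algebra.adjoin ℂ (insert θ (range y)) := by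
  obtain ⟨p, rfl⟩ := (MvPolynomial.optionEquivLeft ℂ ι).surjective a
  rw [ey_opt, show insert θ (range y) = _ from (Option.range_eq fun o : Option ι => o.elim θ y).symm,
    Algebra.adjoin_range_eq_range_aeval]
  exact ⟨p, rfl⟩

theorem ey_mem (h : Fi y P) (k : θ ∈ P.ring) (a : (MvPolynomial ι ℂ)[X]) : ey y θ a ∈ P.ring :=
  adj_mem (insert_subset k (range_subset_iff.2 h)) (ey_adj y θ a)

theorem th_int (m : F.Monic) (r : ey y θ F = 0) : IsIntegral (Algebra.adjoin ℂ (range y)) θ := by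
  let ψ := (MvPolynomial.aeval y : MvPolynomial ι ℂ →ₐ[ℂ] K).codRestrict
    (Algebra.adjoin ℂ (range y)) fun p => by
      rw [Algebra.adjoin_range_eq_range_aeval]; exact ⟨p, rfl⟩
  exact ⟨F.map (ψ : _ →+* _), m.map _, by rw [eval₂_map]; exact r⟩

theorem Eq.mem (h : Eq y θ F P) (a : (MvPolynomial ι ℂ)[X]) : ey y θ a ∈ P.ring :=
  ey_mem h.fi (int_mem (fun b => adj_mem (range_subset_iff.2 h.fi) b.2) (th_int h.mon h.root)) a

/-- `Et` for any index type -/
structure Eu (s₀ : Finset K) (P : Pl K) (y : ι → K) (θ : K) (F : (MvPolynomial ι ℂ)[X]) :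
    Prop where
  ind : AlgebraicIndependent ℂ y
  mon : F.Monic
  root : ey y θ F = 0
  ne : ey y θ F.derivative ≠ 0
  un : P.ord (ey y θ F.derivative) = 0
  loc : ∀ h, h ∈ Oz s₀ P ↔ ∃ a b, ey y θ b ≠ 0 ∧ P.ord (ey y θ b) = 0 ∧ h = ey y θ a / ey y θ b

namespace Eu

theorem ren (h : Eu s₀ P y θ F) (e : ι' ≃ ι) :
    Eu s₀ P (y ∘ e) θ (F.map (MvPolynomial.rename e.symm : _ →ₐ[ℂ] _)) := by
  have k : ∀ a, ey (y ∘ e) θ (a.map (MvPolynomial.rename e.symm : _ →ₐ[ℂ] _)) = ey y θ a :=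
    fun a => by rw [ey_ren, Function.comp_assoc, e.self_comp_symm, Function.comp_id]
  refine ⟨h.ind.comp _ e.injective, h.mon.map _, (k _).trans h.root, ?_, ?_, fun f => ?_⟩
  · rw [derivative_map, k]; exact h.ne
  · rw [derivative_map, k]; exact h.un
  rw [h.loc]
  exact ⟨fun ⟨a, b, u⟩ => ⟨_, _, by rw [← k a, ← k b] at u; exact u⟩,
    fun ⟨a, b, u⟩ => ⟨_, _, by rw [← ey_ren e y θ a, ← ey_ren e y θ b] at u; exact u⟩⟩

theorem mem (h : Eu s₀ P y θ F) (a : (MvPolynomial ι ℂ)[X]) : ey y θ a ∈ Oz s₀ P :=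
  (h.loc _).2 ⟨a, 1, by simp [ey]⟩

theorem y_mem (h : Eu s₀ P y θ F) (i : ι) : y i ∈ Oz s₀ P := by
  simpa [ey] using h.mem (C (MvPolynomial.X i))

theorem th_mem (h : Eu s₀ P y θ F) : θ ∈ Oz s₀ P := by simpa [ey] using h.mem X

theorem unit (h : Eu s₀ P y θ F) (o : Ov s₀ P w) (b0 : ey y θ a ≠ 0) (k : P.ord (ey y θ a) = 0) :
    w.ord (ey y θ a) = 0 :=
  Pl.ord_unit _ (h.mem a w o) ((h.loc _).2 ⟨1, a, b0, k, by simp [ey]⟩ w o)

end Eu

theorem oz_le (hK : FF K n) {f : K} (h : f ∈ Oz s₀ P) : f ∈ fld (mx s₀) :=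
  cld_fld _ f (by_contra fun e => by
    obtain ⟨Q, a, b⟩ := On.hor_pole hK e
    exact b (h Q (On.cle_of_hor hK (smp_mx s₀) a P)))

theorem le_oz (hK : FF K n) (nh : ¬ Hor (fld (mx s₀)) P) {f : K} (h : f ∈ fld (mx s₀)) :
    ∃ a ∈ Oz s₀ P, ∃ b ∈ Oz s₀ P, f = a / b := by
  have nz : Nz s₀ := by_contra fun z => nh (by
    rw [mx_of_not z, fld_prn hK (zero_mem _)]
    rintro _ ⟨c, rfl⟩
    exact P.con c)
  obtain ⟨g, hg, c⟩ := On.exists_ch nz P
  have hB : ∀ b : On.Bf s₀ g, (b : K) ∈ Oz s₀ P := fun b Q o =>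
    (c.of_cle o).mem _ (On.Bf_le c.ne b.2)
  have a1 : IsAlgebraic (IntermediateField.adjoin ℂ ((· / g) '' s₀)) f :=
    On.alg_mono Subtype.val_injective Subtype.val_injective (fun r => ⟨⟨r, rts_le_iff.2
      (fun a ha b hb => by
        rw [← div_div_div_cancel_right₀ c.ne]
        exact div_mem (IntermediateField.subset_adjoin _ _ ⟨a, ha, rfl⟩)
          (IntermediateField.subset_adjoin _ _ ⟨b, hb, rfl⟩)) r.2⟩, rfl⟩) ((mem_fld_mx hK).1 h)
  obtain ⟨b, b0, i⟩ := (IntermediateField.isAlgebraic_adjoin_iff.1 a1).exists_integral_multiple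
  exact ⟨b • f, fun Q o => int_mem (fun a => hB a Q o) i, b, hB b,
    (mul_div_cancel_left₀ f fun z => b0 (Subtype.ext z)).symm⟩

theorem Eu.gen (h : Eu s₀ P y θ F) (hK : FF K n) (nh : ¬ Hor (fld (mx s₀)) P) :
    IntermediateField.adjoin ℂ (insert θ (range y)) = fld (mx s₀) := by
  refine le_antisymm (IntermediateField.adjoin_le_iff.2 (insert_subset (oz_le hK h.th_mem)
    (range_subset_iff.2 fun i => oz_le hK (h.y_mem i)))) fun f hf => ?_
  have k : ∀ a ∈ Oz s₀ P, a ∈ IntermediateField.adjoin ℂ (insert θ (range y)) := fun a ha => by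
    obtain ⟨b, c, -, -, rfl⟩ := (h.loc a).1 ha
    exact div_mem (IntermediateField.algebra_adjoin_le_adjoin _ _ (ey_adj y θ b))
      (IntermediateField.algebra_adjoin_le_adjoin _ _ (ey_adj y θ c))
  obtain ⟨a, ha, b, hb, rfl⟩ := le_oz hK nh hf
  exact div_mem (k a ha) (k b hb)

theorem Eu.alg (h : Eu s₀ P y θ F) (hK : FF K n) (nh : ¬ Hor (fld (mx s₀)) P) {f : K}
    (hf : f ∈ fld (mx s₀)) : IsAlgebraic (IntermediateField.adjoin ℂ (range y)) f := by
  rw [← h.gen hK nh] at hf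
  refine mem_algebraicClosure_iff.1 ((IntermediateField.adjoin_le_iff.2 (insert_subset ?_
    (range_subset_iff.2 fun i => ?_)) : _ ≤ (algebraicClosure (IntermediateField.adjoin ℂ (range y))
      K).restrictScalars ℂ) hf)
  · exact mem_algebraicClosure_iff.2
      (IntermediateField.isAlgebraic_adjoin_iff.2 (th_int h.mon h.root).isAlgebraic)
  · exact (algebraicClosure _ K).algebraMap_mem (Gm.Un.gn y i)

theorem Eu.hor (h : Eu s₀ P y θ F) (hK : FF K n) (nh : ¬ Hor (fld (mx s₀)) P)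
    (k : Hor (IntermediateField.adjoin ℂ (range y)) w) : Hor (fld (mx s₀)) w := fun f hf =>
  int_mem (fun a => k a.1 a.2) (h.alg hK nh hf).isIntegral

/-- coordinates adapted to the point -/
theorem split (hK : FF K (n + 1)) (sm : Smo K s₀ P) (nh : ¬ Hor (fld (mx s₀)) P) :
    ∃ (σ : Type) (_ : Fintype σ) (m : ℕ) (y : σ ⊕ Fin (m + 1) → K) (θ : K)
      (F : (MvPolynomial (σ ⊕ Fin (m + 1)) ℂ)[X]) (q : Fin (m + 1) → (MvPolynomial σ ℂ)[X]),
      m ≤ n ∧ Eu s₀ P y θ F ∧ AlgebraicIndependent ℂ (fun b => P.rd (y (.inl b))) ∧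
      ∀ i, Irreducible (q i) ∧ 0 < P.ord (ey (fun b => y (.inl b)) (y (.inr i)) (q i)) := by
  classical
  obtain ⟨e, y, θ, F, h⟩ := sm
  have h : Eu s₀ P y θ F := ⟨h.ind, h.mon, h.root, h.ne, h.un, h.loc⟩
  have hy : Fi y P := fun i => h.y_mem i P (CLe.refl _ _)
  obtain ⟨S, hS⟩ := (toFinite {S : Set (Fin e) | AlgebraicIndepOn ℂ (fun i => P.rd (y i)) S}).exists_maximal
    ⟨∅, algebraicIndependent_empty_type⟩
  have ne : Fintype.card (Sᶜ : Set (Fin e)) ≠ 0 := fun z => nh (h.hor hK nh fun f hf => by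
    obtain rfl : S = univ := by
      rwa [Fintype.card_eq_zero_iff, isEmpty_coe_sort, compl_empty_iff] at z
    have hi : AlgebraicIndependent ℂ fun i => P.rd (y i) := AlgebraicIndepOn.univ.1 hS.prop
    obtain ⟨a, ha, b, hb, rfl⟩ := IntermediateField.mem_adjoin_iff_div.1 hf
    by_cases b0 : b = 0
    · simp [b0]
    rw [div_eq_mul_inv]
    exact mul_mem (adj_mem (range_subset_iff.2 hy) ha) (inv_mem_of fun k => b0 (unit0 hy hi hb k)))
  obtain ⟨m, hm⟩ := Nat.exists_eq_succ_of_ne_zero ne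
  let g := (Fintype.equivFinOfCardEq hm).symm
  let E : S ⊕ Fin (m + 1) ≃ Fin e := ((Equiv.refl S).sumCongr g).trans (Equiv.Set.sumCompl S)
  have k : ∀ i, ∃ q, Irreducible q ∧ 0 < P.ord (ey (fun b : S => y b) (y (g i)) q) := fun i => by
    have ni : ¬ AlgebraicIndependent ℂ fun o : Option S => P.rd (o.elim (y (g i)) fun b => y b) :=
      fun z => (g i).2 (hS.2 ((algebraicIndependent_equiv' (subtypeInsertEquivOption (g i).2)
        (funext fun j => by
          obtain ⟨j, rfl⟩ := (subtypeInsertEquivOption (g i).2).symm.surjective j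
          rw [Function.comp, Equiv.apply_symm_apply]
          cases j <;> rfl)).2 z) (subset_insert _ _) (mem_insert _ _))
    obtain ⟨p, hp, p0⟩ := (RingHom.ker_isPrime (MvPolynomial.aeval (R := ℂ) fun o : Option S =>
      P.rd (o.elim (y (g i)) fun b => y b))).exists_mem_prime_of_ne_bot fun z =>
        ni ((RingHom.injective_iff_ker_eq_bot _).2 z)
    have u : ∀ o : Option S, (o.elim (y (g i)) fun b => y b) ∈ P.ring := fun o => by
      cases o <;> exact hy _
    refine ⟨_, (MulEquiv.irreducible_iff (MvPolynomial.optionEquivLeft ℂ S)).2 p0.irreducible, ?_⟩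
    rw [RingHom.mem_ker, ← rd_aeval u, ← ey_opt, rd_eq_zero (ey_mem (fun b => hy _) (hy _) _),
      mx_iff] at hp
    refine hp.resolve_left fun z => p0.ne_zero ?_
    rw [ey_opt] at z
    refine algebraicIndependent_iff.1 ?_ p z
    have := h.ind.comp (fun o : Option S => o.elim (g i : Fin e) fun b => b) (by
      rintro (_ | a) (_ | b) z
      · rfl
      · exact absurd (show (g i : Fin e) ∈ S from (show (g i : Fin e) = b from z) ▸ b.2) (g i).2
      · exact absurd (show (g i : Fin e) ∈ S from (show a = (g i : Fin e) from z) ▸ a.2) (g i).2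
      · exact congrArg some (Subtype.ext z))
    convert this using 1
    funext o
    cases o <;> rfl
  choose q hq using k
  refine ⟨S, inferInstance, m, y ∘ E, θ, _, q, ?_, h.ren E, hS.prop, hq⟩
  have := h.ind.cardinalMk_le_trdeg
  rw [hK.trdeg, Cardinal.mk_fin, Nat.cast_le] at this
  have := Fintype.card_congr E
  simp only [Fintype.card_sum, Fintype.card_fin] at this
  omega

end Vale.Agent.P283B.Ls.Sl
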