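import Vale.Agent.P283B.LS.St
import Vale.Agent.P283B.EB.WpB
import Vale.Agent.P283B.LC.Gb
import Vale.Agent.P283B.LC.Loc

/-!
# P283B, block LS: powers of the fibration
-/

set_option linter.unusedVariables false
set_option linter.unusedSectionVars false

open Set

noncomputable section

namespace Vale.Agent.P283B.Ls

open P287D Wp

namespace Sp

variable {L M K σ : Type} [Field L] [Algebra ℂ L] [Field M] [Algebra ℂ M] [Field K] [Algebra ℂ K]
  [Fintype σ] {z : σ → L} {k N : ℕ}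

theorem rf_ff (h : Rf z) : FF L (Fintype.card σ) := by
  refine ⟨z ∘ (Fintype.equivFin σ).symm, h.ind.comp _ (Equiv.injective _), ?_⟩
  rw [(Equiv.surjective _).range_comp, h.gen]
  exact .of_surjective (Algebra.linearMap _ L) fun a => ⟨⟨a, trivial⟩, rfl⟩

/-- log discrepancies in finite extensions -/
theorem kq_up [Algebra L M] [IsScalarTower ℂ L M] (hL : FF L k) (hM : FF M k)
    (c : Fintype.card σ = k) (hz : AlgebraicIndependent ℂ z) {u : Pl M} {v : Pl L}
    (l : Lies (algebraMap L M) u v) :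
    kq (algebraMap L M ∘ z) u + 1 = u.ord (algebraMap L M v.t) * (kq z v + 1) := by
  obtain ⟨k, rfl⟩ := Ba.ff_succ hL v
  obtain ⟨x, hx⟩ := exists_az hL v
  have a := hx.up l
  let s : Empty → M := Empty.elim
  let e : Option (Fin k) ≃ Option (Fin k) ⊕ Empty := (Equiv.sumEmpty _ _).symm
  have i := ind_of (y := Sum.elim (algebraMap L M ∘ zz v x) s) e l.e_pos a.mem a.ind
  have p : kq _ u + 1 = _ :=
    ap_of hM (by simp) (y := Sum.elim (algebraMap L M ∘ zz v x) s) e l.e_pos a.mem a.ind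
  have q := pb_ap (.inr ⟨v, l, hx.ap hL (by simp)⟩)
  have g := congrFun (kq_chg hL hM (lin L M) c (by simp) (by simp) hz hx.indep i) u
  rw [kq_congr hM c (Equiv.sumEmpty σ Empty).symm (y := algebraMap L M ∘ z) fun _ => rfl] at g
  simp only [Fintype.sum_sum_type, Finset.univ_eq_empty, Finset.sum_empty, add_zero, Sum.elim_inl,
    Function.comp_apply] at p
  simp only [Pi.add_apply, Pi.sub_apply, Pi.one_apply, l.pb] at g q
  rw [g]
  linarith

/-- fibre powers, normalised by a form on the base -/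
theorem pow [Algebra M K] [IsScalarTower ℂ M K] {Γ : BD K} (hM : FF M k) (d : Dt M N Γ) (s : ℕ)
    {j : M} (u₀ : Pl M) : ∃ (E : Type) (_ : Field E) (_ : Algebra ℂ E) (_ : Algebra M E)
      (_ : IsScalarTower ℂ M E) (m : ℕ) (Γ' : BD E), Dt M (m + 1) Γ' ∧ ∀ (u : Pl M) (t : ℝ),
      (Adm N Γ u t → Adm (m + 1) Γ' u ((s + 1) * t - s * ((cn M k + dv j) u + 1))) ∧
      (Low N Γ u t → Low (m + 1) Γ' u ((s + 1) * t - s * ((cn M k + dv j) u + 1))) := by
  obtain ⟨m, hm, fm⟩ := Gm.ff_alg (L := M) d.ff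
  obtain rfl := Gm.ff_uniq hM fm
  obtain ⟨r, rfl⟩ := Nat.exists_eq_add_of_le' hm
  obtain ⟨E, _, _, _, _, r', Γ', d', p⟩ := d.pow hM s
  obtain ⟨P₀, -⟩ := Pb.up (lin M E) d'.ff u₀
  obtain ⟨n', e⟩ := Ba.ff_succ d'.ff P₀
  rw [e] at d' p
  have ds : ∀ w, dsc (n' + 1) (Γ' + (s : ℝ) • dv (algebraMap M E j)) w =
      dsc (n' + 1) Γ' w - s * w.ord (algebraMap M E j) := fun w => by
    rw [Pr.dsc_add_smul, dv_apply]
  have pr : -(Γ' + (s : ℝ) • dv (algebraMap M E j)) - -Γ' ∈ Prn E := by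
    rw [show ∀ a b : BD E, -(a + b) - -a = -b from fun _ _ => by abel]
    exact neg_mem (Submodule.smul_mem _ _ (dv_mem_Prn _))
  refine ⟨E, _, _, _, inferInstance, n', Γ' + (s : ℝ) • dv (algebraMap M E j), ⟨d'.ff,
    d'.nef.congr pr, d'.big.congr pr, fun P t => ?_, fun f h => d'.rk f fun P t => ?_⟩,
    fun u t => ⟨fun a => ?_, fun a w l => ?_⟩⟩
  · rw [ds, t.ord]; simpa using d'.hor P t
  · have := h P t
    unfold Aj at this ⊢
    rwa [ds, t.ord, Int.cast_zero, mul_zero, sub_zero] at this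
  · obtain ⟨w, l, b⟩ := (p u t).1 a
    refine ⟨w, l, ?_⟩
    rw [ds, l.ord j, Pi.add_apply, dv_apply]
    push_cast
    linarith
  · have := (p u t).2 a w l
    rw [ds, l.ord j, Pi.add_apply, dv_apply]
    push_cast
    linarith

/-- the pull backs of the divisors which do not contain the point -/
def Cn {E : Type} [Field E] [Algebra ℂ E] (ι : M →+* E) (B : BD M) (u₀ : Pl M) :
    AddSubmonoid (BD E) where
  carrier := {G | ∃ G₀, 0 ≤ G₀ ∧ G₀ u₀ = 0 ∧ (∃ m : ℝ, 0 ≤ m ∧ G₀ - m • B ∈ Prn M) ∧ G = pb ι G₀}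
  add_mem' := by
    rintro _ _ ⟨a, a0, a1, ⟨m, m0, a2⟩, rfl⟩ ⟨b, b0, b1, ⟨k, k0, b2⟩, rfl⟩
    refine ⟨a + b, add_nonneg a0 b0, by rw [Pi.add_apply, a1, b1, add_zero],
      ⟨m + k, add_nonneg m0 k0, ?_⟩, (pb_add _ _ _).symm⟩
    rw [show a + b - (m + k) • B = a - m • B + (b - k • B) by module]
    exact add_mem a2 b2
  zero_mem' := ⟨0, le_rfl, rfl, ⟨0, le_rfl, by simp⟩, (pb_zero _).symm⟩

theorem zr_iff {E : Type} [Field E] [Algebra ℂ E] {ι : M →+* E} (ok : Ok ι) {B : BD M} {u₀ : Pl M}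
    (B0 : 0 ≤ B) (B1 : B u₀ = 0) (w : Pl E) :
    (∀ G ∈ Cn ι B u₀, G w = 0) ↔ Trv ι w ∨ ∃ u, Lies ι w u ∧ CLe B u₀ u := by
  constructor
  · refine fun h => (ok w).imp_right fun ⟨u, l⟩ => ⟨u, l, fun G r g => by_contra fun y => ?_⟩
    have := h _ ⟨G, r.1, le_antisymm (not_lt.1 y) (r.1 u₀), ⟨1, zero_le_one, by
      simpa using r.2⟩, rfl⟩
    rw [l.pb] at this
    exact (mul_pos (Int.cast_pos.2 l.e_pos) g).ne' this
  · rintro (t | ⟨u, l, c⟩) _ ⟨G, g0, g1, ⟨m, m0, g2⟩, rfl⟩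
    · exact t.pb G
    have m1 : 0 < m + 1 := by linarith
    have := c.zero (G := (m + 1)⁻¹ • (G + B)) ⟨smul_nonneg (inv_pos.2 m1).le (add_nonneg g0 B0), by
      rw [show (m + 1)⁻¹ • (G + B) - B = (m + 1)⁻¹ • (G - m • B) + ((m + 1)⁻¹ * (m + 1) - 1) • B by
        module, inv_mul_cancel₀ m1.ne', sub_self, zero_smul, add_zero]
      exact Submodule.smul_mem _ _ g2⟩ (by simp [g1, B1])
    rw [Pi.smul_apply, smul_eq_mul, mul_eq_zero, or_iff_right (inv_pos.2 m1).ne', Pi.add_apply]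
      at this
    have a : 0 ≤ G u := g0 u
    have b : 0 ≤ B u := B0 u
    rw [l.pb, show G u = 0 by linarith, mul_zero]

theorem trv_alg {E : Type} [Field E] [Algebra ℂ E] [Algebra L M] [Algebra.IsAlgebraic L M]
    (ι : M →+* E) {w : Pl E} (t : Trv (ι.comp (algebraMap L M)) w) : Trv ι w := fun a => by
  obtain ⟨p, hp, hpx⟩ := (Algebra.IsAlgebraic.isAlgebraic (R := L) a).isIntegral
  obtain ⟨y, hy⟩ := IsIntegrallyClosed.isIntegral_iff.1
    (⟨p.map ((ι.comp (algebraMap L M)).codRestrict _ t), hp.map _, by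
      rw [Polynomial.eval₂_map]
      have := congrArg ι hpx
      rwa [Polynomial.hom_eval₂, map_zero] at this⟩ : IsIntegral w.ring (ι a))
  exact hy ▸ y.2

/-- the statement on the base -/
theorem core (ot : OT) [Algebra L M] [IsScalarTower ℂ L M] [Algebra M K] [IsScalarTower ℂ M K]
    [Algebra.IsAlgebraic L M] {Γ : BD K} {B : BD M} {u₀ : Pl M} {v : Pl L} {δ : ℝ} {s k : ℕ}
    (hz : Rf z) (hM : FF M (Fintype.card σ)) (d : Dt M N Γ) (nB : Nef B) (B0 : 0 ≤ B)
    (B1 : B u₀ = 0) (fi : ∀ u, CLe B u₀ u → ∀ b, algebraMap L M (z b) ∈ u.ring) (fv : Fi z v)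
    (low : ∀ u, CLe B u₀ u → Lies (algebraMap L M) u v → Low N Γ u (δ * u.ord (algebraMap L M v.t)))
    (hk : (s + 1) * (kq z v + 1 - δ) < k + 1) : ∃ (r : ℕ) (f : Fin r → M) (e : Fin r → L),
    (∀ l, e l ∈ v.ring) ∧ algebraMap L M v.t ^ k = ∑ l, f l * algebraMap L M (e l) ∧
    ∀ l u t, CLe B u₀ u → f l ≠ 0 → Adm N Γ u t →
      s * (kq (algebraMap L M ∘ z) u + 1) - (s + 1) * t < u.ord (f l) := by
  have hL := rf_ff hz
  have iz : AlgebraicIndependent ℂ (algebraMap L M ∘ z) :=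
    hz.ind.map' (f := IsScalarTower.toAlgHom ℂ L M) (algebraMap L M).injective
  obtain ⟨j, -, ej⟩ := kq_cn hM rfl iz
  obtain ⟨E, _, _, _, _, m, Γ', d', p⟩ := pow (j := j) hM d s u₀
  rw [← ej] at p
  have ok := okL (L := M) d'.ff
  obtain ⟨f₀, -, e₀⟩ := kq_cn hL rfl hz.ind
  obtain ⟨κ, hκ⟩ : ∃ κ : ℤ, kq z v = κ := by
    obtain ⟨a, ha⟩ := Cb.cn_int (K := L) (n := Fintype.card σ) v
    exact ⟨a + v.ord f₀, by rw [e₀, Pi.add_apply, ha, dv_apply]; push_cast; rfl⟩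
  have zr := zr_iff ok B0 B1
  obtain ⟨r, g, e, h1, h2, h3⟩ := ot m E d'.ff L σ z
    ((IsScalarTower.toAlgHom ℂ M E).comp (IsScalarTower.toAlgHom ℂ L M)) Γ' (pb (algebraMap M E) B)
    (Cn (algebraMap M E) B u₀) v (k - κ) hz (ok.nef nB) (by
      rintro _ ⟨G, g0, -, ⟨m, m0, g2⟩, rfl⟩
      exact ⟨pb_nonneg _ g0, m, m0, by rw [← pb_smul, ← pb_sub]; exact ok.prn g2⟩)
    ⟨0, zero_mem _, by rw [zero_sub]; exact d'.nef, by rw [zero_sub]; exact d'.big⟩
    (fun w h b => by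
      rcases (zr w).1 h with t | ⟨u, l, c⟩
      exacts [t _, (l _).1 (fi u c b)]) fv (fun w h => ⟨fun t => by
        have := d'.hor w (trv_alg (L := L) _ t)
        unfold ld
        linarith, fun l => by
        have l' : Lies ((algebraMap M E).comp (algebraMap L M)) w v := l
        rcases (zr w).1 h with t | ⟨u, lu, c⟩
        · exact absurd (t.comp _) l'.not_trv
        have uv := lu.of_comp l'
        have a := (p u _).2 (low u c uv) w lu
        rw [kq_up hL hM rfl hz.ind uv] at a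
        have e1 : (0 : ℝ) < w.ord (algebraMap M E u.t) := Int.cast_pos.2 lu.e_pos
        have e2 : (0 : ℝ) < u.ord (algebraMap L M v.t) := Int.cast_pos.2 uv.e_pos
        have e3 := mul_pos (mul_pos e1 e2) (sub_pos.2 hk)
        show 0 < dsc (m + 1) Γ' w + 1 + ((k - κ : ℤ) : ℝ) *
          (w.ord (algebraMap M E (algebraMap L M v.t)) : ℝ)
        rw [lu.ord]
        push_cast
        rw [← hκ]
        nlinarith⟩)
  choose f hf using fun l => d'.rk (g l) fun P t => h1 l P ((zr P).2 (.inl t))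
  refine ⟨r, f, fun l => e l * v.t ^ κ, fun l => ?_, (algebraMap M E).injective ?_,
    fun l u t c f0 a => ?_⟩
  · rcases eq_or_ne (e l) 0 with y | y
    · simp [y]
    · have := (h2 l).resolve_left y
      rw [hκ] at this
      rw [← P297Z.Pl.ord_nonneg_iff _ (mul_ne_zero y (zpow_ne_zero _ v.t_ne)), v.ord_mul_t y]
      have : -κ ≤ v.ord (e l) := by exact_mod_cast this
      omega
  · have t0 : algebraMap M E (algebraMap L M v.t) ≠ 0 := by simpa using v.t_ne
    have : algebraMap M E (algebraMap L M v.t) ^ (k - κ : ℤ) =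
      ∑ l, g l * algebraMap M E (algebraMap L M (e l)) := h3
    rw [map_pow, ← zpow_natCast, ← sub_add_cancel (k : ℤ) κ, zpow_add₀ t0, this, map_sum,
      Finset.sum_mul]
    simp only [map_mul, map_zpow₀, hf, mul_assoc]
  · obtain ⟨w, lw, b⟩ := (p u t).1 a
    have := (h1 l w ((zr w).2 (.inr ⟨u, lw, c⟩))).resolve_left
      (hf l ▸ (map_ne_zero (algebraMap M E)).2 f0)
    rw [← hf, lw.ord, Int.cast_mul] at this
    have e1 : (0 : ℝ) < w.ord (algebraMap M E u.t) := Int.cast_pos.2 lw.e_pos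
    exact lt_of_mul_lt_mul_left (by linarith) e1.le

end Sp

theorem spw : SPW := by
  intro ot n K _ _ hK L σ _ _ _ z φ Λ Γ s₀ R₀ c δ s k v hz nh sΛ bΛ dΛ bd nef big zO φM alg fv s0
    hor low hk
  obtain ⟨s, rfl⟩ := Nat.exists_eq_succ_of_ne_zero s0.ne'
  have ok := hK.ok_sub (fld (mx s₀))
  obtain ⟨u₀, l₀⟩ := (ok R₀).resolve_left fun t => nh fun a ha => t ⟨a, ha⟩
  obtain ⟨B', sB, bB, pB⟩ := fld_down hK (smp_mx s₀)
  obtain ⟨B, rB, zB⟩ := sB.exists_rep (finite_singleton u₀)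
  have zB := zB u₀ rfl
  replace sB := sB.congr rB.2
  replace bB := bB.congr rB.2
  replace pB : pb (inc _) B - mx s₀ ∈ Prn K := by
    have := sub_mem (ok.prn rB.2) pB
    rwa [pb_sub, sub_sub_sub_eq, add_comm, add_sub_add_left_eq_sub] at this
  let _ : Algebra L (fld (mx s₀)) := (φ.toRingHom.codRestrict (fld (mx s₀)) φM).toAlgebra
  have _ : IsScalarTower ℂ L (fld (mx s₀)) :=
    .of_algebraMap_eq fun a => Subtype.ext (φ.commutes a).symm
  have cm : (φ : L →+* K) = (inc (fld (mx s₀))).comp (algebraMap L _) := rfl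
  have _ : Algebra.IsAlgebraic L (fld (mx s₀)) := ⟨fun a => by
    obtain ⟨p, p0, hp⟩ := alg a.1 a.2
    obtain ⟨q, rfl⟩ := Polynomial.map_surjective (φ.toRingHom.codRestrict φ.fieldRange
      fun a => ⟨a, rfl⟩) (fun ⟨_, a, e⟩ => ⟨a, Subtype.ext e⟩) p
    refine ⟨q, fun e => p0 (by rw [e, Polynomial.map_zero]), (inc _).injective ?_⟩
    rw [Polynomial.aeval_def, Polynomial.eval₂_map] at hp
    rw [Polynomial.aeval_def, Polynomial.hom_eval₂, map_zero]
    exact hp⟩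
  have hL := Sp.rf_ff hz
  have hM : FF (fld (mx s₀)) (Fintype.card σ) := by
    obtain ⟨m, -, h⟩ := Gm.ff_sub hK (fld (mx s₀))
    have := trdeg_add_eq ℂ L (A := fld (mx s₀))
    rw [trdeg_eq_zero (R := L), add_zero, hL.trdeg, h.trdeg] at this
    exact (Nat.cast_injective this : Fintype.card σ = m) ▸ h
  obtain ⟨m, em⟩ := Ba.ff_succ hM u₀
  have ct : Lg.Ct n m _ Λ B := ⟨hK, em ▸ hM, cld_fld _, sΛ, bΛ, sB, bB, dΛ.congr pB⟩
  have ov : ∀ {P u}, Lies (inc _) P u → (Ov s₀ R₀ P ↔ CLe B u₀ u) := fun l =>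
    ⟨fun h => (cle_pb_iff hK (cld_fld _) l₀ l).1 (CLe.congr h pB), fun h =>
      ((cle_pb_iff hK (cld_fld _) l₀ l).2 h).congr (by simpa using neg_mem pB)⟩
  have pr : -(Γ - c • pb (inc _) B) - (c • mx s₀ - Γ) ∈ Prn K := by
    rw [show -(Γ - c • pb (inc _) B) - (c • mx s₀ - Γ) = c • (pb (inc _) B - mx s₀) by module]
    exact Submodule.smul_mem _ _ pB
  have ds : ∀ P, pb (inc _) B P = 0 → dsc (n + 1) (Γ - c • pb (inc _) B) P = dsc (n + 1) Γ P :=
    fun P h => by rw [Lcb.dsc_sub, Pi.smul_apply, h, smul_zero, add_zero]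
  have z0 : ∀ {P u}, Lies (inc _) P u → CLe B u₀ u → pb (inc _) B P = 0 := fun l h => by
    rw [l.pb, h.zero (Rep.refl rB.1) zB, mul_zero]
  have d : Dt (fld (mx s₀)) (n + 1) (Γ - c • pb (inc _) B) := ⟨hK, nef.congr pr, big.congr pr,
    fun P t => by
      have := hor P (cm ▸ t.comp _)
      rw [ds P (t.pb B)]
      unfold ld at this
      linarith, fun f h => ⟨⟨f, ct.rk bd fun P t => by
        have := h P t.trv
        unfold Aj at this ⊢
        rwa [ds P (t.trv.pb B)] at this⟩, rfl⟩⟩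
  obtain ⟨r, f, e, h1, h2, h3⟩ := Sp.core (δ := δ) (s := s) (k := k) ot hz hM d sB.nef rB.1 zB
    (fun u h b => by
      obtain ⟨P, l⟩ := Pb.up (φ := inc (fld (mx s₀))) (fun _ => rfl) hK u
      exact (l _).2 (zO b P ((ov l).2 h))) fv (fun u h l P lP => by
      have := low P ((ov lP).2 h) (cm ▸ lP.comp l)
      rw [ds P (z0 lP h)]
      have e : P.ord (φ v.t) = _ := lP.ord (algebraMap L _ v.t)
      rw [e] at this
      unfold ld at this
      push_cast at this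
      linarith) (by exact_mod_cast hk)
  have key : ∀ l w, Ov s₀ R₀ w → ¬ Trv (φ : L →+* K) w → f l ≠ 0 →
      1 ≤ pb (φ : L →+* K) (kq z + 1) w ∧
      s * pb (φ : L →+* K) (kq z + 1) w - (s + 1) * ld (n + 1) Γ w < w.ord (f l : K) := by
    intro l w o t f0
    obtain ⟨u, lu⟩ := (ok w).resolve_left fun y => t (cm ▸ y.comp _)
    obtain ⟨v', lv⟩ := (okL (L := L) hM u).resolve_left fun y => t (cm ▸ lu.comp_trv y)
    have e1 : (1 : ℝ) ≤ w.ord (inc _ u.t) := by exact_mod_cast lu.e_pos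
    have e2 : (1 : ℝ) ≤ u.ord (algebraMap L _ v'.t) := by exact_mod_cast lv.e_pos
    have c' := (ov lu).1 o
    have a := h3 l u (ld (n + 1) Γ w / w.ord (inc _ u.t)) c' f0 ⟨w, lu, by
      rw [ds w (z0 lu c'), div_mul_cancel₀ _ (by linarith)]; rfl⟩
    have b : pb (φ : L →+* K) (kq z + 1) w =
        w.ord (inc _ u.t) * (u.ord (algebraMap L _ v'.t) * (kq z v' + 1)) := by
      rw [cm, (lu.comp lv).pb, RingHom.comp_apply, lu.ord]
      simp [mul_assoc]
    have k0 := kq_nonneg hL rfl (y := z) (P := v') fun b => (lv _).2 ((lu _).2 (zO b w o))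
    rw [Sp.kq_up hL hM rfl hz.ind lv] at a
    have a' := mul_lt_mul_of_pos_left a (one_pos.trans_le e1)
    have e3 : w.ord (f l : K) = _ := lu.ord (f l)
    rw [b, e3]
    refine ⟨one_le_mul_of_one_le_of_one_le e1 (one_le_mul_of_one_le_of_one_le e2 (by linarith)), ?_⟩
    have e4 : (w.ord (inc _ u.t) : ℝ) * (ld (n + 1) Γ w / w.ord (inc _ u.t)) = ld (n + 1) Γ w :=
      mul_div_cancel₀ _ (by linarith)
    push_cast
    nlinarith
  refine ⟨r, fun l => f l, e, fun l Q o => ?_, h1, ?_, fun l w o t f0 => ?_⟩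
  · by_cases f0 : f l = 0
    · simp [f0]
    have f1 : (f l : K) ≠ 0 := fun y => f0 (Subtype.ext y)
    have := Lcb.le_ov hK bΛ dΛ (.zero sΛ) (.dv sΛ (f l : K)) (fun P a b => ?_) o
    · rw [Pi.zero_apply, dv_apply] at this
      exact (P297Z.Pl.ord_nonneg_iff _ f1).1 (by exact_mod_cast this)
    rw [Pi.zero_apply, dv_apply]
    by_cases t : Trv (φ : L →+* K) P
    · exact_mod_cast ((Sp.trv_alg (L := L) (inc _) t).ord (f l)).ge
    obtain ⟨a1, a2⟩ := key l P b t f0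
    have a3 := bd P a
    have a4 : ((-1 : ℤ) : ℝ) < P.ord (f l : K) := by
      unfold ld at a2
      push_cast
      nlinarith [(Nat.cast_nonneg s : (0 : ℝ) ≤ s)]
    exact Int.cast_nonneg (by linarith [Int.cast_lt.1 a4])
  · have := congrArg (inc (fld (mx s₀))) h2
    simp only [map_pow, map_sum, map_mul] at this
    exact this
  · have := (key l w o t fun y => f0 (by simp [y])).2
    push_cast
    linarith

end Vale.Agent.P283B.Ls
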