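import Vale.Agent.P283B.LS.Tw
import Vale.Agent.P283B.MONO.Va2

/-!
# P283B, block LS: the key step of the tower
-/

set_option linter.unusedSectionVars false

open Set Filter Polynomial

noncomputable section

namespace Vale.Agent.P283B.Ls.Ky

open Mono

variable {Ω : Type} [Field Ω] [Algebra ℂ Ω] [IsAlgClosed Ω] {w : AbsoluteValue Ω ℝ}
  {E : Subfield Ω} {t : Ω} {n : ℕ} {u : Fin n → Ω}

theorem nat_le (v : VS w E) (k : ℕ) : w k ≤ 1 := by
  rcases eq_or_ne k 0 with rfl | h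
  · simp
  · exact (v.nat k h).le

theorem gen_k (v : VS w E) (ρ : Ω) : ∀ᶠ k : ℕ in cofinite, w (k - ρ) = max 1 (w ρ) := by
  rcases lt_or_ge 1 (w ρ) with h | h
  · refine .of_forall fun k => ?_
    rw [max_eq_right h.le, w.map_sub, na_sub_lt v.na ((nat_le v k).trans_lt h)]
  · refine (Subsingleton.finite (s := {k : ℕ | w (k - ρ) < 1}) ?_).subset fun k hk => ?_
    · have key : ∀ a b : ℕ, a < b → w (a - ρ) < 1 → w (b - ρ) < 1 → False := fun a b l ha hb => by
        have := na_sub v.na (b - ρ) (a - ρ)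
        rw [sub_sub_sub_cancel_right, ← Nat.cast_sub l.le, v.nat _ (by omega)] at this
        exact absurd this (not_le.2 (max_lt hb ha))
      intro a ha b hb
      rcases lt_trichotomy a b with l | l | l
      exacts [(key a b l ha hb).elim, l, (key b a l hb ha).elim]
    · rw [max_eq_left h] at hk
      exact lt_of_le_of_ne ((na_sub v.na _ _).trans (max_le (nat_le v k) h)) hk

theorem gen_m (v : VS w E) (S : Multiset Ω) :
    ∀ᶠ k : ℕ in cofinite, ∀ ρ ∈ S, w (k - ρ) = max 1 (w ρ) :=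
  (eventually_all_finite S.finite_toSet).2 fun ρ _ => gen_k v ρ

theorem gen_p (v : VS w E) (f : Polynomial Ω) :
    ∀ᶠ k : ℕ in cofinite, ∀ i, w (f.coeff i) ≤ w (f.eval k) := by
  filter_upwards [gen_m v f.roots] with k hk i
  have := f.le_gaussNorm w zero_le_one i
  rw [gn_roots v.na one_pos, one_pow, mul_one] at this
  rwa [(IsAlgClosed.splits f).eval_eq_prod_roots, map_mul, map_multiset_prod, Multiset.map_map,
    Multiset.map_congr rfl fun ρ h => by exact hk ρ h]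

theorem gen_th (v : VS w E) {θ : Ω} (hθ : θ ∈ E) (h0 : θ ≠ 0) (S : Multiset Ω) :
    ∃ θ' ∈ E, w θ' = w θ ∧ ∀ z ∈ S, w (θ' - z) = max (w z) (w θ) := by
  obtain ⟨k, hk, k0⟩ := ((gen_m v (S.map (· / θ))).and (eventually_cofinite_ne 0)).exists
  refine ⟨θ * k, mul_mem hθ (natCast_mem E k), by rw [map_mul, v.nat k k0, mul_one],
    fun z hz => ?_⟩
  have p := w.pos h0
  have e : θ * k - z = θ * (k - z / θ) := by field_simp
  rw [e, map_mul, hk _ (Multiset.mem_map_of_mem _ hz), mul_max_of_nonneg _ _ p.le, mul_one,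
    map_div₀, mul_div_cancel₀ _ p.ne', max_comm]

theorem gen_id (I : Ideal (Pn n)) : ∃ G : Polynomial (Pn n), (∀ k : ℕ, G.eval (k : Pn n) ∈ I) ∧
    I ≤ Ideal.span (range G.coeff) := by
  obtain ⟨L, s, hs⟩ := Submodule.fg_iff_exists_fin_generating_family.1 (IsNoetherian.noetherian I)
  refine ⟨∑ i, monomial i.1 (s i), fun k => ?_, ?_⟩
  · rw [eval_finsetSum]
    refine I.sum_mem fun i _ => ?_
    rw [eval_monomial]
    exact I.mul_mem_right _ (hs ▸ Submodule.subset_span ⟨i, rfl⟩)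
  · rw [← hs]
    refine Submodule.span_mono (range_subset_iff.2 fun i => ⟨i.1, ?_⟩)
    rw [finsetSum_coeff, Finset.sum_eq_single i (fun j _ h => ?_) (by simp), coeff_monomial_same]
    exact coeff_monomial_of_ne _ fun e => h (Fin.ext e.symm)

theorem gen_h (v : VS w E) (φ : Pn n →+* Ω) (hφ : ∀ p, w (φ p) ≤ 1) (G : Polynomial (Pn n)) :
    ∀ᶠ k : ℕ in cofinite, ∀ g ∈ Ideal.span (range G.coeff), w (φ g) ≤ w (φ (G.eval k)) := by
  filter_upwards [gen_p v (G.map φ)] with k hk g hg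
  rw [eval_natCast_map] at hk
  induction hg using Submodule.span_induction with
  | mem x hx => obtain ⟨i, rfl⟩ := hx; simpa using hk i
  | zero => simp
  | add x y _ _ a b => rw [map_add]; exact (v.na _ _).trans (max_le a b)
  | smul a x _ b =>
    rw [smul_eq_mul, map_mul, map_mul]
    exact (mul_le_of_le_one_left (w.nonneg _) (hφ a)).trans b

theorem exp_vl {z : Ω} (h : z ≠ 0) : Real.exp (-vl w z) = w z := by
  rw [vl, neg_neg, Real.exp_log (w.pos h)]

theorem vl_pos {z : Ω} (h : z ≠ 0) (k : w z < 1) : 0 < vl w z :=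
  neg_pos.2 (Real.log_neg (w.pos h) k)

theorem vl_nn {z : Ω} (k : w z ≤ 1) : 0 ≤ vl w z :=
  neg_nonneg.2 (Real.log_nonpos (w.nonneg z) k)

theorem lt_one {z : Ω} (h : z ≠ 0) (k : 0 < vl w z) : w z < 1 := by
  rw [← exp_vl (w := w) h]
  exact Real.exp_lt_one_iff.2 (neg_neg_of_pos k)

theorem vl_le {y z : Ω} (h : y ≠ 0) (k : w y ≤ w z) : vl w z ≤ vl w y :=
  neg_le_neg (Real.log_le_log (w.pos h) k)

theorem ex_val (S : Se w E t u) {a b : ℝ} (h : a < b) :
    ∃ β ∈ E, β ≠ 0 ∧ a < vl w β ∧ vl w β < b := by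
  have m := vl_pos S.t0 S.t1
  obtain ⟨q, h1, h2⟩ := exists_rat_btwn (div_lt_div_of_pos_right h m)
  obtain ⟨z, hz⟩ := IsAlgClosed.exists_pow_nat_eq (t ^ q.num) q.den_pos
  obtain ⟨β, hβ, e⟩ := S.vs.ful z
  have z0 : z ≠ 0 := fun k => zpow_ne_zero q.num S.t0 (by rw [← hz, k, zero_pow q.den_nz])
  have : vl w β = q * vl w t := by
    have := congrArg (fun x => Real.log (w x)) hz
    simp only [map_pow, map_zpow₀, Real.log_pow, Real.log_zpow] at this
    have d : (0 : ℝ) < q.den := Nat.cast_pos.2 q.den_pos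
    rw [vl, vl, e, Rat.cast_def]
    field_simp
    linarith
  refine ⟨β, hβ, fun k => z0 (w.eq_zero.1 (by rw [← e, k, map_zero])), ?_, ?_⟩ <;> rw [this]
  exacts [(div_lt_iff₀ m).1 h1, (lt_div_iff₀ m).1 h2]

/-! ### triangular points -/

theorem lv_mono {c j : Fin n} (h : c ≤ j) : Lv E u j ≤ Lv E u c :=
  acl_le (lv_cl u c) (le_lv u c)
    ((image_mono fun _ k => h.trans_lt k).trans (sub_acl _ _))

theorem tri_mem {x γ : Fin n → Ω} (h : Tri E u x γ) {c j : Fin n} (k : c < j) :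
    x j ∈ Lv E u c := by
  have := add_mem (lv_mono k.le (h.cen j))
    (mul_mem (le_lv u c (h.mem j)) (sub_acl E (u '' {i | c < i}) ⟨j, k, rfl⟩))
  rwa [sub_add_cancel] at this

theorem dist (S : Se w E t u) {c : Fin n} {a b β : Ω} (ha : a ∈ Lv E u c) (hb : b ∈ E)
    (b0 : b ≠ 0) (hβ : β ∈ Lv E u c) : w (a + b * u c - β) = max (w b) (w (β - a)) := by
  rw [← (S.tw c).lin S.vs.na (le_lv u c hb) b0 (sub_mem hβ ha)]
  congr 1
  ring

theorem tri_dist (S : Se w E t u) {x γ : Fin n → Ω} (h : Tri E u x γ) (c : Fin n) {β : Ω}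
    (hβ : β ∈ Lv E u c) : w (x c - β) = max (w (γ c)) (w (β - (x c - γ c * u c))) := by
  rw [← dist S (h.cen c) (h.mem c) (h.ne c) hβ, sub_add_cancel]

theorem tri_uniq (S : Se w E t u) {x γ x' γ' : Fin n → Ω} (h : Tri E u x γ) (k : Tri E u x' γ')
    {j : Fin n} (e : x' j = x j) : γ' j = γ j := by
  by_contra hn
  have := div_mem (sub_mem (h.cen j) (k.cen j)) (le_lv u j (sub_mem (k.mem j) (h.mem j)))
  rw [e, show x j - γ j * u j - (x j - γ' j * u j) = u j * (γ' j - γ j) by ring,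
    mul_div_cancel_right₀ _ (sub_ne_zero.2 hn)] at this
  exact (S.tw j).not_mem this

theorem rad_le (S : Se w E t u) {x γ : Fin n → Ω} (h : Pt w E u x γ) (j : Fin n) :
    w (γ j) ≤ w (x j) := by
  have := tri_dist S h.tri j (zero_mem _)
  rw [sub_zero] at this
  exact this ▸ le_max_left _ _

theorem rad_pos (S : Se w E t u) {x γ : Fin n → Ω} (h : Pt w E u x γ) (j : Fin n) :
    0 < vl w (γ j) := vl_pos (h.tri.ne j) ((rad_le S h j).trans_lt (h.op j))

theorem le_aa (S : Se w E t u) {x γ : Fin n → Ω} (h : Pt w E u x γ) (c : Fin n) :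
    vl w t + vl w (γ c) ≤ aa w t c γ :=
  add_le_add_right (Finset.single_le_sum (f := fun j => vl w (γ j))
    (fun j _ => (rad_pos S h j).le) (by simp)) _

theorem aa_sub {γ γ' : Fin n → Ω} {c : Fin n} (h : ∀ j, c < j → γ' j = γ j) :
    aa w t c γ' = aa w t c γ - vl w (γ c) + vl w (γ' c) := by
  have m : c ∈ Finset.univ.filter fun j : Fin n => c.1 ≤ j.1 := by simp
  rw [aa, aa, ← Finset.add_sum_erase _ _ m, ← Finset.add_sum_erase _ _ m,
    Finset.sum_congr rfl fun j hj => by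
      rw [h j (lt_of_le_of_ne (by simpa using Finset.mem_of_mem_erase hj)
        (Finset.ne_of_mem_erase hj).symm)]]
  ring

/-- a point over a new disc -/
theorem new_pt (S : Se w E t u) {x γ : Fin n → Ω} (h : Pt w E u x γ) (c : Fin n) {a b e : Ω}
    (ha : a ∈ Lv E u c) (hb : b ∈ E) (b0 : b ≠ 0) (a1 : w a < 1) (b1 : w b < 1) (he : e ∈ E)
    (e0 : e ≠ 0) (e1 : w e < 1) : ∃ η γ', Pt w E u η γ' ∧ (∀ j, c < j → η j = x j) ∧
      η c = a + b * u c ∧ aa w t c γ' = aa w t c γ - vl w (γ c) + vl w b ∧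
      aa w t 0 γ' ≤ aa w t c γ' + n * vl w e := by
  have l : ∀ j, w (u j) ≤ 1 := fun j => (S.tw j).1
  have m : ∀ {z : Ω} j, w z < 1 → w (z * u j) < 1 := fun j k => by
    rw [map_mul]; exact (mul_le_of_le_one_right (w.nonneg _) (l j)).trans_lt k
  refine ⟨fun j => if c < j then x j else if j = c then a + b * u c else e * u j,
    fun j => if c < j then γ j else if j = c then b else e, ⟨⟨fun j => ?_, fun j => ?_,
      fun j => ?_⟩, fun j => ?_⟩, fun j k => if_pos k, by simp, ?_, ?_⟩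
  · split_ifs
    exacts [h.tri.mem j, hb, he]
  · split_ifs
    exacts [h.tri.ne j, b0, e0]
  · split_ifs with p q
    · exact h.tri.cen j
    · simpa [q] using ha
    · simp
  · split_ifs
    exacts [h.op j, (S.vs.na _ _).trans_lt (max_lt a1 (m c b1)), m j e1]
  · rw [aa_sub (γ := γ) fun j k => if_pos k]
    simp
  · have := vl_pos e0 e1
    rw [aa, aa, Finset.filter_true_of_mem fun _ _ => Nat.zero_le _, add_assoc,
      ← Finset.sum_filter_add_sum_filter_not _ fun j : Fin n => c.1 ≤ j.1]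
    gcongr
    refine (Finset.sum_le_card_nsmul _ _ (vl w e) fun j hj => ?_).trans ?_
    · have : j < c := by simpa using hj
      rw [if_neg this.not_gt, if_neg this.ne]
    · rw [nsmul_eq_mul]
      gcongr
      exact (Finset.card_le_univ _).trans (Fintype.card_fin n).le

/-! ### sheets -/

theorem ev_sub (c : Fin n) (η : Fin n → Ω) (y : Ω) :
    ((evalRingHom y).comp (mapRingHom (ev t η))).comp (sub c) = ev t (Function.update η c y) := by
  refine MvPolynomial.ringHom_ext (fun a => by simp [sub, ev]) fun j => ?_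
  by_cases h : j = c <;> simp [sub, ev, h]

theorem ev_in (S : Se w E t u) {M : Subfield Ω} (h : E ≤ M) {η : Fin n → Ω} (k : ∀ j, η j ∈ M)
    (p : Pn n) : ev t η p ∈ M := by
  refine ev_mem _ (fun a => h ?_) k p
  change aeval t a ∈ E
  rw [aeval_eq_sum_range]
  exact sum_mem fun i _ => by rw [Algebra.smul_def]; exact mul_mem (S.cE _) (pow_mem S.tE _)

theorem op_cut {x : Fin n → Ω} (h : Op w x) (k : ℕ) : Op w (cut k x) := fun j => by
  rw [cut]
  split_ifs
  exacts [h j, by simp]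

theorem op_up {η : Fin n → Ω} (h : Op w η) (c : Fin n) {y : Ω} (k : w y < 1) :
    Op w (Function.update η c y) := fun j => by
  rcases eq_or_ne j c with rfl | e
  · simpa using k
  · rw [Function.update_of_ne e]; exact h j

theorem up_cut (c : Fin n) (x : Fin n → Ω) :
    Function.update (cut (c + 1) x) c (x c) = cut c x := by
  funext j
  rcases eq_or_ne j c with rfl | e
  · simp [cut]
  · have : j.1 ≠ c.1 := fun k => e (Fin.ext k)
    rw [Function.update_of_ne e, cut, cut]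
    exact if_congr (by omega) rfl rfl

theorem cut_mem {x γ : Fin n → Ω} (h : Tri E u x γ) (c j : Fin n) :
    cut (c + 1) x j ∈ Lv E u c := by
  rw [cut]
  split_ifs with k
  exacts [tri_mem h k, zero_mem _]

theorem vl_prod {s : Multiset Ω} (h : s.prod ≠ 0) : vl w s.prod = (s.map (vl w)).sum := by
  induction s using Multiset.induction_on with
  | empty => simp [vl]
  | cons a s ih =>
    rw [Multiset.prod_cons, mul_ne_zero_iff] at h
    rw [Multiset.prod_cons, Multiset.map_cons, Multiset.sum_cons, ← ih h.2, vl, vl, vl, map_mul,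
      Real.log_mul (w.pos h.1).ne' (w.pos h.2).ne', neg_add]

/-- the characteristic polynomial of `H` -/
def Ch (w : AbsoluteValue Ω ℝ) (t : Ω) (X : (Fin n → Ω) → Multiset (Fin n → Ω)) (H : Pn n)
    (χ : Polynomial (Pn n)) : Prop := ∀ η, Op w η →
  χ.map (ev t η) = ((X η).map fun x => Polynomial.X - C (ev t x H)).prod

variable {X : (Fin n → Ω) → Multiset (Fin n → Ω)} {H : Pn n} {χ : Polynomial (Pn n)}

theorem Ch.eval (h : Ch w t X H χ) {η : Fin n → Ω} (k : Op w η) (θ : Ω) :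
    χ.eval₂ (ev t η) θ = ((X η).map fun x => θ - ev t x H).prod := by
  rw [← eval_map, h η k, eval_multiset_prod, Multiset.map_map]
  simp

theorem Ch.norm (h : Ch w t X H χ) {η : Fin n → Ω} (k : Op w η) :
    w (ev t η (χ.coeff 0)) = ((X η).map fun x => w (ev t x H)).prod := by
  rw [← eval₂_at_zero, h.eval k, map_multiset_prod, Multiset.map_map]
  simp

theorem sheet (np : NP0) (hE : EV) (S : Se w E t u) (h : Ch w t X H χ) {c : Fin n}
    {η : Fin n → Ω} (o : Op w η) (m : ∀ j, η j ∈ Lv E u c) (N0 : (sub c (χ.coeff 0)).map c0 ≠ 0)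
    {θ : Ω} (hθ : θ ∈ E) (θ0 : θ ≠ 0) (θ1 : w θ < 1) {y y' : Ω} (hy : w y < 1) (hy' : w y' < 1) :
    ∃ B : Multiset Ω, B.card = ((sub c (χ.coeff 0)).map c0).natTrailingDegree ∧
      (∀ β ∈ B, β ∈ Lv E u c) ∧
      fv w t (X (Function.update η c y)) H (vl w θ) = (B.map fun β => vl w (y - β)).sum ∧
      fv w t (X (Function.update η c y')) H (vl w θ) = (B.map fun β => vl w (y' - β)).sum := by
  obtain ⟨q, -, q1, -, hq⟩ := hE n Ω w E t u S η o
  obtain ⟨θ', a1, a2, a3⟩ := gen_th S.vs hθ θ0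
    ((X (Function.update η c y) + X (Function.update η c y')).map fun x => ev t x H)
  let f := χ.eval₂ ((mapRingHom (ev t η)).comp (sub c)) (C θ')
  have co : ∀ i, f.coeff i = ∑ j ∈ Finset.range (χ.natDegree + 1),
      ev t η ((sub c (χ.coeff j)).coeff i) * θ' ^ j := fun i => by
    simp only [f, eval₂_eq_sum_range, finsetSum_coeff, ← C_pow, coeff_mul_C, RingHom.comp_apply,
      coe_mapRingHom, coeff_map]
  have sp : ∀ i, ∃ z, w z < 1 ∧ f.coeff i = ev t η ((sub c (χ.coeff 0)).coeff i) + z := fun i => by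
    rw [co, Finset.sum_range_succ', pow_zero, mul_one]
    refine ⟨_, na_sum_lt S.vs.na _ _ one_pos fun j _ => ?_, add_comm _ _⟩
    rw [map_mul, map_pow, a2]
    exact mul_lt_one_of_nonneg_of_lt_one_right (hq _).1 (by positivity)
      (pow_lt_one₀ (w.nonneg _) θ1 j.succ_ne_zero)
  have top : w (f.coeff ((sub c (χ.coeff 0)).map c0).natTrailingDegree) = 1 := by
    obtain ⟨z, z1, e⟩ := sp _
    have := (hq _).2.1 ((coeff_map c0 _).symm.trans_ne (trailingCoeff_nonzero_iff_nonzero.2 N0))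
    rw [e, na_add_lt S.vs.na (this ▸ z1), this]
  obtain ⟨B, b1, b2, b3⟩ := np Ω w f _ S.vs.na (fun i => by
    obtain ⟨z, z1, e⟩ := sp i
    exact e ▸ (S.vs.na _ _).trans (max_le (hq _).1 z1.le)) (fun i hi => by
    obtain ⟨z, z1, e⟩ := sp i
    have := (hq _).2.2 1 (by
      rw [pow_one, RingHom.mem_ker, ← coeff_map]; exact coeff_eq_zero_of_lt_natTrailingDegree hi)
    exact e ▸ (S.vs.na _ _).trans_lt (max_lt (this.trans_lt (by rwa [pow_one])) z1)) top
  have key : ∀ y, w y < 1 → (∀ x ∈ X (Function.update η c y),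
      w (θ' - ev t x H) = max (w (ev t x H)) (w θ)) →
      fv w t (X (Function.update η c y)) H (vl w θ) = (B.map fun β => vl w (y - β)).sum := by
    intro y hy k
    have e : f.eval y = _ := (hom_eval₂ χ _ (evalRingHom y) _).trans (by
      rw [← RingHom.comp_assoc, ev_sub, coe_evalRingHom, eval_C, h.eval (op_up o c hy)])
    have z : f.eval y ≠ 0 := e ▸ Multiset.prod_ne_zero fun k' => by
      obtain ⟨x, hx, k'⟩ := Multiset.mem_map.1 k'
      exact absurd (k x hx) (by rw [k', map_zero]; exact (lt_max_of_lt_right (w.pos θ0)).ne)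
    have e' : w (f.eval y) = w (B.map fun β => y - β).prod := by
      rw [b3 y hy, map_multiset_prod, Multiset.map_map]; rfl
    have := vl_prod (w := w) (w.pos_iff.1 (e' ▸ w.pos z))
    rw [Multiset.map_map, vl, ← e', ← vl, e, vl_prod (e ▸ z), Multiset.map_map] at this
    refine Eq.trans (congrArg Multiset.sum (Multiset.map_congr rfl fun x hx => ?_)) this
    rw [mv, exp_vl θ0, ← k x hx]; rfl
  refine ⟨B, b1, fun β hβ => (lv_cl u c).root (fun k => by simp [k] at top) (fun i => ?_)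
    (b2 β hβ).2, key y hy fun x hx => a3 _ ?_, key y' hy' fun x hx => a3 _ ?_⟩
  · exact co i ▸ sum_mem fun j _ => mul_mem (ev_in S (le_lv u c) m _) (pow_mem (le_lv u c a1) _)
  · exact Multiset.mem_map_of_mem _ (Multiset.mem_add.2 (.inl hx))
  · exact Multiset.mem_map_of_mem _ (Multiset.mem_add.2 (.inr hx))

variable {Ψ : (Fin n → Ω) → ℝ} {ε : ℝ} {c : Fin n} {d : ℕ}

theorem mass (hE : EV) (S : Se w E t u) (B : Bg w E t u Ψ ε) (hX : Cor w t c d X) {m : ℕ}
    (m0 : 0 < m) : ∃ η, Op w η ∧ ∀ H χ, Ch w t X H χ →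
      (∀ x ∈ X η, ∀ g, Lw w E t u Ψ c m g → w (ev t x g) ≤ w (ev t x H)) →
      (sub c (χ.coeff 0)).map c0 ≠ 0 ∧
        ((sub c (χ.coeff 0)).map c0).natTrailingDegree ≤ d * (m * (n + 2)) := by
  have D0 : (0 : ℝ) < (d * (m * (n + 2)) : ℕ) := Nat.cast_pos.2 (by have := hX.pos; positivity)
  obtain ⟨b, hb, b0, b1, b2⟩ := ex_val S (div_pos (vl_pos S.t0 S.t1) D0)
  have b3 := lt_one b0 b1
  have u1 : ∀ z j, w (z * u j) = w z := fun z j => by rw [map_mul, (S.tw j).one, mul_one]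
  let γ := Function.update (fun _ : Fin n => t) c b
  have P : Pt w E u (fun j => γ j * u j) γ := ⟨tri_mon fun j => by
    rcases eq_or_ne j c with rfl | e
    · simpa [γ] using ⟨hb, b0⟩
    · simpa [γ, e] using ⟨S.tE, S.t0⟩, fun j =>
      (u1 _ j).trans_lt (op_up (fun _ => S.t1) c b3 j)⟩
  have gc : w (γ c * u c) = w b := by simp [γ, u1]
  refine ⟨_, op_cut P.op c, fun H χ h k => ?_⟩
  have lo : w b ^ (d * (m * (n + 2))) ≤ w (ev t (cut c fun j => γ j * u j) (χ.coeff 0)) := by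
    rw [h.norm (op_cut P.op c), mul_comm d, pow_mul, ← hX.card _ (op_cut P.op c),
      ← Multiset.prod_replicate, ← Multiset.map_const']
    refine Multiset.prod_map_le_prod_map₀ _ _ (fun _ _ => by positivity) fun x hx => ?_
    obtain ⟨x1, x2⟩ := hX.mem _ (op_cut P.op c) x hx
    obtain ⟨g, g1, g2⟩ := B.lu c m _ _ ((n + 1) * vl w b) m0 P (by positivity)
      (fun y γ' p e => by
        have := B.ber y γ' c p
        have v : ∀ j, c ≤ j → vl w (y j) = vl w (γ j) := fun j l => by rw [e j l, vl, u1, vl]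
        have s : aa w t c γ ≤ vl w t + ∑ i, vl w (y i) := add_le_add_right (by
          rw [← Finset.sum_congr rfl fun j l => v j (by simpa using l)]
          exact Finset.sum_le_univ_sum_of_nonneg fun i => vl_nn (p.op i).le) _
        rw [v c le_rfl, show γ c = b by simp [γ]] at this
        linarith) x x1 fun j l => (x2 j l).trans (if_pos l)
    refine le_trans ?_ (g2.trans (k x hx g g1))
    have : (1 : ℝ) ≤ m := Nat.one_le_cast.2 m0
    rw [vl, vl, gc, ← vl, ← exp_vl b0, ← Real.exp_nat_mul, Real.exp_le_exp]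
    push_cast
    nlinarith
  obtain ⟨q, -, -, q1, hq⟩ := hE n Ω w E t u S _ (op_cut P.op (c + 1))
  have q2 : q < w b ^ (d * (m * (n + 2))) := (q1 (w t) le_rfl fun j => by
    rw [cut]
    split_ifs with l
    · rw [u1, show γ j = t from Function.update_of_ne (fun e => by simp [e] at l) _ _]
    · simp).trans_lt (by
    rw [← exp_vl S.t0, ← exp_vl b0, ← Real.exp_nat_mul, Real.exp_lt_exp]
    linarith [(lt_div_iff₀' D0).1 b2])
  have : ∃ i ≤ d * (m * (n + 2)), ((sub c (χ.coeff 0)).map c0).coeff i ≠ 0 := by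
    by_contra! hn
    refine absurd lo (not_le.2 ?_)
    rw [← up_cut, ← ev_sub, RingHom.comp_apply, RingHom.comp_apply, coe_evalRingHom,
      coe_mapRingHom, eval_eq_sum_range]
    refine na_sum_lt S.vs.na _ _ (pow_pos (w.pos b0) _) fun i _ => ?_
    rw [map_mul, map_pow, gc, coeff_map]
    rcases le_or_gt i (d * (m * (n + 2))) with l | l
    · have := (hq _).2.2 1 (by rw [pow_one, RingHom.mem_ker, ← coeff_map]; exact hn i l)
      exact (mul_le_of_le_one_right (w.nonneg _) (pow_le_one₀ (w.nonneg _) b3.le)).trans_lt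
        (this.trans_lt (by rwa [pow_one]))
    · exact (mul_le_of_le_one_left (by positivity) (hq _).1).trans_lt
        (pow_lt_pow_right_of_lt_one₀ (w.pos b0) b3 l)
  obtain ⟨i, i1, i2⟩ := this
  exact ⟨fun e => i2 (by simp [e]), (natTrailingDegree_le_of_ne_zero i2).trans i1⟩

/-- general members of the ideals, tested at a second point `η` -/
def Dat (w : AbsoluteValue Ω ℝ) (E : Subfield Ω) (t : Ω) (u : Fin n → Ω) (Ψ : (Fin n → Ω) → ℝ)
    (c : Fin n) (x γ : Fin n → Ω) (s κ : ℝ) (d : ℕ) (X : (Fin n → Ω) → Multiset (Fin n → Ω)) :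
    Prop := ∀ (m : ℕ) η γ' φ, 0 < m → Pt w E u η γ' → (∀ j, c < j → η j = x j) → 0 ≤ φ →
  (∀ y γ'', Pt w E u y γ'' → (∀ j, c ≤ j → y j = η j) → aa w t c γ' - Ψ y ≤ φ) →
  ∃ H χ, Ch w t X H χ ∧ (sub c (χ.coeff 0)).map c0 ≠ 0 ∧
    ((sub c (χ.coeff 0)).map c0).natTrailingDegree ≤ d * (m * (n + 2)) ∧
    (∀ y ∈ X (Function.update (cut (c + 1) x) c (η c)),
      Real.exp (-(m * φ + vl w (η c))) ≤ w (ev t y H)) ∧
    ∀ l₁ l₂, l₁ ≤ l₂ → l₂ ≤ m * (aa w t c γ - s) - aa w t c γ → κ * d * (l₂ - l₁) ≤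
      fv w t (X (Function.update (cut (c + 1) x) c (x c))) H l₂ -
        fv w t (X (Function.update (cut (c + 1) x) c (x c))) H l₁

theorem ex_gen (hE : EV) (S : Se w E t u) (Ψ : (Fin n → Ω) → ℝ) (c m : ℕ) :
    ∃ G : Polynomial (Pn n), (∀ k : ℕ, Lw w E t u Ψ c m (G.eval (k : Pn n))) ∧
      ∀ g, Lw w E t u Ψ c m g → g ∈ Ideal.span (range G.coeff) :=
  gen_id
    { carrier := {g | Lw w E t u Ψ c m g}
      add_mem' := fun a b x γ p => by
        rw [map_add]; exact (S.vs.na _ _).trans (max_le (a x γ p) (b x γ p))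
      zero_mem' := fun x γ p => by simp [Real.exp_nonneg]
      smul_mem' := fun a g b x γ p => by
        obtain ⟨q, -, -, -, hq⟩ := hE n Ω w E t u S x p.op
        rw [smul_eq_mul, map_mul, map_mul]
        exact (mul_le_of_le_one_left (w.nonneg _) (hq a).1).trans (b x γ p) }

theorem dat (hE : EV) (S : Se w E t u) (B : Bg w E t u Ψ ε) {x γ : Fin n → Ω} (P : Pt w E u x γ)
    {s κ : ℝ} (h : ∀ A : Set (Pn n), A.Countable → ∃ x' γ' d X, Pt w E u x' γ' ∧
      (∀ j : Fin n, c.1 ≤ j.1 → x' j = x j) ∧ Ψ x' ≤ s ∧ Cor w t c d X ∧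
      ∀ H ∈ A, Gd w t (X (cut c x)) κ x' H) :
    ∃ d X, Cor w t c d X ∧ Dat w E t u Ψ c x γ s κ d X := by
  choose G G1 G2 using ex_gen hE S Ψ c
  obtain ⟨x', γ', d, X, p, e, s', hX, g⟩ :=
    h _ (countable_range fun z : ℕ × ℕ => (G z.1).eval (z.2 : Pn n))
  refine ⟨d, X, hX, fun m η γ'' φ m0 P' e' φ0 hφ => ?_⟩
  obtain ⟨η₀, o, hm⟩ := mass hE S B hX m0
  have o' := op_up (op_cut P.op (c + 1)) c (P'.op c)
  obtain ⟨k, hk⟩ := ((eventually_all_finite
    (X η₀ + X (Function.update (cut (c + 1) x) c (η c))).finite_toSet).2 fun y hy => by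
      obtain ⟨q, -, -, -, hq⟩ := hE n Ω w E t u S y ((Multiset.mem_add.1 hy).elim
        (fun a => (hX.mem _ o y a).1) fun a => (hX.mem _ o' y a).1)
      exact gen_h S.vs (ev t y) (fun p => (hq p).1) (G m)).exists
  obtain ⟨χ, hχ⟩ := hX.chi ((G m).eval (k : Pn n))
  obtain ⟨a1, a2⟩ := hm _ χ hχ fun y hy g l => hk y (Multiset.mem_add.2 (.inl hy)) g (G2 m g l)
  refine ⟨_, χ, hχ, a1, a2, fun y hy => ?_, fun l₁ l₂ l l' => ?_⟩
  · obtain ⟨y1, y2⟩ := hX.mem _ o' y hy
    obtain ⟨g, g1, g2⟩ := B.lu c m η γ'' φ m0 P' φ0 hφ y y1 fun j l => by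
      rw [y2 j l]
      rcases l.eq_or_lt with rfl | l
      · simp
      · rw [Function.update_of_ne l.ne', e' j l]; exact if_pos l
    exact g2.trans (hk y (Multiset.mem_add.2 (.inr hy)) g (G2 m g g1))
  · have a : aa w t c γ' = aa w t c γ := congrArg (vl w t + ·) (Finset.sum_congr rfl
      fun j hj => congrArg _ (tri_uniq S P.tri p.tri (e j (by simpa using hj))))
    have := g _ ⟨(m, k), rfl⟩ l₁ l₂ l ((G1 m k x' γ' p).trans (Real.exp_le_exp.2 (by
      rw [a]; nlinarith [(Nat.cast_nonneg m : (0 : ℝ) ≤ m)])))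
    rwa [hX.card _ (op_cut P.op c), ← up_cut] at this

/-! ### the three statements -/

theorem exp_fv (T : Multiset (Fin n → Ω)) (H : Pn n) (l : ℝ) : Real.exp (-fv w t T H l) =
    (T.map fun x => max (w (ev t x H)) (Real.exp (-l))).prod := by
  rw [fv, ← Multiset.sum_map_neg, Real.exp_multiset_sum, Multiset.map_map]
  refine congrArg _ (Multiset.map_congr rfl fun x _ => ?_)
  simp only [Function.comp, mv, neg_neg]
  exact Real.exp_log (lt_max_of_lt_right (Real.exp_pos _))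

theorem fv_eq {T : Multiset (Fin n → Ω)} {l l₁ l₂ : ℝ}
    (h : ∀ y ∈ T, Real.exp (-l) ≤ w (ev t y H)) (a : l ≤ l₁) (b : l ≤ l₂) :
    fv w t T H l₁ = fv w t T H l₂ := congrArg Multiset.sum (Multiset.map_congr rfl fun y hy => by
  rw [mv, mv, max_eq_left ((Real.exp_le_exp.2 (neg_le_neg a)).trans (h y hy)),
    max_eq_left ((Real.exp_le_exp.2 (neg_le_neg b)).trans (h y hy))])

theorem sum_le {T : Multiset Ω} {f g : Ω → ℝ} {r : ℝ} (h : ∀ β ∈ T, f β ≤ g β + r) :
    (T.map f).sum ≤ (T.map g).sum + T.card * r := by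
  have := Multiset.sum_map_le_sum_map f (fun β => g β + r) h
  rwa [Multiset.sum_map_add, Multiset.map_const', Multiset.sum_replicate, nsmul_eq_mul] at this

theorem pw (v : VS w E) {y y' β g g' : Ω} {r : ℝ} (g0 : g ≠ 0) (g1 : g' ≠ 0) (a : w g ≤ w (y - β))
    (a' : w g' ≤ w (y' - β)) (b : w g ≤ r) (e : w (y' - y) ≤ r) :
    vl w (y - β) ≤ vl w (y' - β) + (vl w g + Real.log r) := by
  have p := w.pos g0
  have : w (y' - β) * w g ≤ w (y - β) * r := by
    rcases le_max_iff.1 (v.na (y' - y) (y - β)) with k | k <;> rw [sub_add_sub_cancel] at k <;>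
      nlinarith
  have := Real.log_le_log (mul_pos ((w.pos g1).trans_le a') p) this
  rw [Real.log_mul ((w.pos g1).trans_le a').ne' p.ne', Real.log_mul (p.trans_le a).ne'
    (p.trans_le b).ne'] at this
  simp only [vl]
  linarith

variable {x γ : Fin n → Ω} {s κ : ℝ}

theorem one (np : NP0) (hE : EV) (S : Se w E t u) (B : Bg w E t u Ψ ε) (P : Pt w E u x γ)
    (hX : Cor w t c d X) (D : Dat w E t u Ψ c x γ s κ d X) (hs : 2 * s ≤ vl w t) :
    κ * vl w t ≤ 4 * (n + 2) * vl w (γ c) := by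
  have m := vl_pos S.t0 S.t1
  have r := rad_pos S P c
  have a := le_aa S P c
  obtain ⟨H, χ, h, N0, N1, -, g⟩ := D 4 x γ (aa w t c γ) (by norm_num) P (fun _ _ => rfl)
    (by linarith) fun y γ' p _ => sub_le_self _ (B.lc y γ' p)
  obtain ⟨T, b1, b2, b3, -⟩ := sheet np hE S h (op_cut P.op (c + 1)) (cut_mem P.tri c) N0 S.tE
    S.t0 S.t1 (P.op c) (P.op c)
  have k := g 0 (vl w t) m.le (by push_cast; linarith)
  have z : 0 ≤ fv w t (X (Function.update (cut (c + 1) x) c (x c))) H 0 :=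
    Multiset.sum_nonneg fun z hz => by
      obtain ⟨y, hy, rfl⟩ := Multiset.mem_map.1 hz
      obtain ⟨q, -, -, -, hq⟩ := hE n Ω w E t u S y
        (hX.mem _ (op_up (op_cut P.op (c + 1)) c (P.op c)) y hy).1
      simp [mv, (hq H).1]
  have s := sum_le (T := T) (f := fun β => vl w (x c - β)) (g := fun _ => 0) (r := vl w (γ c))
    fun β hβ => (vl_le (P.tri.ne c) (tri_dist S P.tri c (b2 β hβ) ▸ le_max_left _ _)).trans_eq
      (zero_add _).symm
  have d0 : (0 : ℝ) < d := Nat.cast_pos.2 hX.pos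
  have N2 : (T.card : ℝ) ≤ d * (4 * (n + 2)) := by exact_mod_cast b1 ▸ N1
  rw [Multiset.map_const', Multiset.sum_replicate, smul_zero, ← b3] at s
  refine le_of_mul_le_mul_left ?_ d0
  nlinarith

theorem two (np : NP0) (hE : EV) (S : Se w E t u) (B : Bg w E t u Ψ ε) (P : Pt w E u x γ)
    (hX : Cor w t c d X) (D : Dat w E t u Ψ c x γ s κ d X) (hs : 0 < s) (κ0 : 0 < κ) {C : ℝ}
    (hC : 1 + (n + 2) / κ ≤ C) {a b : Ω} (ha : a ∈ Lv E u c) (hb : b ∈ E) (b0 : b ≠ 0)
    (a1 : w a < 1) (b1 : w b < 1) : 0 ≤ vl w (γ c) + vl w b - 2 * mv w (x c - a) (vl w b) ∧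
    ∃ x' γ', Pt w E u x' γ' ∧ (∀ j, c < j → x' j = x j) ∧ x' c = a + b * u c ∧
      Ψ x' ≤ 2 * s + C * (vl w (γ c) + vl w b - 2 * mv w (x c - a) (vl w b)) := by
  rw [mv, exp_vl b0]
  have r1 : w (γ c) ≤ max (w (x c - a)) (w b) :=
    le_max_of_le_left (tri_dist S P.tri c ha ▸ le_max_left _ _)
  have r2 : w (a + b * u c - x c) ≤ max (w (x c - a)) (w b) := by
    have := na_sub S.vs.na (b * u c) (x c - a)
    rwa [map_mul, (S.tw c).one, mul_one, max_comm,
      show b * u c - (x c - a) = a + b * u c - x c by ring] at this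
  have r3 := Real.log_le_log (w.pos (P.tri.ne c)) r1
  have r4 := Real.log_le_log (w.pos b0) (le_max_right (w (x c - a)) _)
  generalize max (w (x c - a)) (w b) = r at *
  have r5 : 0 ≤ vl w (γ c) + Real.log r := by rw [vl]; linarith
  have r6 : 0 ≤ vl w b + Real.log r := by rw [vl]; linarith
  have r7 : w b ≤ r := by
    rwa [Real.log_le_log_iff (w.pos b0) ((w.pos (P.tri.ne c)).trans_le r1)] at r4
  refine ⟨by linarith, by_contra fun hn => ?_⟩
  push Not at hn
  obtain ⟨e, he, e0, e1, e2⟩ := ex_val S (show 0 < s / (2 * (n + 1)) by positivity)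
  obtain ⟨η, γ', p, p1, p2, p3, p4⟩ := new_pt S P c ha hb b0 a1 b1 he e0 (lt_one e0 e1)
  have k1 := (hn η γ' p p1 p2).trans_le ((B.up η γ' p).trans p4)
  rw [lt_div_iff₀ (by positivity)] at e2
  obtain ⟨m, hm⟩ := exists_nat_gt ((aa w t c γ + vl w (η c) + 2) / (s / 2))
  rw [div_lt_iff₀ (by positivity)] at hm
  have k2 := vl_nn (p.op c).le
  have k3 := le_aa S P c
  have k4 := rad_pos S P c
  have k5 := vl_pos S.t0 S.t1
  have m0 : (0 : ℝ) < m := pos_of_mul_pos_right (by linarith) (half_pos hs).le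
  generalize hδ : vl w (γ c) + vl w b - 2 * -Real.log r = δ at hn k1
  obtain ⟨φ, hφ⟩ : ∃ φ, φ = aa w t c γ' - (2 * s + C * δ) + s / 2 := ⟨_, rfl⟩
  have φ0 : 0 ≤ φ := by linarith
  obtain ⟨H, χ, h, N0, N1, lo, g⟩ := D m η γ' φ (Nat.cast_pos.1 m0) p p1 φ0 fun y γ'' q k => by
    have := hn y γ'' q (fun j l => (k j l.le).trans (p1 j l)) ((k c le_rfl).trans p2)
    linarith
  obtain ⟨θ₁, t1, t2, t3, t4⟩ := ex_val S (lt_add_one (m * φ + vl w (η c)))
  obtain ⟨θ₂, t5, t6, t7, t8⟩ := ex_val S (sub_one_lt (m * (aa w t c γ - s) - aa w t c γ))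
  have δ0 : 0 ≤ δ := by linarith
  have k6 : m * ((n + 2) / κ * δ) < vl w θ₂ - vl w θ₁ := by
    have := mul_le_mul_of_nonneg_right hC δ0
    have : (n + 2) / κ * δ ≤ vl w (γ c) - vl w b + C * δ := by linarith
    have := mul_le_mul_of_nonneg_left this m0.le
    rw [hφ, p3] at t4
    linarith
  have k7 : 0 ≤ m * ((n + 2) / κ * δ) := by positivity
  have k8 : 0 < vl w θ₁ := by linarith [mul_nonneg m0.le φ0]
  obtain ⟨T, b2, b3, b4, b5⟩ := sheet np hE S h (op_cut P.op (c + 1)) (cut_mem P.tri c) N0 t1 t2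
    (lt_one t2 k8) (P.op c) (p.op c)
  obtain ⟨T', b6, b7, b8, b9⟩ := sheet np hE S h (op_cut P.op (c + 1)) (cut_mem P.tri c) N0 t5 t6
    (lt_one t6 (by linarith)) (P.op c) (p.op c)
  have l1 : ∀ β ∈ Lv E u c, w (γ c) ≤ w (x c - β) := fun β k =>
    tri_dist S P.tri c k ▸ le_max_left _ _
  have l2 : ∀ β ∈ Lv E u c, w b ≤ w (η c - β) := fun β k =>
    p2 ▸ dist S ha hb b0 k ▸ le_max_left _ _
  have s1 := sum_le (T := T') fun β k => pw S.vs (P.tri.ne c) b0 (l1 β (b7 β k)) (l2 β (b7 β k))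
    r1 (p2 ▸ r2)
  have s2 := sum_le (T := T) fun β k => pw S.vs b0 (P.tri.ne c) (l2 β (b3 β k)) (l1 β (b3 β k))
    r7 (by rw [w.map_sub, p2]; exact r2)
  have s3 := g (vl w θ₁) (vl w θ₂) (by linarith) t8.le
  have s4 := fv_eq lo t3.le (show _ ≤ vl w θ₂ by linarith)
  have d0 : (0 : ℝ) < d := Nat.cast_pos.2 hX.pos
  have N2 : (T.card : ℝ) ≤ d * (m * (n + 2)) := by exact_mod_cast b2 ▸ N1
  rw [← b8, ← b9, b6, ← b2] at s1
  rw [← b4, ← b5] at s2
  have s5 := mul_le_mul_of_nonneg_right N2 δ0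
  have s6 := mul_lt_mul_of_pos_left k6 (mul_pos κ0 d0)
  have : κ * d * (m * ((n + 2) / κ * δ)) = d * (m * (n + 2)) * δ := by field_simp
  have := congrArg ((T.card : ℝ) * ·) hδ
  linarith

theorem prep (hE : EV) (aw : AW) (S : Se w E t u) {η : Fin n → Ω} (o : Op w η)
    {f : Polynomial (Pn n)} (f0 : f.map c0 ≠ 0) {r : ℝ} (r0 : 0 < r) : ∃ W, Dis W ∧
      W.natDegree = (f.map c0).natTrailingDegree ∧ ∀ y, w y < 1 → ∃ z z', w z = 1 ∧ w z' < r ∧
        (W.map (ev t η)).eval y * z = (f.map (ev t η)).eval y - z' := by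
  obtain ⟨q, q0, q1, -, hq⟩ := hE n Ω w E t u S η o
  obtain ⟨M, hM⟩ := exists_pow_lt_of_lt_one r0 q1
  obtain ⟨W, U, a1, a2, a3, a4⟩ := aw n f M f0
  refine ⟨W, a1, a2, fun y hy => ⟨(U.map (ev t η)).eval y, ((f - W * U).map (ev t η)).eval y,
    ?_, ?_, by simp⟩⟩
  · rw [eval_eq_sum_range, Finset.sum_range_succ', pow_zero, mul_one, add_comm, coeff_map,
      na_add_lt S.vs.na, (hq _).2.1 a3]
    rw [(hq _).2.1 a3]
    refine na_sum_lt S.vs.na _ _ one_pos fun j _ => ?_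
    rw [map_mul, map_pow, coeff_map]
    exact mul_lt_one_of_nonneg_of_lt_one_right (hq _).1 (by positivity)
      (pow_lt_one₀ (w.nonneg _) hy j.succ_ne_zero)
  · rw [eval_eq_sum_range]
    refine na_sum_lt S.vs.na _ _ r0 fun j _ => ?_
    rw [map_mul, map_pow, coeff_map]
    exact (mul_le_of_le_one_right (w.nonneg _) (pow_le_one₀ (w.nonneg _) hy.le)).trans_lt
      (((hq _).2.2 M (a4 j)).trans_lt hM)

open Classical in
theorem three (np : NP0) (hE : EV) (aw : AW) (S : Se w E t u) (B : Bg w E t u Ψ ε)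
    (P : Pt w E u x γ) (hX : Cor w t c d X) (D : Dat w E t u Ψ c x γ s κ d X) (hs : 0 < s)
    (κ0 : 0 < κ) (h3 : 3 * s ≤ vl w (γ c)) : ∃ b ∈ E, b ≠ 0 ∧ w b < 1 ∧
      vl w (γ c) - 3 * s ≤ vl w b ∧ vl w b ≤ vl w (γ c) ∧ ∃ (W : Polynomial (Pn n)) (k : ℕ),
        Dis W ∧ 0 < k ∧ κ / (6 * (n + 2)) * W.natDegree ≤ k ∧
        k ≤ ((W.map (ev t (cut (c + 1) x))).roots.filter
          fun β => w (β - (x c - γ c * u c)) ≤ w b).card := by
  obtain ⟨b, hb, b0, b1, b2⟩ := ex_val S (show vl w (γ c) - 3 * s < vl w (γ c) - 2 * s by linarith)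
  have b3 := lt_one b0 (by linarith)
  have g1 := (rad_le S P c).trans_lt (P.op c)
  have a1 : w (x c - γ c * u c) < 1 := (na_sub S.vs.na _ _).trans_lt (max_lt (P.op c) (by
    rwa [map_mul, (S.tw c).one, mul_one]))
  obtain ⟨η, γ', p, p1, p2, p3, -⟩ := new_pt S P c (P.tri.cen c) hb b0 a1 b3 S.tE S.t0 S.t1
  have k3 := le_aa S P c
  have k4 := rad_pos S P c
  have k5 := vl_pos S.t0 S.t1
  obtain ⟨m, hm⟩ := exists_nat_gt ((4 * aa w t c γ + 2) / s)
  rw [div_lt_iff₀ hs] at hm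
  have m0 : (0 : ℝ) < m := pos_of_mul_pos_right (by linarith) hs.le
  have φ0 : 0 ≤ aa w t c γ' := by linarith
  obtain ⟨H, χ, h, N0, N1, lo, g⟩ := D m η γ' _ (Nat.cast_pos.1 m0) p p1 φ0
    fun y γ' p _ => sub_le_self _ (B.lc y γ' p)
  obtain ⟨θ, t1, t2, t3, t4⟩ := ex_val S (lt_add_one (m * aa w t c γ' + vl w (η c)))
  have l1 := fun β => tri_dist S P.tri c (β := β)
  have l2 : ∀ β ∈ Lv E u c, w (η c - β) = _ := fun β k => p2 ▸ dist S (P.tri.cen c) hb b0 k
  have l3 : w (γ c) ≤ w b := by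
    rw [← exp_vl b0, ← exp_vl (P.tri.ne c), Real.exp_le_exp]; linarith
  have k6 : vl w (η c) ≤ vl w b := vl_le b0 (by
    have := l2 0 (zero_mem _)
    rw [sub_zero] at this
    exact this ▸ le_max_left _ _)
  have k7 : m * s / 2 ≤ m * (aa w t c γ - s) - aa w t c γ - vl w θ := by
    have := mul_le_mul_of_nonneg_left b2.le m0.le
    rw [p3] at t4
    linarith
  have o := op_cut P.op (c + 1)
  obtain ⟨T, -, b4, b5, b6⟩ := sheet np hE S h o (cut_mem P.tri c) N0 t1 t2
    (lt_one t2 (by linarith [mul_nonneg m0.le φ0, vl_nn (p.op c).le])) (P.op c) (p.op c)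
  have ne : ∀ β ∈ Lv E u c, x c - β ≠ 0 ∧ η c - β ≠ 0 := fun β k =>
    ⟨w.pos_iff.1 (l1 β k ▸ lt_max_of_lt_left (w.pos (P.tri.ne c))),
      w.pos_iff.1 (l2 β k ▸ lt_max_of_lt_left (w.pos b0))⟩
  have s1 := Multiset.sum_map_le_sum_map (s := T) (fun β => vl w (η c - β))
    (fun β => vl w (x c - β)) fun β k => vl_le (ne β (b4 β k)).1 (by
      rw [l1 β (b4 β k), l2 β (b4 β k)]; exact max_le_max_right _ l3)
  have s2 := g (vl w θ) _ (by linarith [mul_pos m0 hs]) le_rfl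
  rw [← b5, ← b6] at s1
  have n1 := h.norm (op_up o c (P.op c))
  have n2 := h.norm (op_up o c (p.op c))
  rw [← ev_sub] at n1 n2
  have n3 := n1.trans_le ((Multiset.prod_map_le_prod_map₀ _ _ (fun _ _ => w.nonneg _)
    fun _ _ => le_max_left _ _).trans_eq (exp_fv _ H (m * (aa w t c γ - s) - aa w t c γ)).symm)
  have n4 := n2.trans ((congrArg Multiset.prod (Multiset.map_congr rfl fun y hy => (max_eq_left
    ((Real.exp_le_exp.2 (neg_le_neg t3.le)).trans (lo y hy))).symm)).trans (exp_fv _ H _).symm)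
  generalize fv w t _ H (m * (aa w t c γ - s) - aa w t c γ) = F₂ at s2 n3
  generalize fv w t (X (Function.update _ c (η c))) H _ = F₁ at s1 n4
  obtain ⟨W, w1, w2, w3⟩ := prep hE aw S o N0 (lt_min (Real.exp_pos (-F₂)) (Real.exp_pos (-F₁)))
  refine ⟨b, hb, b0, b3, b1.le, by linarith, W, _, w1, and_assoc.1 ⟨?_, le_rfl⟩⟩
  have mo := w1.1.map (ev t (cut (c + 1) x))
  have rt := (lv_cl u c).roots (f := W.map (ev t (cut (c + 1) x))) fun i => by
    rw [coeff_map]; exact ev_in S (le_lv u c) (cut_mem P.tri c) _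
  have pr : ∀ y, (∀ β ∈ Lv E u c, y - β ≠ 0) → (W.map (ev t (cut (c + 1) x))).eval y ≠ 0 ∧
      vl w ((W.map (ev t (cut (c + 1) x))).eval y) =
        ((W.map (ev t (cut (c + 1) x))).roots.map fun β => vl w (y - β)).sum := fun y k => by
    rw [(IsAlgClosed.splits _).eval_eq_prod_roots, mo.leadingCoeff, one_mul]
    have z : ((W.map (ev t (cut (c + 1) x))).roots.map fun β => y - β).prod ≠ 0 :=
      Multiset.prod_ne_zero fun e => by
        obtain ⟨β, hβ, e⟩ := Multiset.mem_map.1 e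
        exact k β (rt β hβ) e
    exact ⟨z, by rw [vl_prod z, Multiset.map_map]; rfl⟩
  obtain ⟨v1, v2⟩ := pr _ fun β k => (ne β k).1
  obtain ⟨-, v3⟩ := pr _ fun β k => (ne β k).2
  obtain ⟨z, z', z1, z2, z3⟩ := w3 _ (P.op c)
  obtain ⟨y, y', y1, y2, y3⟩ := w3 _ (p.op c)
  have v4 : F₂ ≤ vl w ((W.map (ev t (cut (c + 1) x))).eval (x c)) := by
    have := (na_sub S.vs.na _ z').trans (max_le n3 (z2.trans_le (min_le_left _ _)).le)
    have := Real.log_le_log (w.pos v1) ((mul_one _).symm.trans_le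
      (z1 ▸ (map_mul w _ _).symm.trans_le ((congrArg w z3).trans_le this)))
    rw [Real.log_exp] at this
    rw [vl]
    linarith
  have v5 : vl w ((W.map (ev t (cut (c + 1) x))).eval (η c)) = F₁ := by
    have := (congrArg w y3).trans ((na_sub_lt S.vs.na
      ((y2.trans_le (min_le_right _ _)).trans_eq n4.symm)).trans n4)
    rw [map_mul, y1, mul_one] at this
    rw [vl, this, Real.log_exp, neg_neg]
  generalize (W.map (ev t (cut (c + 1) x))).roots = R at *
  rw [← R.filter_add_not fun β => w (β - (x c - γ c * u c)) ≤ w b, Multiset.map_add,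
    Multiset.sum_add] at v2 v3
  have s3 := sum_le (T := R.filter fun β => w (β - (x c - γ c * u c)) ≤ w b)
    (f := fun β => vl w (x c - β)) (g := fun β => vl w (η c - β)) (r := 3 * s) fun β k => by
      obtain ⟨k, k'⟩ := Multiset.mem_filter.1 k
      have := vl_le (w := w) (P.tri.ne c) (l1 β (rt β k) ▸ le_max_left _ _)
      have e : vl w (η c - β) = vl w b := by rw [vl, l2 β (rt β k), max_eq_left k', vl]
      linarith
  have s4 := congrArg Multiset.sum (Multiset.map_congr (f := fun β => vl w (x c - β))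
    (g := fun β => vl w (η c - β)) (rfl : R.filter (fun β => ¬ w (β - (x c - γ c * u c)) ≤ w b) = _)
    fun β k => by
      obtain ⟨k, k'⟩ := Multiset.mem_filter.1 k
      rw [vl, vl, l1 β (rt β k), l2 β (rt β k), max_eq_right (not_le.1 k').le,
        max_eq_right (l3.trans (not_le.1 k').le)])
  generalize (R.filter fun β => w (β - (x c - γ c * u c)) ≤ w b).card = k at *
  have d0 : (0 : ℝ) < d := Nat.cast_pos.2 hX.pos
  have s5 : κ * d * m ≤ 6 * k := le_of_mul_le_mul_right (by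
    linarith [mul_le_mul_of_nonneg_left k7 (mul_pos κ0 d0).le]) hs
  have N2 : (W.natDegree : ℝ) ≤ d * (m * (n + 2)) := by exact_mod_cast w2 ▸ N1
  refine ⟨Nat.cast_pos.1 (show (0 : ℝ) < k by linarith [mul_pos (mul_pos κ0 d0) m0]),
    (mul_le_mul_of_nonneg_left N2 (by positivity)).trans ?_⟩
  rw [show κ / (6 * (n + 2)) * (d * (m * (n + 2))) = κ * d * m / 6 by field_simp]
  linarith

end Ky

open Ky in
theorem keys : KEYS := fun np hE aw n c ⟨C, κ, σ, hC, κ0, σ0, h⟩ => by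
  have k0 : 0 ≤ (n + 2 : ℝ) / κ := by positivity
  refine ⟨3 * C + (1 + (n + 2) / κ), κ / (6 * (n + 2)),
    min σ (min (1 / (2 * C)) (κ / (6 * (n + 2)) / (3 * C))), by linarith, by positivity,
    by positivity, fun Ω _ _ _ w E t u S Ψ ε B x γ s P s0 hs hσ => ?_⟩
  have m := vl_pos S.t0 S.t1
  have l : ∀ {a}, min σ (min (1 / (2 * C)) (κ / (6 * (n + 2)) / (3 * C))) ≤ a → s ≤ a * vl w t :=
    fun k => hσ.trans (mul_le_mul_of_nonneg_right k m.le)
  obtain ⟨d, X, hX, D⟩ := dat hE S B P fun A hA =>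
    h Ω w E t u S Ψ ε A B hA x γ s P s0 hs (l (min_le_left _ _))
  have l1 := l ((min_le_right _ _).trans (min_le_left _ _))
  have l2 := l ((min_le_right _ _).trans (min_le_right _ _))
  rw [div_mul_eq_mul_div, le_div_iff₀ (by positivity)] at l1 l2
  have a := one np hE S B P hX D (by linarith)
  have a' : κ / (6 * (n + 2)) * vl w t ≤ vl w (γ c) := by
    rw [div_mul_eq_mul_div, div_le_iff₀ (by positivity)]
    nlinarith [rad_pos S P c, (Nat.cast_nonneg n : (0 : ℝ) ≤ n)]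
  have s1 : 0 < C * s := by positivity
  refine ⟨a', fun a ha b hb b0 a1 b1 => ?_, ?_⟩
  · obtain ⟨k, x', γ', p, p1, p2, p3⟩ := two np hE S B P hX D s1 κ0 le_rfl ha hb b0 a1 b1
    refine ⟨x', γ', p, p1, p2, p3.trans ?_⟩
    nlinarith [mul_nonneg (zero_le_one.trans hC) k]
  · obtain ⟨b, hb, b0, b1, b2, b3⟩ := three np hE aw S B P hX D s1 κ0 (by linarith)
    exact ⟨b, hb, b0, b1, by nlinarith, b3⟩

end Vale.Agent.P283B.Ls
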