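import Vale.Agent.P283B.LS.Sl1

/-!
# P283B, block LS: the leaf `SLM`
-/

set_option linter.unusedVariables false
set_option linter.unusedSectionVars false

open Set Polynomial
open Vale.Agent.P287D Vale.Agent.P287D.Cb
open Vale.Agent.P297Z

noncomputable section

namespace Vale.Agent.P283B.Ls

open Wp

namespace Sl

variable {K ι : Type} [Field K] [Algebra ℂ K] [Fintype ι] {n : ℕ} {y : ι → K} {θ : K}
  {P R₀ w : Pl K} {s₀ : Finset K} {F a : (MvPolynomial ι ℂ)[X]} {T : Pl (fld (mx s₀))}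

theorem rf_ff (h : Rf y) : FF K (Fintype.card ι) :=
  ⟨y ∘ (Fintype.equivFin ι).symm, h.ind.comp _ (Equiv.injective _),
    Module.finite_of_finrank_eq_succ (Gm.Un.fin_top (by
      rw [range_comp, (Equiv.surjective _).range_eq, image_univ, h.gen]))⟩

variable (hK : FF K (n + 1)) (h : Eu s₀ R₀ y θ F)

/-- the field of the affine space -/
abbrev Lf (y : ι → K) : IntermediateField ℂ K := IntermediateField.adjoin ℂ (range y)

/-- the chart -/
def ph : Lf y →ₐ[ℂ] fld (mx s₀) := IntermediateField.inclusion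
  (IntermediateField.adjoin_le_iff.2 (range_subset_iff.2 fun i => oz_le hK (h.y_mem i)))

/-- the generator -/
def th : fld (mx s₀) := ⟨θ, oz_le hK h.th_mem⟩

/-- values in the field of the base -/
abbrev ez (a : (MvPolynomial ι ℂ)[X]) : fld (mx s₀) :=
  ey (fun i => ph hK h (Gm.Un.gn y i)) (th hK h) a

theorem cy (a : (MvPolynomial ι ℂ)[X]) : inc _ (ez hK h a) = ey y θ a :=
  ey_map (IntermediateField.val _) _ _ a

include h in
theorem rf : Rf (Gm.Un.gn y) := ⟨.of_comp (IntermediateField.val _) h.ind, Gm.Un.gn_top y⟩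

theorem eq_at (nh : ¬ Hor (fld (mx s₀)) R₀) (o : Ov s₀ R₀ w) (l : Lies (inc _) w T) :
    Eq (fun i => ph hK h (Gm.Un.gn y i)) (th hK h) F T := by
  refine ⟨.of_comp (IntermediateField.val _) h.ind, IntermediateField.lift_injective _ ?_, h.mon,
    (inc _).injective ((cy hK h F).trans (h.root.trans (map_zero _).symm)),
    fun k => h.ne ((cy hK h _).symm.trans ((congrArg _ k).trans (map_zero _))), ?_,
    fun i => (l _).2 (h.y_mem i w o)⟩
  · rw [IntermediateField.lift_adjoin, IntermediateField.lift_top, image_insert_eq, ← range_comp]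
    exact h.gen hK nh
  · have := l.ord (ez hK h F.derivative)
    rw [cy, h.unit o h.ne h.un] at this
    exact (mul_eq_zero.1 this.symm).resolve_left l.e_pos.ne'

theorem un0 (o : Ov s₀ R₀ P) (l : Lies (inc _) P T) (a0 : ey y θ a ≠ 0)
    (k : R₀.ord (ey y θ a) = 0) : ¬ 0 < T.ord (ez hK h a) := by
  rw [← l.ord_pos_iff, cy, h.unit o a0 k]
  exact lt_irrefl _

theorem ind_at {σ : Type} (f : σ → ι) (nh : ¬ Hor (fld (mx s₀)) R₀) (o : Ov s₀ R₀ P)
    (l : Lies (inc _) P T) (hi : AlgebraicIndependent ℂ fun b => R₀.rd (y (f b))) :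
    AlgebraicIndependent ℂ fun b => T.rd (ph hK h (Gm.Un.gn y (f b))) :=
  algebraicIndependent_iff.2 fun g hg => algebraicIndependent_iff.1 hi g (by
    have c : ey y θ (C (MvPolynomial.rename f g)) = MvPolynomial.aeval (fun b => y (f b)) g := by
      rw [ey, eval₂_C]; exact MvPolynomial.aeval_rename _ _ _
    have c' : ez hK h (C (MvPolynomial.rename f g)) =
        MvPolynomial.aeval (fun b => ph hK h (Gm.Un.gn y (f b))) g := by
      rw [ez, ey, eval₂_C]; exact MvPolynomial.aeval_rename _ _ _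
    have k := h.mem (C (MvPolynomial.rename f g)) R₀ (CLe.refl _ _)
    have E := eq_at hK h nh o l
    rw [← rd_aeval fun b => E.fi _, ← c', rd_eq_zero (Eq.mem E _), mx_iff] at hg
    rw [← rd_aeval fun b => h.y_mem _ R₀ (CLe.refl _ _), ← c, rd_eq_zero k, mx_iff]
    by_contra x
    rw [not_or, not_lt] at x
    exact hg.elim (fun u => x.1 (by rw [← cy hK h, ez, u, map_zero]))
      (un0 hK h o l x.1 (le_antisymm x.2 (Pl.ord_nonneg_of_mem _ k))))

theorem bound (pw : PW) (un : UNR) {Λ Γ : BD K} {c d : ℝ} {N : ℕ} (nh : ¬ Hor (fld (mx s₀)) R₀)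
    (h1 : Smp Λ) (h2 : Big Λ) (h3 : Dsc Λ (mx s₀)) (h4 : Bdy n Λ Γ) (h5 : Nef (c • mx s₀ - Γ))
    (h6 : Big (c • mx s₀ - Γ)) (N0 : 0 < N) (d1 : d ≤ 1)
    (h7 : ∀ w, Ov s₀ R₀ w → 0 < ld (n + 1) Γ w)
    (h8 : ∀ w Q, Ov s₀ R₀ w → Lies (inc (fld (mx s₀))) w Q →
      d * w.ord (inc _ Q.t) ≤ ld (n + 1) Γ w)
    (o : Ov s₀ R₀ P) (l : Lies (inc _) P T) {u : Pl (fld (mx s₀))} {v : Pl (Lf y)}
    (lu : Lies (ph hK h : Lf y →+* _) u v) (fi : Fi (fun i => ph hK h (Gm.Un.gn y i)) u)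
    (iu : ∀ a, 0 < u.ord (ez hK h a) ↔ 0 < T.ord (ez hK h a)) :
    ∃ a, ez hK h a ≠ 0 ∧ (N * (pb (inc (Lf y)) (kq (Gm.Un.gn y) + 1) P - ld (n + 1) Γ P) -
      pb (inc (Lf y)) (kq (Gm.Un.gn y) + 1) P) / P.ord (inc _ T.t) ≤ T.ord (ez hK h a) ∧
      u.ord (ez hK h a) ≤ N * (kq (Gm.Un.gn y) v + 1 - d) := by
  have hz := rf h
  have fv : Fi (Gm.Un.gn y) v := fun i => (lu _).2 (fi i)
  have a0 : 0 ≤ N * (kq (Gm.Un.gn y) v + 1 - d) :=
    mul_nonneg N.cast_nonneg (by linarith [kq_nonneg (rf_ff hz) rfl fv])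
  have tr : ∀ w, Trv (inc (Lf y)) w → Hor (fld (mx s₀)) w := fun w k =>
    h.hor hK nh fun f hf => k ⟨f, hf⟩
  obtain ⟨r, f, e, m1, m2, m3, m4⟩ := pw n K hK (Lf y) ι (Gm.Un.gn y) (Lf y).val Λ Γ s₀ R₀ c d N
    ⌊N * (kq (Gm.Un.gn y) v + 1 - d)⌋₊ v hz nh h1 h2 h3 h4 h5 h6 h.y_mem (fun a => (ph hK h a).2)
    (fun f hf => by rw [IntermediateField.fieldRange_val]; exact h.alg hK nh hf) fv N0
    (fun w k => h7 w (On.cle_of_hor hK (smp_mx s₀) (tr w k) _)) (fun w o k => by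
      obtain ⟨Q, lQ⟩ := (hK.ok_sub (fld (mx s₀)) w).resolve_left fun x =>
        k.not_trv (x.comp (ph hK h : Lf y →+* _))
      have := lQ.ord (ph hK h v.t)
      rw [un _ _ _ _ _ _ F Q v hz (eq_at hK h nh o lQ) (lQ.of_comp k), mul_one] at this
      exact (congrArg (fun x : ℤ => d * x) this).trans_le (h8 w Q o lQ))
    (Nat.lt_floor_add_one _)
  have E := eq_at hK h nh o l
  have u0 : ∀ b, ey y θ b ≠ 0 → R₀.ord (ey y θ b) = 0 → u.ord (ez hK h b) = 0 := fun b b0 k =>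
    le_antisymm (not_lt.1 fun x => un0 hK h o l b0 k ((iu b).1 x)) (Pl.ord_nonneg_of_mem _
      (ey_mem fi (int_mem (fun b => adj_mem (range_subset_iff.2 fi) b.2) (th_int E.mon E.root)) b))
  have e1 := un _ _ _ _ _ _ F u v hz { E with un := u0 _ h.ne h.un, fi := fi } lu
  choose a b b0 b1 ab using fun i => (h.loc _).1 (m1 i)
  have bz : ∀ i, ez hK h (b i) ≠ 0 := fun i x => b0 i (by rw [← cy hK h, x, map_zero])
  have m5 : ph hK h v.t ^ ⌊N * (kq (Gm.Un.gn y) v + 1 - d)⌋₊ =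
      ∑ i, ez hK h (a i) / ez hK h (b i) * ph hK h (e i) := (inc _).injective (by
    simp only [map_sum, map_mul, map_div₀, cy, ← ab, map_pow]
    exact m3)
  by_contra! x
  have t0 : ph hK h v.t ≠ 0 := (_root_.map_ne_zero _).2 v.t_ne
  refine not_mx_one (P := u) ?_
  rw [← div_self (pow_ne_zero ⌊N * (kq (Gm.Un.gn y) v + 1 - d)⌋₊ t0)]
  nth_rw 1 [m5]
  rw [Finset.sum_div]
  refine Finset.sum_induction _ (Mx u) (fun _ _ => Mx.add) mx_zero fun i _ => ?_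
  rw [mul_comm, mul_div_assoc]
  refine Mx.mul ?_ ((lu _).1 (m2 i))
  by_cases az : ez hK h (a i) = 0
  · simpa [az] using mx_zero
  have ay : ey y θ (a i) ≠ 0 := cy hK h _ ▸ (_root_.map_ne_zero _).2 az
  have k := m4 i P o (fun k => l.not_trv (tr P k).trv) (ab i ▸ div_ne_zero ay (b0 i))
  rw [ab i, Pl.ord_div _ ay (b0 i), h.unit o (b0 i) (b1 i), sub_zero, ← cy hK h, l.ord] at k
  have := (Nat.floor_le a0).trans_lt (x _ az ((div_le_iff₀' (by exact_mod_cast l.e_pos)).2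
    (by exact_mod_cast k)))
  refine mx_iff.2 (.inr ?_)
  rw [Pl.ord_div _ (div_ne_zero az (bz i)) (pow_ne_zero _ t0), Pl.ord_div _ az (bz i),
    u0 _ (b0 i) (b1 i), Pl.ord_pow, e1, sub_zero, mul_one, sub_pos]
  exact_mod_cast this

end Sl

open Sl

/-- **SLM** -/
theorem slm : SLM := fun pw un et n ms ε q e0 q0 => by
  classical
  obtain ⟨δ, d0, H⟩ := ms ε q e0 q0
  obtain ⟨d, d1, d2, d3⟩ : ∃ d : ℝ, 0 < d ∧ d ≤ 1 ∧ 2 * d ≤ δ :=
    ⟨min 1 (δ / 2), lt_min one_pos (half_pos d0), min_le_left _ _,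
      by linarith [min_le_right 1 (δ / 2)]⟩
  choose τ t0 G using fun m => et m d d1
  obtain ⟨m₀, -, hτ⟩ := exists_min_image _ τ (finite_le_nat n) ⟨0, Nat.zero_le n⟩
  refine ⟨τ m₀, t0 _, fun K _ _ hK Λ Γ s₀ R₀ r sm nh cf el => ?_⟩
  obtain ⟨σ, _, m, y, θ, F, p, hm, h, hi, hp⟩ := split hK sm nh
  obtain ⟨Q, hQ⟩ : ∃ Q : Fin (m + 1) → K,
    ∀ i, ey (fun b => y (.inl b)) (y (.inr i)) (p i) = Q i := ⟨_, fun _ => rfl⟩
  have Q1 : ∀ i, 0 < R₀.ord (Q i) := fun i => hQ i ▸ (hp i).2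
  have Q0 : ∀ i, Q i ≠ 0 := fun i z => by simpa [z] using Q1 i
  have QO : ∀ i, Q i ∈ Oz s₀ R₀ := fun i w o =>
    hQ i ▸ ey_mem (fun b => h.y_mem _ w o) (h.y_mem _ w o) _
  refine ⟨Finset.univ.image Q, by simp, fun f hf => ?_, fun P o => ?_⟩
  · obtain ⟨i, -, rfl⟩ := Finset.mem_image.1 hf
    exact ⟨Q0 i, oz_le hK (QO i), QO i, Q1 i⟩
  have mq : ∀ i, -(P.ord (Q i) : ℝ) ≤ mx (Finset.univ.image Q) P := fun i => by
    rw [mx_apply]
    exact_mod_cast Pb.le_mz P (Finset.mem_image_of_mem Q (Finset.mem_univ i)) (Q0 i)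
  have l0 : ∀ w, Ov s₀ R₀ w → 0 < ld (n + 1) Γ w := fun w o => e0.trans_le (el w o)
  by_cases pos : ∀ i, 0 < P.ord (Q i)
  swap
  · obtain ⟨i, hi⟩ := not_forall.1 pos
    have : (P.ord (Q i) : ℝ) ≤ 0 := by exact_mod_cast not_lt.1 hi
    exact add_nonneg (l0 P o).le (mul_nonneg (t0 _).le (by linarith [mq i]))
  have cq : ∀ i, inc _ (ey (fun b => ph hK h (Gm.Un.gn y (.inl b))) (ph hK h (Gm.Un.gn y (.inr i)))
      (p i)) = Q i := fun i => (ey_map (IntermediateField.val _) _ _ _).trans (hQ i)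
  obtain ⟨T, lT⟩ := (hK.ok_sub (fld (mx s₀)) P).resolve_left fun k =>
    (pos 0).ne' (cq 0 ▸ k.ord _)
  have eT : (0 : ℝ) < P.ord (inc _ T.t) := by exact_mod_cast lT.e_pos
  obtain ⟨c, nc⟩ := r.nef
  obtain ⟨Γ₀, c₀, k0, b0, n0, g0⟩ := r.ft.ex
  obtain ⟨A, hA⟩ : ∃ A, pb (inc (Lf y)) (kq (Gm.Un.gn y) + 1) P = A := ⟨_, rfl⟩
  have cA : A = P.ord (inc _ T.t) * pb (ph hK h : Lf y →+* _) (kq (Gm.Un.gn y) + 1) T := by
    rw [← lT.pb, ← (hK.ok_sub _).pb_comp, ← hA]; rfl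
  have key : ∀ N : ℕ, 0 < N → -(τ m₀ * mx (Finset.univ.image Q) P) - ld (n + 1) Γ P ≤
      ((ld (n + 1) Γ₀ P - ld (n + 1) Γ P) / 2 + A) / N := fun N N0 => by
    have N1 : (1 : ℝ) ≤ N := by exact_mod_cast N0
    obtain ⟨t, t1, t2, t3⟩ : ∃ t : ℝ, 0 < t ∧ t ≤ 1 / 2 ∧ t = 1 / 2 / N :=
      ⟨_, by positivity, div_le_self (by norm_num) N1, rfl⟩
    obtain ⟨Γ', hΓ⟩ : ∃ Γ', Γ' = (1 - t) • Γ + t • Γ₀ := ⟨_, rfl⟩
    have lG : ∀ w, ld (n + 1) Γ' w = (1 - t) * ld (n + 1) Γ w + t * ld (n + 1) Γ₀ w := fun w => by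
      simp only [ld, dsc, hΓ, Pi.add_apply, Pi.sub_apply, Pi.smul_apply, smul_eq_mul]; ring
    have l1 : ∀ w, 0 < t * ld (n + 1) Γ₀ w := fun w =>
      mul_pos t1 (by have := k0 w; rw [ld]; linarith)
    have eG : ((1 - t) * c + t * c₀) • mx s₀ - Γ' =
        t • (c₀ • mx s₀ - Γ₀) + (1 - t) • (c • mx s₀ - Γ) := by
      rw [hΓ]; module
    have t4 : 0 < 1 - t := by linarith
    obtain ⟨i, hi⟩ := G m _ _ σ _ (ph hK h) (th hK h) F T p _ N (rf h) (eq_at hK h nh o lT)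
      (ind_at hK h .inl nh o lT hi) (fun i => ⟨(hp i).1, (lT.ord_pos_iff _).1 (cq i ▸ pos i)⟩)
      (by linarith) fun u v l fi iu => bound hK h pw un (Γ := Γ') nh r.pr.smp r.pr.big r.ft.des
        (fun w a => by
          have := lG w
          have := mul_nonneg t4.le (neg_nonneg.2 (r.pr.bdy w a))
          have := mul_nonneg t1.le (neg_nonneg.2 (b0 w a))
          simp only [ld] at *
          linarith)
        (eG ▸ (n0.smul t1.le).add (nc.smul t4.le)) (eG ▸ (g0.smul t1).add_nef (nc.smul t4.le)) N0 d2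
        (fun w o => lG w ▸ add_pos (mul_pos t4 (l0 w o)) (l1 w)) (fun w Q o l => by
          have a := H K hK Λ Γ s₀ w Q r l (fun P a b => cf P a (CLe.trans o b))
            fun P b => el P (CLe.trans o b)
          have b : (0 : ℝ) ≤ w.ord (inc _ Q.t) := by exact_mod_cast l.e_pos.le
          have := mul_le_mul_of_nonneg_right d3 b
          have := mul_le_mul_of_nonneg_right t2 (l0 w o).le
          rw [lG]
          linarith [l1 w]) o lT l fi iu
    have a := mul_le_mul_of_nonneg_left hi eT.le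
    have b := lT.ord (ey (fun b => ph hK h (Gm.Un.gn y (.inl b))) (ph hK h (Gm.Un.gn y (.inr i)))
      (p i))
    rw [cq] at b
    rw [mul_left_comm, ← Int.cast_mul, ← b, mul_sub, ← cA, hA, ← mul_div_assoc,
      mul_div_cancel₀ _ eT.ne', lG, t3] at a
    have q1 : (0 : ℝ) ≤ P.ord (Q i) := by exact_mod_cast (pos i).le
    have q2 := mul_le_mul_of_nonneg_right (hτ m hm) q1
    have q3 := mul_le_mul_of_nonneg_left (mq i) (t0 m₀).le
    refine le_trans (by linarith) ((sub_le_sub_right a (ld (n + 1) Γ P)).trans_eq ?_)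
    field_simp
    ring
  have := ge_of_tendsto (tendsto_const_div_atTop_nhds_zero_nat _)
    (Filter.eventually_atTop.2 ⟨1, key⟩)
  linarith

end Vale.Agent.P283B.Ls
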