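import Vale.Agent.P283B.LS.Tw
import Vale.Agent.P283B.MONO.Va2

/-!
# P283B, block LS: the rounds
-/

open Set Polynomial

noncomputable section

namespace Vale.Agent.P283B.Ls

open Mono

namespace Rn

variable {Ω : Type} [Field Ω] {w : AbsoluteValue Ω ℝ}

/-- the values of `K` are multiples of `g` -/
def VG (w : AbsoluteValue Ω ℝ) (K : Subfield Ω) (g : ℝ) : Prop :=
  ∀ z ∈ K, ∃ i : ℤ, vl w z = i * g

theorem vl_zero : vl w 0 = 0 := by simp [vl]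

theorem vl_mul {a b : Ω} (ha : a ≠ 0) (hb : b ≠ 0) : vl w (a * b) = vl w a + vl w b := by
  simp only [vl, map_mul]
  rw [Real.log_mul (w.ne_zero ha) (w.ne_zero hb)]; ring

theorem vl_div {a b : Ω} (ha : a ≠ 0) (hb : b ≠ 0) : vl w (a / b) = vl w a - vl w b := by
  simp only [vl, map_div₀]
  rw [Real.log_div (w.ne_zero ha) (w.ne_zero hb)]; ring

theorem exp_vl {a : Ω} (ha : a ≠ 0) : Real.exp (-vl w a) = w a := by
  simp only [vl, neg_neg]
  exact Real.exp_log (w.pos ha)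

theorem vl_pos {a : Ω} (ha : a ≠ 0) (h : w a < 1) : 0 < vl w a :=
  neg_pos.2 (Real.log_neg (w.pos ha) h)

theorem lt_one {a : Ω} (ha : a ≠ 0) (h : 0 < vl w a) : w a < 1 := by
  rw [← exp_vl (w := w) ha]
  exact Real.exp_lt_one_iff.2 (by linarith)

theorem exists_poly {K : Subfield Ω} {y z : Ω} (hz : z ∈ Subring.closure ((K : Set Ω) ∪ {y})) :
    ∃ f : Polynomial Ω, (∀ i, f.coeff i ∈ K) ∧ f.eval y = z := by
  induction hz using Subring.closure_induction with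
  | mem x hx =>
    rcases hx with hx | rfl
    · refine ⟨C x, fun i => ?_, by simp⟩
      rw [coeff_C]
      split_ifs
      exacts [hx, K.zero_mem]
    · refine ⟨X, fun i => ?_, by simp⟩
      rw [coeff_X]
      split_ifs
      exacts [K.one_mem, K.zero_mem]
  | zero => exact ⟨0, fun i => by simp, by simp⟩
  | one =>
    refine ⟨1, fun i => ?_, by simp⟩
    rw [coeff_one]
    split_ifs
    exacts [K.one_mem, K.zero_mem]
  | add x y _ _ a b =>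
    obtain ⟨f, f1, rfl⟩ := a
    obtain ⟨g, g1, rfl⟩ := b
    exact ⟨f + g, fun i => by rw [coeff_add]; exact add_mem (f1 i) (g1 i), by simp⟩
  | neg x _ a =>
    obtain ⟨f, f1, rfl⟩ := a
    exact ⟨-f, fun i => by rw [coeff_neg]; exact neg_mem (f1 i), by simp⟩
  | mul x y _ _ a b =>
    obtain ⟨f, f1, rfl⟩ := a
    obtain ⟨g, g1, rfl⟩ := b
    exact ⟨f * g, fun i => by
      rw [coeff_mul]; exact sum_mem fun p _ => mul_mem (f1 _) (g1 _), by simp⟩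

theorem vg_adj {K : Subfield Ω} {y : Ω} {g : ℝ}
    (h : ∀ f : Polynomial Ω, (∀ i, f.coeff i ∈ K) → ∃ i : ℤ, vl w (f.eval y) = i * g) :
    VG w (Subfield.closure ((K : Set Ω) ∪ {y})) g := fun z hz => by
  obtain ⟨a, ha, b, hb, rfl⟩ := Subfield.mem_closure_iff.1 hz
  obtain ⟨f, f1, rfl⟩ := exists_poly ha
  obtain ⟨p, p1, rfl⟩ := exists_poly hb
  obtain ⟨i, hi⟩ := h f f1
  obtain ⟨j, hj⟩ := h p p1
  by_cases a0 : f.eval y = 0
  · exact ⟨0, by rw [a0, zero_div, vl_zero]; simp⟩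
  by_cases b0 : p.eval y = 0
  · exact ⟨0, by rw [b0, div_zero, vl_zero]; simp⟩
  exact ⟨i - j, by rw [vl_div a0 b0, hi, hj]; push_cast; ring⟩

theorem vg_gn [IsAlgClosed Ω] (hw : IsNonarchimedean w) {K M : Subfield Ω} (hM : Cl M)
    (hK : K ≤ M) {u b : Ω} (hu : Gn w M u) (hb : b ∈ M) (b0 : b ≠ 0) {g : ℝ} (h : VG w K g)
    {z : ℤ} (hz : vl w b = z * g) : VG w (Subfield.closure ((K : Set Ω) ∪ {b * u})) g :=
  vg_adj fun f hf => by
    have e := hu.eval_gn hw hb b0 (hM.roots fun i => hK (hf i))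
    obtain ⟨i, hi⟩ := f.exists_eq_gaussNorm w (w b)
    obtain ⟨j, hj⟩ := h _ (hf i)
    have e' : vl w (f.eval (b * u)) = vl w (f.coeff i * b ^ i) := by
      simp only [vl, e, hi, map_mul, map_pow]
    by_cases c0 : f.coeff i = 0
    · exact ⟨0, by rw [e', c0, zero_mul, vl_zero]; simp⟩
    refine ⟨j + i * z, ?_⟩
    rw [e', vl_mul c0 (pow_ne_zero _ b0), hj]
    have : vl w (b ^ i) = i * vl w b := by simp [vl]
    rw [this, hz]; push_cast; ring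

theorem vg_t (hw : IsNonarchimedean w) {K : Subfield Ω} (hK : ∀ z ∈ K, z ≠ 0 → w z = 1) {t : Ω}
    (t0 : t ≠ 0) (t1 : w t < 1) : VG w (Subfield.closure ((K : Set Ω) ∪ {t})) (vl w t) :=
  vg_adj fun f hf => by
    have : ∀ (d : ℕ) (f : Polynomial Ω), f.natDegree ≤ d → (∀ i, f.coeff i ∈ K) →
        w (f.eval t) ≤ 1 ∧ ∃ i : ℤ, vl w (f.eval t) = i * vl w t := fun d => by
      have base : ∀ a ∈ K, w a ≤ 1 ∧ vl w a = 0 := fun a ha => by
        by_cases a0 : a = 0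
        · simp [a0, vl]
        · simp [vl, hK a ha a0]
      induction d with
      | zero =>
        intro f d0 hf
        rw [eq_C_of_natDegree_le_zero d0, eval_C]
        exact ⟨(base _ (hf 0)).1, 0, by simp [(base _ (hf 0)).2]⟩
      | succ d ih =>
        intro f d0 hf
        obtain ⟨a, i, hi⟩ := ih f.divX (by rw [natDegree_divX_eq_natDegree_tsub_one]; omega)
          fun i => by rw [coeff_divX]; exact hf _
        have e : f.eval t = f.coeff 0 + f.divX.eval t * t := by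
          conv_lhs => rw [← divX_mul_X_add f]
          simp [add_comm]
        have l : w (f.divX.eval t * t) < 1 := by
          rw [map_mul]
          nlinarith [w.nonneg (f.divX.eval t), w.pos t0]
        by_cases c0 : f.coeff 0 = 0
        · rw [e, c0, zero_add]
          refine ⟨l.le, ?_⟩
          by_cases z0 : f.divX.eval t = 0
          · exact ⟨0, by rw [z0, zero_mul, vl_zero]; simp⟩
          · exact ⟨i + 1, by rw [vl_mul z0 t0, hi]; push_cast; ring⟩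
        · have h1 := hK _ (hf 0) c0
          have : w (f.eval t) = 1 := by rw [e, na_add_lt hw (by rw [h1]; exact l), h1]
          exact ⟨this.le, 0, by simp [vl, this]⟩
    exact (this _ f le_rfl hf).2

theorem exists_val [IsAlgClosed Ω] {E : Subfield Ω} (v : VS w E) {t : Ω} (t0 : t ≠ 0) (z : ℤ)
    {N : ℕ} (hN : 0 < N) : ∃ b ∈ E, b ≠ 0 ∧ vl w b = z * (vl w t / N) := by
  obtain ⟨β, hβ⟩ := IsAlgClosed.exists_pow_nat_eq (t ^ z) hN
  obtain ⟨b, hb, e⟩ := v.ful β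
  have β0 : β ≠ 0 := by
    rintro rfl
    rw [zero_pow hN.ne'] at hβ
    exact zpow_ne_zero z t0 hβ.symm
  refine ⟨b, hb, fun h => ?_, ?_⟩
  · rw [h, map_zero] at e
    exact w.ne_zero β0 e.symm
  · have h1 : (N : ℝ) * Real.log (w β) = z * Real.log (w t) := by
      rw [← Real.log_pow, ← map_pow, hβ, map_zpow₀, Real.log_zpow]
    have N0 : (N : ℝ) ≠ 0 := by positivity
    simp only [vl, e]
    field_simp
    linarith

variable [Algebra ℂ Ω] {n : ℕ}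

/-- the field of the coordinates `j ≥ c` -/
def Kc (t : Ω) (c : ℕ) (x : Fin n → Ω) : Subfield Ω :=
  Subfield.closure (range (algebraMap ℂ Ω) ∪ {t} ∪ x '' {j | c ≤ j.1})

theorem Kc.con (t : Ω) (c : ℕ) (x : Fin n → Ω) (a : ℂ) : algebraMap ℂ Ω a ∈ Kc t c x :=
  Subfield.subset_closure (Or.inl (Or.inl ⟨a, rfl⟩))

theorem Kc.tm (t : Ω) (c : ℕ) (x : Fin n → Ω) : t ∈ Kc t c x :=
  Subfield.subset_closure (Or.inl (Or.inr rfl))

theorem Kc.xm (t : Ω) {c : ℕ} (x : Fin n → Ω) {j : Fin n} (h : c ≤ j.1) : x j ∈ Kc t c x :=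
  Subfield.subset_closure (Or.inr ⟨j, h, rfl⟩)

theorem Kc.le {t : Ω} {c : ℕ} {x : Fin n → Ω} {M : Subfield Ω} (h : ∀ a, algebraMap ℂ Ω a ∈ M)
    (ht : t ∈ M) (hx : ∀ j : Fin n, c ≤ j.1 → x j ∈ M) : Kc t c x ≤ M :=
  Subfield.closure_le.2 (by
    rintro z ((⟨a, rfl⟩ | rfl) | ⟨j, hj, rfl⟩)
    exacts [h a, ht, hx j hj])

theorem ev_Kc (t : Ω) (c : ℕ) (x η : Fin n → Ω) (h : ∀ j, η j ∈ Kc t c x) (p : Pn n) :
    ev t η p ∈ Kc t c x := by
  refine ev_mem (M := Kc t c x) _ (fun a => ?_) h p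
  show aeval t a ∈ Kc t c x
  rw [aeval_eq_sum_range]
  refine sum_mem fun i _ => ?_
  rw [Algebra.smul_def]
  exact mul_mem (Kc.con _ _ _ _) (pow_mem (Kc.tm _ _ _) _)

/-- the invariant of the rounds -/
def Rd (n c : ℕ) (ε σ τ : ℝ) : Prop := ForE n fun _ _ _ w E t u => ∀ Ψ, Bg w E t u Ψ ε →
  ∀ x γ, Pt w E u x γ → Ψ x ≤ τ * vl w t → ∃ (x' γ' : _) (N : ℕ), Pt w E u x' γ' ∧ 0 < N ∧
    Ψ x' ≤ σ * (vl w t / N) ∧ VG w (Kc t c x') (vl w t / N)

theorem base (n : ℕ) (ε σ : ℝ) : Rd n n ε σ σ := by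
  intro Ω _ _ _ w E t u S Ψ _ x γ hx h
  refine ⟨x, γ, 1, hx, one_pos, by simpa using h, fun z hz => ?_⟩
  have l : Kc t n x ≤ Subfield.closure (((algebraMap ℂ Ω).fieldRange : Set Ω) ∪ {t}) :=
    Kc.le (fun a => Subfield.subset_closure (Or.inl ⟨a, rfl⟩))
      (Subfield.subset_closure (Or.inr rfl)) fun j hj => absurd j.2 (not_lt.2 hj)
  have := vg_t S.vs.na (K := (algebraMap ℂ Ω).fieldRange) (by
    rintro z ⟨a, rfl⟩ z0
    exact S.c1 a fun h => z0 (by simp [h])) S.t0 S.t1 z (l hz)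
  simpa using this

theorem num {C θ η σ σ' M g ν k ρ r r' m : ℝ} (C0 : 0 < C) (hθ : 0 < θ) (s0 : 0 < σ')
    (g0 : 0 < g) (k0 : 0 ≤ k) (η1 : 3 * C * η ≤ σ / 2) (s3 : C * (1 + C) * σ' * M ≤ σ / 2 * θ)
    (νθ : ν * θ ≤ 1) (kM : k ≤ M) (b2 : ρ - C * (σ' * (ν * k * g)) ≤ r) (e3 : -(η * g) ≤ r - r')
    (m1 : r - η * g ≤ m) : C * (σ' * (ν * k * g) + ρ + r' - 2 * m) ≤ σ * g := by
  have m2 : σ' * (ν * k * g) * θ ≤ σ' * M * g := by
    have : ν * θ * k ≤ M := by nlinarith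
    have := mul_le_mul_of_nonneg_left this (mul_pos s0 g0).le
    nlinarith
  have m3 : C * (1 + C) * (σ' * (ν * k * g)) ≤ σ / 2 * g := by
    refine le_of_mul_le_mul_right ?_ hθ
    have := mul_le_mul_of_nonneg_left m2 (show 0 ≤ C * (1 + C) by positivity)
    have := mul_le_mul_of_nonneg_right s3 g0.le
    nlinarith
  have m4 := mul_le_mul_of_nonneg_right η1 g0.le
  have m5 : σ' * (ν * k * g) + ρ + r' - 2 * m ≤ (1 + C) * (σ' * (ν * k * g)) + 3 * η * g := by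
    linarith
  have := mul_le_mul_of_nonneg_left m5 C0.le
  nlinarith

theorem num2 {C θ η σ' μ g h ρ r r' : ℝ} (C0 : 0 < C) (hθ : 0 < θ) (s0 : 0 < σ') (η0 : 0 < η)
    (μ0 : 0 < μ) (η2 : η ≤ θ / 4) (s2 : C * σ' ≤ θ / 4) (g1 : h ≤ μ) (g3 : g ≤ μ)
    (k1 : θ * μ ≤ ρ) (b2 : ρ - C * (σ' * h) ≤ r) (e4 : r - r' ≤ η * g) : 0 < r' := by
  have a := mul_le_mul_of_nonneg_left g1 (mul_pos C0 s0).le
  have b := mul_le_mul_of_nonneg_left g3 η0.le
  have c := mul_le_mul_of_nonneg_right s2 μ0.le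
  have d := mul_le_mul_of_nonneg_right η2 μ0.le
  have e := mul_pos hθ μ0
  nlinarith

omit [Algebra ℂ Ω] in
theorem mv_ge {y b : Ω} (b0 : b ≠ 0) (h : w y ≤ w b) {r' d : ℝ} (d0 : 0 ≤ d)
    (e : vl w b - r' ≤ d) : vl w b - d ≤ mv w y r' := by
  have : max (w y) (Real.exp (-r')) ≤ Real.exp (-(vl w b - d)) := by
    refine max_le (h.trans ?_) (Real.exp_le_exp.2 (by linarith))
    exact (exp_vl b0).symm.trans_le (Real.exp_le_exp.2 (by linarith))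
  have := Real.log_le_log (lt_max_of_lt_right (Real.exp_pos _)) this
  rw [Real.log_exp] at this
  unfold mv
  linarith

theorem vg_new [IsAlgClosed Ω] {E : Subfield Ω} {t a b : Ω} {u x x' : Fin n → Ω} (S : Se w E t u)
    {c : Fin n} (KL : Kc t (c + 1) x ≤ Lv E u c) (aL : a ∈ Lv E u c) (bE : b ∈ E) (b0 : b ≠ 0)
    {g : ℝ} {ν k : ℕ} {z : ℤ} (ν0 : 0 < ν) (hV : VG w (Kc t (c + 1) x) (ν * k * g))
    (hν : ∀ y ∈ Subfield.closure ((Kc t (c + 1) x : Set Ω) ∪ {a}), ∃ β ∈ Kc t (c + 1) x,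
      w y ^ ν = w β) (hb : vl w b = z * g) (xj : ∀ j, c < j → x' j = x j)
    (xc : x' c = a + b * u c) : VG w (Kc t c x') g := by
  have V1 : VG w (Subfield.closure ((Kc t (c + 1) x : Set Ω) ∪ {a})) g := fun y hy => by
    obtain ⟨β, hβ, e⟩ := hν y hy
    obtain ⟨i, hi⟩ := hV β hβ
    refine ⟨i * k, ?_⟩
    have : (ν : ℝ) * vl w y = vl w β := by
      simp only [vl, ← e, Real.log_pow]; ring
    refine mul_left_cancel₀ (show (ν : ℝ) ≠ 0 by positivity) ?_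
    rw [this, hi]; push_cast; ring
  have V2 := vg_gn S.vs.na (lv_cl u c) (Subfield.closure_le.2 (union_subset KL
    (singleton_subset_iff.2 aL))) (S.tw c) (le_lv u c bE) b0 V1 hb
  have i1 : ∀ y ∈ Subfield.closure ((Kc t (c + 1) x : Set Ω) ∪ {a}), y ∈ Subfield.closure
      ((Subfield.closure ((Kc t (c + 1) x : Set Ω) ∪ {a}) : Set Ω) ∪ {b * u c}) :=
    fun y hy => Subfield.subset_closure (Or.inl hy)
  refine fun y hy => V2 y ((?_ : Kc t c x' ≤ _) hy)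
  refine Kc.le (fun a => i1 _ (Subfield.subset_closure (Or.inl
    (Kc.con _ _ _ a)))) (i1 _ (Subfield.subset_closure (Or.inl (Kc.tm _ _ _)))) fun j hj => ?_
  rcases (show c ≤ j from hj).lt_or_eq with h | rfl
  · rw [xj j h]
    exact i1 _ (Subfield.subset_closure (Or.inl (Kc.xm _ _ h)))
  · rw [xc]
    exact add_mem (i1 _ (Subfield.subset_closure (Or.inr rfl)))
      (Subfield.subset_closure (Or.inr rfl))

open Classical in
theorem cen (mu : MULT) [IsAlgClosed Ω] {E : Subfield Ω} {t b : Ω} {u x γ : Fin n → Ω}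
    (S : Se w E t u) (hx : Pt w E u x γ) {c : Fin n} (b0 : b ≠ 0) (b1 : w b < 1)
    (b3 : vl w b ≤ vl w (γ c)) {W : Polynomial (Pn n)} {k : ℕ} {θ : ℝ} (hθ : 0 < θ) (hW : Dis W)
    (k0 : 0 < k) (kθ : θ * W.natDegree ≤ k)
    (kr : k ≤ ((W.map (ev t (cut (c + 1) x))).roots.filter
      fun β => w (β - (x c - γ c * u c)) ≤ w b).card) :
    Kc t (c + 1) x ≤ Lv E u c ∧ ∃ a ∈ Lv E u c, w a < 1 ∧ w (x c - a) ≤ w b ∧ ∃ ν : ℕ, 0 < ν ∧
      (ν : ℝ) * θ ≤ 1 ∧ ∀ y ∈ Subfield.closure ((Kc t (c + 1) x : Set Ω) ∪ {a}),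
        ∃ β ∈ Kc t (c + 1) x, w y ^ ν = w β := by
  have na := S.vs.na
  have KL : Kc t (c + 1) x ≤ Lv E u c := Kc.le (fun a => le_lv u c (S.cE a)) (le_lv u c S.tE)
    fun j hj => by
      rw [← hx.tri.lv c]
      exact sub_acl _ _ ⟨j, hj, rfl⟩
  obtain ⟨a', ν, al, aa, ν0, νk, hν⟩ := mu Ω w (Kc t (c + 1) x) _ _ _ k na S.vs.nat
    ⟨t⁻¹, inv_mem (Kc.tm _ _ _), by
      rw [map_inv₀]; exact (one_lt_inv₀ (w.pos S.t0)).2 S.t1⟩ (hW.1.map _)
    (fun i => by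
      rw [coeff_map]
      refine ev_Kc _ _ _ _ (fun j => ?_) _
      unfold cut
      split_ifs with h
      exacts [Kc.xm _ _ h, zero_mem _]) k0 kr
  rw [hW.1.natDegree_map] at νk
  have νθ : (ν : ℝ) * θ ≤ 1 := by
    have : (ν : ℝ) * k ≤ W.natDegree := by exact_mod_cast νk
    have k' : (0 : ℝ) < k := by exact_mod_cast k0
    nlinarith
  have aL : a' ∈ Lv E u c := by
    obtain ⟨p, p0, hp⟩ := al
    refine (lv_cl u c).root (f := p.map (algebraMap _ Ω)) (map_ne_zero p0) (fun i => ?_) ?_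
    · rw [coeff_map]; exact KL (p.coeff i).2
    · rw [IsRoot.def, eval_map_algebraMap, hp]
  have γ1 : w (γ c) ≤ w b := by
    rw [← exp_vl (w := w) b0, ← exp_vl (w := w) (hx.tri.ne c)]
    exact Real.exp_le_exp.2 (by linarith)
  have γu : w (γ c * u c) ≤ w b := by rw [map_mul, (S.tw c).one, mul_one]; exact γ1
  have xa : w (x c - a') ≤ w b := by
    have : x c - a' = γ c * u c - (a' - (x c - γ c * u c)) := by ring
    rw [this]
    exact (na_sub na _ _).trans (max_le γu aa)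
  have a1 : w a' < 1 := by
    have : a' = x c - (x c - a') := by ring
    rw [this]
    exact (na_sub na _ _).trans_lt (max_lt (hx.op c) (xa.trans_lt b1))
  exact ⟨KL, a', aL, a1, xa, ν, ν0, νθ, hν⟩

theorem consts {C θ σK σ : ℝ} (C0 : 0 < C) (hθ : 0 < θ) (hK : 0 < σK) (hσ : 0 < σ) (M : ℕ) :
    ∃ σ' : ℝ, 0 < σ' ∧ σ' ≤ σK ∧ C * σ' ≤ θ / 4 ∧ C * (1 + C) * σ' * (M + 1) ≤ σ / 2 * θ := by
  refine ⟨min σK (min (θ / (4 * C)) (σ / 2 * θ / (C * (1 + C) * (M + 1)))), by positivity,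
    min_le_left _ _, ?_, ?_⟩
  · have := (min_le_right σK _).trans
      (min_le_left (θ / (4 * C)) (σ / 2 * θ / (C * (1 + C) * (M + 1))))
    rw [le_div_iff₀ (by positivity)] at this
    linarith
  · have := (min_le_right σK _).trans
      (min_le_right (θ / (4 * C)) (σ / 2 * θ / (C * (1 + C) * (M + 1))))
    rw [le_div_iff₀ (by positivity)] at this
    linarith

theorem step (mu : MULT) {n : ℕ} (c : Fin n) (ke : KEY n c) (ε σ : ℝ) (hσ : 0 < σ) :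
    ∃ σ', 0 < σ' ∧ ∀ τ, Rd n (c + 1) ε σ' τ → Rd n c ε σ τ := by
  obtain ⟨C, θ, σK, hC, hθ, hK, ke⟩ := ke
  have C0 : 0 < C := by linarith
  obtain ⟨η, η0, η1, η2⟩ : ∃ η : ℝ, 0 < η ∧ 3 * C * η ≤ σ / 2 ∧ η ≤ θ / 4 :=
    ⟨min (σ / (6 * C)) (θ / 4), by positivity, by
      have := min_le_left (σ / (6 * C)) (θ / 4)
      rw [le_div_iff₀ (by positivity)] at this
      linarith, min_le_right _ _⟩
  obtain ⟨M, hM⟩ := dir 1 η η0
  obtain ⟨σ', s0, s1, s2, s3⟩ := consts C0 hθ hK hσ M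
  refine ⟨σ', s0, fun τ R => ?_⟩
  intro Ω _ _ _ w E t u S Ψ B x₀ γ₀ h₀ p₀
  obtain ⟨x, γ, N, hx, N0, hΨ, hV⟩ := R Ω w E t u S Ψ B x₀ γ₀ h₀ p₀
  have μ0 : 0 < vl w t := vl_pos S.t0 S.t1
  have N1 : (1 : ℝ) ≤ N := by exact_mod_cast N0
  have g1 : vl w t / N ≤ vl w t := div_le_self μ0.le N1
  have g0 : 0 < vl w t / N := by positivity
  obtain ⟨k1, k2, b, bE, b0, b1, b2, b3, W, k, hW, k0, kθ, kr⟩ :=
    ke Ω w E t u S Ψ ε B x γ (σ' * (vl w t / N)) hx (mul_pos s0 g0) hΨ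
      (mul_le_mul s1 g1 g0.le hK.le)
  obtain ⟨KL, a', aL, a1, xa, ν, ν0, νθ, hν⟩ := cen mu S hx b0 b1 b3 hθ hW k0 kθ kr
  obtain ⟨k', z, k'0, k'M, hz⟩ := hM fun _ => vl w b / (vl w t / (N * ν : ℕ))
  have hz := hz 0
  have p0 : 0 < N * ν * k' := by positivity
  obtain ⟨b', b'E, b'0, hb'⟩ := exists_val S.vs S.t0 (z 0) p0
  have k'2 : (k' : ℝ) ≤ M + 1 := by exact_mod_cast k'M.trans (Nat.le_succ M)
  have g3 : vl w t / ((N * ν * k' : ℕ) : ℝ) ≤ vl w t := div_le_self μ0.le (by exact_mod_cast p0)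
  have g2 : 0 < vl w t / ((N * ν * k' : ℕ) : ℝ) := by positivity
  have e1 : vl w t / N = ν * k' * (vl w t / ((N * ν * k' : ℕ) : ℝ)) := by push_cast; field_simp
  have e2 : vl w b - vl w b' = (k' * (vl w b / (vl w t / ((N * ν : ℕ) : ℝ))) - z 0) *
      (vl w t / ((N * ν * k' : ℕ) : ℝ)) := by
    rw [hb']; push_cast; field_simp
  suffices h : ∃ x' γ', Pt w E u x' γ' ∧ Ψ x' ≤ σ * (vl w t / ((N * ν * k' : ℕ) : ℝ)) ∧
      VG w (Kc t c x') (vl w t / ((N * ν * k' : ℕ) : ℝ)) by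
    obtain ⟨x', γ', a, b, c⟩ := h
    exact ⟨x', γ', _, a, p0, b, c⟩
  generalize vl w t / ((N * ν * k' : ℕ) : ℝ) = g at *
  obtain ⟨e3, e4⟩ : -(η * g) ≤ vl w b - vl w b' ∧ vl w b - vl w b' ≤ η * g := by
    rw [← abs_le, e2, abs_mul, abs_of_pos g2]
    exact mul_le_mul_of_nonneg_right hz g2.le
  have b'1 : w b' < 1 := lt_one b'0 (num2 C0 hθ s0 η0 μ0 η2 s2 g1 g3 k1 b2 e4)
  obtain ⟨x', γ', hx', xj, xc, hΨ'⟩ := k2 a' aL b' b'E b'0 a1 b'1
  rw [e1] at hΨ' b2 hV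
  exact ⟨x', γ', hx', hΨ'.trans (num C0 hθ s0 g2 (Nat.cast_nonneg _) η1 s3 νθ k'2 b2 e3
    (mv_ge b0 xa (mul_pos η0 g2).le e4)), vg_new S KL aL b'E b'0 ν0 hV hν hb' xj xc⟩

end Rn

theorem rounds : ROUNDS := fun mu ke n ε hε => by
  have : ∀ k c, k + c = n → ∀ σ, 0 < σ → ∃ τ, 0 < τ ∧ Rn.Rd n c ε σ τ := fun k => by
    induction k with
    | zero =>
      intro c h σ hσ
      obtain rfl : c = n := by omega
      exact ⟨σ, hσ, Rn.base _ _ _⟩
    | succ k ih =>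
      intro c h σ hσ
      obtain ⟨σ', s0, s⟩ := Rn.step mu ⟨c, by omega⟩ (ke n _) ε σ hσ
      obtain ⟨τ, τ0, R⟩ := ih (c + 1) (by omega) σ' s0
      exact ⟨τ, τ0, s τ R⟩
  obtain ⟨τ, τ0, R⟩ := this n 0 rfl (ε / 2) (by positivity)
  refine ⟨τ, τ0, fun Ω _ _ _ w E t u S Ψ B x γ hx => ?_⟩
  by_contra h
  obtain ⟨x', γ', N, hx', N0, hΨ, hV⟩ := R Ω w E t u S Ψ B x γ hx (not_le.1 h).le
  have g0 : 0 < vl w t / N := div_pos (Rn.vl_pos S.t0 S.t1) (by exact_mod_cast N0)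
  have := B.ms x' γ' _ hx' g0 fun p _ =>
    hV _ (Rn.ev_Kc _ _ _ _ (fun j => Rn.Kc.xm _ _ (Nat.zero_le _)) p)
  nlinarith

end Vale.Agent.P283B.Ls
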