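import Vale.Agent.P283B.LS.Tw
import Vale.Agent.P283B.MONO.Va1

/-!
# P283B, block LS: the step of the descending induction on correspondences (STEP)
-/

open Set

noncomputable section

namespace Vale.Agent.P283B.Ls

open Mono

variable {Ω : Type} [Field Ω] [Algebra ℂ Ω] {n : ℕ} {w : AbsoluteValue Ω ℝ}

omit [Algebra ℂ Ω] in
theorem mv_of_le {z : Ω} {l : ℝ} (h : w z ≤ Real.exp (-l)) : mv w z l = l := by
  rw [mv, max_eq_right h, Real.log_exp, neg_neg]

omit [Algebra ℂ Ω] in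
theorem exp_vl {z : Ω} (h : z ≠ 0) : Real.exp (-vl w z) = w z := by
  rw [vl, neg_neg, Real.exp_log (w.pos h)]

theorem Gd.mono {t : Ω} {S : Multiset (Fin n → Ω)} {κ κ' : ℝ} {x : Fin n → Ω} {H : Pn n}
    (h : Gd w t S κ x H) (k : κ' ≤ κ) : Gd w t S κ' x H := fun l₁ l₂ a b =>
  le_trans (mul_le_mul_of_nonneg_right (mul_le_mul_of_nonneg_right k (Nat.cast_nonneg _))
    (sub_nonneg.2 a)) (h l₁ l₂ a b)

theorem ss_zero (n : ℕ) : SS n 0 := by
  refine ⟨1, 1, 1, le_rfl, one_pos, one_pos, fun Ω _ _ _ w E t u _ Ψ ε A _ _ x γ s hx _ h _ =>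
    ⟨x, γ, 1, fun η => {η}, hx, fun _ _ => rfl, by rwa [one_mul], ⟨one_pos, fun _ _ => rfl,
      fun η a y hy => ?_, fun H => ⟨Polynomial.X - Polynomial.C H, fun η _ => by simp⟩⟩,
      fun H _ l₁ l₂ a b => ?_⟩⟩
  · rw [Multiset.mem_singleton.1 hy]
    exact ⟨a, fun _ _ => rfl⟩
  · have e : cut 0 x = x := funext fun j => if_pos (Nat.zero_le _)
    have b' : w (ev t x H) ≤ Real.exp (-l₁) := b.trans (Real.exp_le_exp.2 (neg_le_neg a))
    simp [fv, e, mv_of_le b, mv_of_le b']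

theorem step : STEP := fun co n => ⟨ss_zero n, fun c ⟨C₁, κ, σ₁, c1, κ0, σ1, hS⟩
    ⟨C₂, θ, σ₂, c2, θ0, σ2, hK⟩ => by
  classical
  have p : 1 ≤ C₂ * (1 + C₂) := by nlinarith
  have p0 : 0 < C₂ * (1 + C₂) := by linarith
  refine ⟨C₁ * (C₂ * (1 + C₂)), κ * θ, min σ₂ (σ₁ / (C₂ * (1 + C₂))), by nlinarith,
    by positivity, lt_min σ2 (by positivity),
    fun Ω _ _ _ w E t u se Ψ ε A bg hA x γ s hx s0 h hs => ?_⟩
  have hw := se.vs.na
  have μ0 : 0 ≤ vl w t := neg_nonneg.2 (Real.log_nonpos (w.nonneg _) se.t1.le)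
  obtain ⟨-, k2, b, bE, b0, b1, l1, l2, W, k, hW, k0, θk, hk⟩ := hK Ω w E t u se Ψ ε bg x γ s hx s0 h
    (hs.trans (mul_le_mul_of_nonneg_right (min_le_left _ _) μ0))
  have aM := hx.tri.cen c
  have g0 := hx.tri.ne c
  have g1 : w (γ c * u c) = w (γ c) := by rw [map_mul, (se.tw c).one, mul_one]
  have a1 : w (x c - γ c * u c) < 1 := by
    have := (se.tw c).lin hw (le_acl _ _ (hx.tri.mem c)) g0 (neg_mem aM)
    rw [show γ c * u c - -(x c - γ c * u c) = x c by ring, w.map_neg] at this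
    exact (le_max_right _ _).trans_lt (this ▸ hx.op c)
  obtain ⟨x₁, γ₁, p1, e1, e2, h1⟩ := k2 _ aM b bE b0 a1 b1
  rw [sub_sub_cancel, mv_of_le (by
    rw [g1, ← exp_vl g0]
    exact Real.exp_le_exp.2 (neg_le_neg l2))] at h1
  obtain ⟨x', γ', d, X, p', e', h', hX, hG⟩ := hS Ω w E t u se Ψ ε A bg hA x₁ γ₁
    (C₂ * (1 + C₂) * s) p1 (by positivity) (h1.trans (by nlinarith)) (by
      have := hs.trans (mul_le_mul_of_nonneg_right (min_le_right _ _) μ0)
      rwa [div_mul_eq_mul_div, le_div_iff₀ p0, mul_comm] at this)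
  obtain ⟨d', X', hX', hG'⟩ := co n Ω w E t u se c d k X x γ W _ b A hX hx hW k0 aM bE b0 a1 b1 hk hA
  have ec : cut c x₁ = Function.update (cut (c + 1) x) c (x c - γ c * u c + b * u c) := by
    funext j
    rcases lt_trichotomy j c with l | rfl | l
    · rw [Function.update_of_ne l.ne, cut, cut, if_neg (not_le.2 (show j.1 < c.1 from l)),
        if_neg (by have : j.1 < c.1 := l; omega)]
    · rw [Function.update_self, cut, if_pos le_rfl, e2]
    · rw [Function.update_of_ne l.ne', cut, cut, if_pos (show c.1 ≤ j.1 from l.le),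
        if_pos (show c.1 + 1 ≤ j.1 from l), e1 j l]
  refine ⟨x', γ', d', X', p', fun j hj => (e' j (by omega)).trans (e1 j hj),
    by rwa [mul_assoc], hX', fun H hH => (hG' H hH κ x' κ0.le (ec ▸ hG H hH)).mono ?_⟩
  have d0 : 0 < W.natDegree := k0.trans_le (hk.trans ((Multiset.card_le_card
    (Multiset.filter_le _ _)).trans ((Polynomial.card_roots' _).trans Polynomial.natDegree_map_le)))
  rw [mul_div_assoc]
  exact mul_le_mul_of_nonneg_left ((le_div_iff₀ (Nat.cast_pos.2 d0)).2 θk) κ0.le⟩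

end Vale.Agent.P283B.Ls
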