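import Vale.Agent.P283B.LS.St
import Vale.Agent.P283B.LS.RealA

/-!
# P283B, block LS: places over a triangular point are triangular points (REAL)
-/

namespace Vale.Agent.P283B.Ls

theorem real : REAL := fun _ _ _ _ _ _ _ _ _ se _ _ _ _ _ c γ τ _ h tri hT k =>
  Re.real se h.ind h.gen c γ τ tri hT k

end Vale.Agent.P283B.Ls
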