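import Vale.Agent.P283B.LS.DiagA

/-!
# P283B, block LS: the place of the fibre power which is adapted to the diagonal
-/

set_option linter.unusedVariables false
set_option linter.unusedSectionVars false

open Set MvPolynomial
open Vale.Agent.P297 (Place)
open Vale.Agent.P297Z Vale.Agent.P287D Vale.Agent.P287D.Cb

noncomputable section

namespace Vale.Agent.P283B.Ld

open Wp Ls Bi

theorem ind_of_sub {Ω β γ : Type} [Field Ω] [Algebra ℂ Ω] [Fintype β] [Fintype γ] {b : β → Ω}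
    {g : γ → Ω} (hg : AlgebraicIndependent ℂ g) (m : ∀ i, g i ∈ Gm.Cl (range b))
    (c : Fintype.card β ≤ Fintype.card γ) : AlgebraicIndependent ℂ b := by
  obtain ⟨S, hS⟩ : ∃ S, S = Gm.Cl (range b) := ⟨_, rfl⟩
  rw [← hS] at m
  let b' : β → S := fun i => ⟨b i, hS.ge (Gm.sub_Cl ⟨i, rfl⟩)⟩
  have : Algebra.IsAlgebraic (Algebra.adjoin ℂ (range b')) S := ⟨fun x => Gm.mem_Cl.1
    (Gm.cl_of_map S.val (by rw [← range_comp]; exact hS.le x.2))⟩
  have g' : AlgebraicIndependent ℂ fun i => (⟨g i, m i⟩ : S) := .of_comp S.val hg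
  exact (Algebra.IsAlgebraic.isTranscendenceBasis_of_le_trdeg_of_finite ℂ b'
    (le_trans (by simp [c]) g'.cardinalMk_le_trdeg)).1.map' (f := S.val) Subtype.val_injective

variable {L F E ι σ : Type} [Field L] [Field F] [Field E] [Algebra ℂ L] [Algebra ℂ F]
  [Algebra ℂ E] [Algebra L F] [IsScalarTower ℂ L F] [Fintype ι] [Fintype σ] {s k : ℕ}
  {φ : L →ₐ[ℂ] E} {ψ : Fin s → F →ₐ[ℂ] E} {v : Pl L} {P : Pl F} {z : Fin k → L} {x : ι → F}

/-- the derivations along the fibres are logarithmic -/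
theorem exists_dv [DecidableEq ι] (hL : FF L (k + 1)) (hF : FF F (Fintype.card ι + (k + 1)))
    (l : Lies (algebraMap L F) P v) (a : Az P (g1 z x)) (b : AlgebraicIndependent L x) :
    ∃ D : ι → Derivation L F F, (∀ a b, D a (x b) = if a = b then 1 else 0) ∧
      ∀ a, De (D a) ∧ Lg P (D a) := by
  have : CharZero L := charZero_of L
  choose D hD using fun a => P297.H927.exists_derivation_of_basis
    (b.isTranscendenceBasis_of_trdeg_le_of_finite (by simp [trdegL hL hF]))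
    fun b => if a = b then (1 : F) else 0
  refine ⟨D, hD, fun i => ?_⟩
  have d : De (D i) := ⟨fun x y => map_add _ x y, fun x y => (D i).leibniz x y⟩
  let e : Fin (Fintype.card ι + k) ≃ Fin k ⊕ ι :=
    (Fintype.equivFinOfCardEq (by simp [add_comm])).symm
  have A : Ada P P.t (g1 z x ∘ e) := ⟨P.ord_t, fun _ => a.mem _, a.ind.comp _ e.injective⟩
  have m : ∀ j, D i (g1 z x j) ∈ P.ring := by
    rintro (j | j)
    · exact ((D i).map_algebraMap _).symm ▸ zero_mem _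
    · rw [g1, Sum.elim_inr, hD]
      split_ifs
      exacts [one_mem _, zero_mem _]
  have c0 : ∀ c, D i (algebraMap ℂ F c) = 0 := fun c => by
    rw [← lin L F, Derivation.map_algebraMap]
  obtain ⟨c, hc⟩ := exists_pow P fun _ : Unit => D i P.t / P.t
  exact ⟨d, lg_of d (A.sp hF) (by rintro _ ⟨j, rfl⟩; exact m _) (fun c => by simp [c0])
    l.e_pos.ne' (by simp) c (A.lg hF (d.smul _) (by rw [mul_div_assoc]; exact hc ())
      (fun j => mul_mem (pow_mem (t_mem P) _) (m _)) fun c => by simp [c0])⟩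

theorem Fp.up (h : Fp ι (k + 1) φ ψ) {y : σ ⊕ ι → F} {Y : σ ⊕ ι × Fin s → E} (hy : Rf y)
    (hY : Rf Y) (cσ : Fintype.card σ = k + 1) (eY : ∀ j i, ψ j (y i) = Y (Ls.cp j i))
    (ey : ∀ b, y (.inl b) ∈ range (algebraMap L F)) (l : Lies (algebraMap L F) P v)
    (az : Az P (g1 z x)) (hx : AlgebraicIndependent L x) (p : MvPolynomial (σ ⊕ ι × Fin s) ℂ)
    (hp : aeval y (rename dg p) ≠ 0) : ∃ w : Pl E, (∀ j, Lies (ψ j : F →+* E) w P) ∧
      Az w (gs φ ψ z fun _ => x) ∧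
      ∀ j, w.ord (aeval Y p) ≤ w.ord (ψ j P.t) * P.ord (aeval y (rename dg p)) := by
  classical
  obtain ⟨D, hD, lg⟩ := exists_dv h.fL h.fF l az hx
  let _ : Algebra ℂ P.ring := ((algebraMap ℂ F).codRestrict P.ring P.con).toAlgebra
  have := P.dvr
  let ρ : P.ring →ₐ[ℂ] P.κ :=
    { IsLocalRing.residue P.ring with commutes' := fun _ => rfl }
  let d : ι → P.ring → P.ring := fun a f => ⟨D a f, (lg a).2.rg (lg a).1 _ f.2⟩
  let t : P.ring := ⟨P.t, t_mem P⟩
  let u : Fin k ⊕ ι → P.ring := fun i => ⟨_, az.mem i⟩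
  have dv : ∀ a : P.ring, t ∣ a ↔ Mx P a := fun a =>
    ⟨fun ⟨b, e⟩ => e ▸ mx_t b.2, fun m => ⟨⟨_, m⟩, Subtype.ext (mul_div_cancel₀ _ P.t_ne).symm⟩⟩
  have t0 : t ≠ 0 := fun e => P.t_ne (congrArg Subtype.val e)
  obtain ⟨A, Q, _, _, _, _, _, _, ν, T, c, e, q⟩ := exists_cp (Fin s) ρ (d := d) (t := t)
    (x := fun a => u (.inr a)) (u := u) ⟨fun a f g => Subtype.ext (map_add _ _ _),
      fun a f g => Subtype.ext (((D a).leibniz _ _).trans (by simp [d]; ring))⟩ t0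
    (fun a => by rw [dv, ← rd_eq_zero a.2, rd_of a.2]; rfl)
    (fun a c => Subtype.ext ((congrArg (D a) (lin L F c).symm).trans ((D a).map_algebraMap _)))
    (fun a => (dv _).2 ((lg a).2 _))
    (fun a b => Subtype.ext ((hD a b).trans (by split_ifs <;> rfl)))
    ((congrArg (fun w => AlgebraicIndependent ℂ w) (funext fun i => rd_of (az.mem i))).mp az.ind)
  let Ω := FractionRing A
  let μ := IsScalarTower.toAlgHom ℂ A Ω
  have iμ : Function.Injective μ := IsFractionRing.injective A Ω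
  have ext : ∀ T : P.ring →ₐ[ℂ] A, (∀ f, e (T f) = f) → ∃ τ : F →ₐ[ℂ] Ω,
      ∀ f : P.ring, τ f = μ (T f) := fun T hT => by
    have i : Function.Injective ((μ.comp T : P.ring →ₐ[ℂ] Ω) : P.ring →+* Ω) :=
      iμ.comp (Function.LeftInverse.injective hT)
    have k : ∀ f : P.ring, IsFractionRing.lift i (f : F) = μ (T f) :=
      IsFractionRing.lift_algebraMap i
    exact ⟨ah _ fun a => (k (algebraMap ℂ _ a)).trans ((μ.comp T).commutes a), k⟩
  choose τ hτ using fun j => ext (T j) (q.eT j)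
  obtain ⟨c', hc⟩ := ext c q.ec
  have cs : ∀ j a, τ j (algebraMap L F a) = c' (algebraMap L F a) := fun j a => by
    have k : ∀ a (m : algebraMap L F a ∈ P.ring), τ j (algebraMap L F a) = c' (algebraMap L F a) :=
      fun a m => (hτ j ⟨_, m⟩).trans ((congrArg μ (q.cst j _ fun b => Subtype.ext
        ((D b).map_algebraMap a))).trans (hc _).symm)
    refine (P.ring.mem_or_inv_mem _).elim (k a) fun m => inv_injective ?_
    simpa only [map_inv₀] using k a⁻¹ (by rwa [map_inv₀])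
  let b : σ ⊕ ι × Fin s → Ω := Sum.elim (fun b => c' (y (.inl b))) fun p => τ p.2 (y (.inr p.1))
  have eb : ∀ j i, τ j (y i) = b (Ls.cp j i) := by
    rintro j (i | i)
    · obtain ⟨a, ha⟩ := ey i
      exact (ha ▸ cs j a : τ j (y (.inl i)) = c' (y (.inl i)))
    · rfl
  let G : Fin k ⊕ ι × Fin s → A :=
    Sum.elim (fun m => c (u (.inl m))) fun p => T p.2 (u (.inr p.1))
  have iG : AlgebraicIndependent ℂ fun i => ν (G i) :=
    (congrArg (fun w => AlgebraicIndependent ℂ w) (funext (by rintro (i | i) <;> rfl))).mp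
      (q.ind.comp (Sum.elim (fun m => .inr (.inl m)) .inl : Fin k ⊕ ι × Fin s → _) (by
        rintro (i | i) (j | j) <;> simp))
  have nz : c t ≠ 0 := fun z => t0 (by rw [← q.ec t, z, map_zero])
  have mx : ∀ j f, Mx P (f : P.ring) → ν (T j f) = 0 := fun j f m => by
    obtain ⟨g, rfl⟩ := (dv f).2 m
    obtain ⟨o, o1, -⟩ := q.un j
    rw [q.ker, map_mul, o1, mul_assoc]
    exact dvd_mul_right _ _
  let j₀ : Fin s := ⟨0, h.pos⟩
  let tv : P.ring := ⟨_, (l _).1 (t_mem v)⟩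
  have cl : ∀ j f, τ j f ∈ Gm.Cl (range b) := fun j f => Gm.cl_map (ρ := (τ j : F →+* Ω))
    (fun c => ⟨c, ((τ j).commutes c).symm⟩) (forall_mem_range.2 fun i => Gm.sub_Cl ⟨_, (eb j i).symm⟩)
    (Gm.cl_basis h.fF hy.ind (by simp [cσ, add_comm]) f)
  have ib : AlgebraicIndependent ℂ b := ind_of_sub ((Pb.option_ind0 ν G iG (T j₀ tv)
    (fun z => (map_ne_zero _).2 v.t_ne (congrArg Subtype.val ((q.eT j₀ tv).symm.trans
      ((congrArg e z).trans (map_zero e))))) (mx _ _ (mx_iff.2 (.inr l.e_pos)))).map' iμ) (by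
      rintro (_ | i | i)
      · exact (hτ j₀ tv ▸ cl _ _ : μ _ ∈ _)
      · exact (((cs j₀ _).trans (hc (u (.inl i)))) ▸ cl _ _ : μ _ ∈ _)
      · exact (hτ i.2 (u (.inr i.1)) ▸ cl _ _ : μ _ ∈ _)) (by simp [cσ]; omega)
  obtain ⟨Θ, hΘ⟩ := rf_hom hY ib
  have Θψ : ∀ j f, Θ (ψ j f) = τ j f := fun j => DFunLike.congr_fun (rf_ext hy
    (τ := Θ.comp (ψ j)) fun i => by rw [AlgHom.comp_apply, eY, hΘ, eb])
  have pr := RingHom.ker_isPrime ν
  obtain ⟨V, hV⟩ := Gm.Ga.mk_place (E := Ω) (RingHom.ker ν) ((q.ker _).2 dvd_rfl) nz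
    fun a ha => let ⟨b, e⟩ := (q.ker a).1 ha; ⟨b, e.trans (mul_comm _ _)⟩
  have V1 : ∀ a o, ν o ≠ 0 → μ a / μ o ∈ V.ring := fun a o k => (hV _).2 ⟨a, o, k, div_eq_mul_inv _ _⟩
  have V2 : ∀ a, ν a = 0 → (μ a)⁻¹ ∈ V.ring → a = 0 := fun a k m => by
    obtain ⟨a', o, o1, o2⟩ := (hV _).1 m
    by_contra a0
    have o0 : μ o ≠ 0 := (map_ne_zero_iff _ iμ).2 fun z => o1 (by simp [z])
    have a1 := (map_ne_zero_iff _ iμ).2 a0
    refine o1 (RingHom.mem_ker.2 ?_)
    rw [show o = a * a' from iμ (by rw [map_mul, show μ a' = (μ a)⁻¹ * μ o from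
      ((eq_mul_inv_iff_mul_eq₀ o0).1 o2).symm, mul_inv_cancel_left₀ a1]), map_mul, k, zero_mul]
  have li : ∀ j f, f ∈ P.ring ↔ τ j f ∈ V.ring := fun j f => by
    refine ⟨fun m => by simpa [hτ j ⟨f, m⟩] using V1 (T j ⟨f, m⟩) 1 (by simp), fun m => ?_⟩
    by_contra n
    have m' := (P.ring.mem_or_inv_mem f).resolve_left n
    have := V2 _ (mx j ⟨_, m'⟩ (by_contra fun z => n (inv_inv f ▸ inv_mem_of z)))
      (by rwa [← hτ, map_inv₀, inv_inv])
    have := congrArg Subtype.val ((q.eT j _).symm.trans ((congrArg e this).trans (map_zero e)))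
    exact n (inv_eq_zero.1 this ▸ zero_mem _)
  have ΘG : ∀ i, Θ (gs φ ψ z (fun _ => x) i) = μ (G i) := by
    rintro (i | i)
    · exact (congrArg Θ (h.sq j₀ _).symm).trans ((Θψ _ _).trans ((cs _ _).trans (hc (u (.inl i)))))
    · exact (Θψ _ _).trans (hτ _ (u (.inr i.1)))
  let a : Fin (k + Fintype.card ι * s) ≃ Fin k ⊕ ι × Fin s :=
    (Fintype.equivFinOfCardEq (by simp)).symm
  have iU : AlgebraicIndependent ℂ (gs φ ψ z fun _ => x) := .of_comp Θ
    ((congrArg (fun w => AlgebraicIndependent ℂ w) (funext ΘG)).mpr ((iG.of_comp ν).map' iμ))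
  obtain ⟨w, hw, aw⟩ := Gm.pl_of (n := k + Fintype.card ι * s) (by convert h.fE using 1; omega)
    ⟨_, Pb.dvr_comap (Θ : E →+* Ω) V fun z => not_mx_one ((li j₀ _).2 (Θψ j₀ _ ▸
      (z ▸ ValuationSubring.mem_top _ : ψ j₀ (1 / P.t) ∈ V.ring.comap (Θ : E →+* Ω))))⟩
    (IntermediateField.adjoin ℂ (range (gs φ ψ z fun _ => x))) (fun f => by
      obtain ⟨r, o, e⟩ := (IntermediateField.mem_adjoin_range_iff ℂ _ _).1 f.2
      change Θ f.1 ∈ V.ring
      by_cases o0 : o = 0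
      · simp [e, o0]
      rw [e, map_div₀, comp_aeval_apply, comp_aeval_apply, funext ΘG, ← comp_aeval_apply,
        ← comp_aeval_apply]
      exact V1 _ _ fun z => o0 (algebraicIndependent_iff.1 iG _ (comp_aeval_apply G ν o ▸ z)))
    (iU.comp _ a.injective) fun i => IntermediateField.subset_adjoin _ _ ⟨_, rfl⟩
  have W : ∀ f, f ∈ w.ring ↔ Θ f ∈ V.ring := fun f => by rw [hw]; rfl
  have lw : ∀ j, Lies (ψ j : F →+* E) w P := fun j f => by rw [li j, W, ← Θψ]; rfl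
  refine ⟨w, lw, ⟨fun i => a.apply_symm_apply i ▸ aw.mem _,
    (algebraicIndependent_equiv' a rfl).1 aw.ind⟩, fun j => ?_⟩
  have r0 : ∀ j f, ∃ (n : ℕ) (a : A), τ j f * μ (c t) ^ n = μ a ∧ f * P.t ^ n = e a := fun j f => by
    obtain ⟨n, hn⟩ := exists_pow P fun _ : Unit => f
    obtain ⟨o, o1, o2⟩ := q.un j
    refine ⟨n, T j ⟨_, hn ()⟩ * ↑o⁻¹ ^ n, ?_, ?_⟩
    · rw [map_mul, ← hτ, map_mul, map_pow, hτ j t, o1, mul_right_comm, map_pow, ← mul_pow,
        ← map_mul μ, Units.mul_inv_cancel_right, mul_comm]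
    · have : e ↑o⁻¹ = 1 := by rw [← one_mul (e _), ← o2, ← map_mul, o.mul_inv, o2, map_one]
      rw [map_mul, map_pow, this, one_pow, mul_one, q.eT, mul_comm]
  have R : ∀ p, ∃ (n : ℕ) (a : A), aeval b p * μ (c t) ^ n = μ a ∧
      aeval y (rename dg p) * P.t ^ n = e a := fun p => by
    induction p using MvPolynomial.induction_on with
    | C a => exact ⟨0, algebraMap ℂ A a, by simp, by simp; rfl⟩
    | add p r hp hr =>
      obtain ⟨n, a, h1, h2⟩ := hp
      obtain ⟨m, a', h3, h4⟩ := hr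
      refine ⟨n + m, a * c t ^ m + a' * c t ^ n, ?_, ?_⟩
      · simp only [map_add, map_mul, map_pow, ← h1, ← h3]
        ring
      · simp only [map_add, map_mul, map_pow, q.ec]
        push_cast
        rw [← h2, ← h4]
        ring
    | mul_X p i hp =>
      obtain ⟨n, a, h1, h2⟩ := hp
      obtain ⟨j', hj⟩ : ∃ j', τ j' (y (dg i)) = b i := by
        rcases i with i | ⟨i, j'⟩
        exacts [⟨j, eb j (.inl i)⟩, ⟨j', rfl⟩]
      obtain ⟨m, a', h3, h4⟩ := r0 j' (y (dg i))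
      refine ⟨n + m, a * a', ?_, ?_⟩
      · simp only [map_mul, aeval_X, ← h1, ← h3, hj]
        ring
      · simp only [map_mul, rename_X, aeval_X]
        push_cast
        rw [← h2, ← h4]
        ring
  obtain ⟨n, a, h1, h2⟩ := R p
  have f0 := mul_ne_zero hp (pow_ne_zero n P.t_ne)
  have a0 : a ≠ 0 := fun z => f0 (by simp [h2, z])
  have g0 : aeval Y p ≠ 0 := fun z => a0 (iμ (by
    rw [← h1, ← funext hΘ, ← comp_aeval_apply, z, map_zero, map_zero, zero_mul]))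
  obtain ⟨m, a', n1, rfl⟩ := WfDvdMonoid.max_power_factor' (x := c t) a0 fun z => (z.map ν).ne_zero ((q.ker _).2 dvd_rfl)
  obtain ⟨o, o1, -⟩ := q.un j
  have s0 := (map_ne_zero (ψ j)).2 P.t_ne
  have i1 := Pl.ord_nonneg_of_mem _ ((W (ψ j P.t ^ m / (aeval Y p * ψ j P.t ^ n))).2 (by
    rw [map_div₀, map_mul, map_pow, map_pow, Θψ, comp_aeval_apply, funext hΘ, hτ j t, o1, map_mul,
      mul_pow, mul_pow, ← mul_assoc, h1, map_mul, map_pow, mul_assoc,
      mul_div_mul_left _ _ (pow_ne_zero _ ((map_ne_zero_iff _ iμ).2 nz)), ← map_pow, ← map_pow,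
      ← map_mul]
    exact V1 _ _ (by
      rw [map_mul, map_pow]
      exact mul_ne_zero (mt (q.ker _).1 n1) (pow_ne_zero _ (o.isUnit.map ν).ne_zero))))
  rw [Pl.ord_div _ (pow_ne_zero _ s0) (mul_ne_zero g0 (pow_ne_zero _ s0)),
    Pl.ord_mul _ g0 (pow_ne_zero _ s0), Pl.ord_pow, Pl.ord_pow] at i1
  rw [map_mul, map_pow, q.ec, MulMemClass.coe_mul, SubmonoidClass.coe_pow] at h2
  have i2 := congrArg P.ord h2
  have i3 := Pl.ord_nonneg_of_mem _ (e a').2
  have i4 : 0 < w.ord (ψ j P.t) := (lw j).e_pos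
  rw [Pl.ord_mul _ hp (pow_ne_zero _ P.t_ne), Pl.ord_mul _ (pow_ne_zero _ P.t_ne)
    (right_ne_zero_of_mul (h2 ▸ f0)), Pl.ord_pow, Pl.ord_pow, P.ord_t] at i2
  nlinarith

end Vale.Agent.P283B.Ld

namespace Vale.Agent.P283B.Ls

open Wp Ld Bi

/-- **DIAG** -/
theorem diag : DIAG := by
  intro L F E σ ι _ _ _ _ _ _ _ _ s z y Y φ φ' ψ s0 hz hy hY e1 e2 e3
  let _ := (φ : L →+* F).toAlgebra
  have : IsScalarTower ℂ L F := .of_algebraMap_eq fun c => (φ.commutes c).symm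
  have h : Fp ι (Fintype.card σ) φ' ψ := ⟨rf_ff hz rfl, rf_ff hy (by simp [add_comm]),
    rf_ff hY (by simp), s0, fun j => DFunLike.congr_fun (rf_ext hz (τ := (ψ j).comp φ) fun b => by
      rw [AlgHom.comp_apply, e1, e3, e2]; rfl), fun S k x => (IntermediateField.adjoin_le_iff.2 (by
        rintro _ ⟨i | ⟨i, j⟩, rfl⟩
        exacts [e3 ⟨0, s0⟩ (.inl i) ▸ k _ _, e3 j (.inr i) ▸ k _ _]) : _ ≤ S)
      (hY.gen ▸ IntermediateField.mem_top)⟩
  have g : g1 z (fun i => y (.inr i)) = y := funext (by rintro (i | i); exacts [e1 i, rfl])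
  have g' : gs φ' ψ z (fun _ i => y (.inr i)) = Y :=
    funext (by rintro (i | ⟨i, j⟩); exacts [e2 i, e3 j (.inr i)])
  have b : AlgebraicIndependent L fun i => y (.inr i) := indL h.fL h.fF rfl rfl (z := z)
    ((algebraicIndependent_equiv' (Equiv.sumComm _ _) (by
      funext i; rcases i with i | i; exacts [rfl, (e1 i).symm])).2 hy.ind)
  have d : ∀ w, df φ' ψ z (fun _ i => y (.inr i)) w = kq Y w + 1 - (∑ j, pb (ψ j : F →+* E)
      (kq y + 1) w - (s - 1) * pb (φ' : L →+* E) (kq z + 1) w) := fun w => by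
    simp only [df, g, g', Pi.add_apply, Pi.sub_apply, Finset.sum_apply, Pi.smul_apply, smul_eq_mul,
      Pi.one_apply]
    ring
  refine ⟨fun w => sub_nonneg.1 (d w ▸ h.ge rfl hz.ind (fun _ => b) w), fun P p t hp => ?_⟩
  obtain ⟨v, l⟩ := (h.fF.ok φ P).resolve_left t
  obtain ⟨k, c⟩ : ∃ k, Fintype.card σ = k + 1 :=
    Nat.exists_eq_add_one_of_ne_zero fun z => no_pl (z ▸ h.fL) v
  rw [c] at h
  obtain ⟨u, hu⟩ := exists_az h.fL v
  obtain ⟨x, a1, a2, a3⟩ := ad_vt h.fL h.fF hu (by simp) l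
  have r := h.re (by simp) (Fintype.card_fin _) a2 a3
  obtain ⟨w, lw, aw, k⟩ := h.up hy hY c e3 (fun b => ⟨_, e1 b⟩) l (z := u) (by
    let e := (Equiv.sumComm _ _).trans ((Fintype.equivOfCardEq (Fintype.card_fin _)).symm.sumCongr
      (.refl (Fin k)) : ι ⊕ _ ≃ _)
    exact ⟨by rintro (i | i); exacts [a1.mem (.inr i), a1.mem (.inl _)],
      (congrArg (fun w => AlgebraicIndependent ℂ w) (funext (by rintro (i | i) <;> rfl))).mp
        (a1.ind.comp e e.injective)⟩) r.1 p hp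
  have lv : Lies (φ' : L →+* E) w v := h.cmp ⟨0, s0⟩ ▸ (lw _).comp l
  refine ⟨w, lw, sub_eq_zero.1 ?_, k⟩
  rw [← d, h.chg (by simp) hu.indep (fun _ => r.1) c hz.ind fun _ => b, h.val (by simp)
    (fun j => .inr ⟨P, lw j, r.2⟩) (.inr ⟨v, lv, hu.ap h.fL (by simp)⟩), sub_eq_zero]
  exact ap_of h.fE (h.cs (by simp)) (oL _ _) lv.e_pos
    (by rintro (i | i); exacts [aw.mem (.inl i), aw.mem (.inr i)])
    ((congrArg (fun w => AlgebraicIndependent ℂ w) (funext (by rintro (i | i) <;> rfl))).mp aw.ind)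

end Vale.Agent.P283B.Ls
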