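import Vale.Agent.P283B.LS.Tw
import Vale.Agent.P283B.MONO.Va1

/-!
# P283B, block LS: a disc which contains many roots has few conjugates (MULT)
-/

open Set Polynomial Filter Topology

noncomputable section

namespace Vale.Agent.P283B.Ls

open Mono

namespace Mu

variable {Ω : Type} [Field Ω] {w : AbsoluteValue Ω ℝ}

/-- the terms of the Taylor expansion at `b` on the disc of radius `s` -/
def tm (w : AbsoluteValue Ω ℝ) (f : Polynomial Ω) (b : Ω) (s : ℝ) (i : ℕ) : ℝ :=
  w ((hasseDeriv i f).eval b) * s ^ i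

/-- `j` is the last dominant index -/
def Dom (a : ℕ → ℝ) (j : ℕ) : Prop := (∀ i, a i ≤ a j) ∧ ∀ i, j < i → a i < a j

theorem Dom.uniq {a : ℕ → ℝ} {j k : ℕ} (h : Dom a j) (h' : Dom a k) : j = k := by
  rcases lt_trichotomy j k with b | b | b
  · exact absurd (h.2 k b) (h'.1 j).not_gt
  · exact b
  · exact absurd (h'.2 j b) (h.1 k).not_gt

open Classical in
/-- the number of roots in a closed disc -/
def cnt (w : AbsoluteValue Ω ℝ) (f : Polynomial Ω) (b : Ω) (s : ℝ) : ℕ :=
  (f.roots.filter fun ρ => w (ρ - b) ≤ s).card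

theorem roots_taylor (f : Polynomial Ω) (b : Ω) : (taylor b f).roots = f.roots.map fun ρ => ρ - b := by
  have := map_roots_comp_C_mul_X_add_C f 1 b isUnit_one
  rw [← this, Multiset.map_map]
  simp [taylor_apply]

theorem prod_max (m : Multiset Ω) (b : Ω) {s c : ℝ} (hs : 0 < s) (hc : 1 ≤ c)
    (h : ∀ ρ ∈ m, w (ρ - b) ≤ s ∨ s * c ≤ w (ρ - b)) :
    (m.map fun ρ => max (s * c) (w (ρ - b))).prod = (m.map fun ρ => max s (w (ρ - b))).prod *
      c ^ (m.filter fun ρ => w (ρ - b) ≤ s).card := by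
  classical
  have sc : s ≤ s * c := by nlinarith
  induction m using Multiset.induction_on with
  | empty => simp
  | cons a m ih =>
    rw [Multiset.map_cons, Multiset.map_cons, Multiset.prod_cons, Multiset.prod_cons,
      ih fun ρ hρ => h ρ (by simp [hρ])]
    by_cases k : w (a - b) ≤ s
    · rw [Multiset.filter_cons_of_pos (p := fun ρ => w (ρ - b) ≤ s) _ k, Multiset.card_cons,
        max_eq_left k,
        max_eq_left (k.trans sc)]
      ring
    · rw [Multiset.filter_cons_of_neg (p := fun ρ => w (ρ - b) ≤ s) _ k,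
        max_eq_right ((h a (by simp)).resolve_left k),
        max_eq_right (not_le.1 k).le]
      ring

theorem dom_cnt [IsAlgClosed Ω] (hw : IsNonarchimedean w) {f : Polynomial Ω} (hf : f ≠ 0) (b : Ω) {s : ℝ}
    (hs : 0 < s) : Dom (tm w f b s) (cnt w f b s) ∧ 0 < tm w f b s (cnt w f b s) := by
  classical
  have e : ∀ᶠ l in 𝓝[>] (1 : ℝ), ∀ ρ ∈ f.roots.toFinset,
      w (ρ - b) ≤ s ∨ s * l ^ 2 ≤ w (ρ - b) := by
    refine eventually_nhdsWithin_of_eventually_nhds ((Finset.eventually_all _).2 fun ρ _ => ?_)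
    rcases le_or_gt (w (ρ - b)) s with k | k
    · exact .of_forall fun _ => Or.inl k
    · have c : ContinuousAt (fun l : ℝ => s * l ^ 2) 1 := by fun_prop
      exact (c.eventually_lt continuousAt_const (by simpa using k)).mono fun _ a => Or.inr a.le
  obtain ⟨l, hl, l1⟩ := (e.and self_mem_nhdsWithin).exists
  have l1 : 1 < l := l1
  have l0 : 0 < l := by linarith
  have G : ∀ c : ℝ, 1 ≤ c → c ≤ l ^ 2 → (taylor b f).gaussNorm w (s * c) =
      (taylor b f).gaussNorm w s * c ^ cnt w f b s := fun c c1 c2 => by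
    rw [gn_roots hw (by positivity), gn_roots hw hs, roots_taylor, Multiset.map_map,
      Multiset.map_map, mul_assoc]
    congr 1
    refine prod_max _ b hs c1 fun ρ hρ => (hl ρ (Multiset.mem_toFinset.2 hρ)).imp_right ?_
    exact fun a => le_trans (by gcongr) a
  set N := cnt w f b s
  set g := (taylor b f).gaussNorm w s with hg
  have g0 : 0 < g := lt_of_le_of_ne (gaussNorm_nonneg w _ hs.le) fun h =>
    hf ((taylor_eq_zero b f).1 ((gaussNorm_eq_zero_iff w _ (fun _ => w.eq_zero.1) hs).1 h.symm))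
  have a0 : ∀ i, tm w f b s i ≤ g := fun i => by
    rw [tm, ← taylor_coeff]
    exact le_gaussNorm w _ hs.le i
  have a2 : ∀ i, tm w f b s i * (l ^ 2) ^ i ≤ g * (l ^ 2) ^ N := fun i => by
    rw [← G _ (by nlinarith) le_rfl, tm, ← taylor_coeff, mul_assoc, ← mul_pow]
    exact le_gaussNorm w _ (by positivity) i
  obtain ⟨k, hk⟩ := (taylor b f).exists_eq_gaussNorm w (s * l)
  rw [G l l1.le (by nlinarith), taylor_coeff, mul_pow, ← mul_assoc] at hk
  change g * l ^ N = tm w f b s k * l ^ k at hk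
  have k1 : N ≤ k := by
    have : g * l ^ N ≤ g * l ^ k := hk ▸ mul_le_mul_of_nonneg_right (a0 k) (by positivity)
    exact (pow_le_pow_iff_right₀ l1).1 (le_of_mul_le_mul_left this g0)
  have k2 : k ≤ N := by
    have h := a2 k
    rw [sq, mul_pow, mul_pow, ← mul_assoc, ← hk, ← mul_assoc] at h
    exact (pow_le_pow_iff_right₀ l1).1 (le_of_mul_le_mul_left h (by positivity))
  obtain rfl : k = N := le_antisymm k2 k1
  have eq : tm w f b s N = g := (mul_right_cancel₀ (by positivity) hk).symm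
  rw [Dom, eq]
  refine ⟨⟨a0, fun i hi => ?_⟩, g0⟩
  have : g * (l ^ 2) ^ N < g * (l ^ 2) ^ i :=
    mul_lt_mul_of_pos_left (pow_lt_pow_right₀ (by nlinarith) hi) g0
  exact lt_of_mul_lt_mul_right ((a2 i).trans_lt this) (by positivity)

theorem cnt_move (hw : IsNonarchimedean w) (f : Polynomial Ω) {a b : Ω} {s : ℝ} (h : w (b - a) ≤ s) :
    cnt w f b s = cnt w f a s := by
  classical
  refine congrArg Multiset.card (Multiset.filter_congr fun ρ _ => ⟨fun k => ?_, fun k => ?_⟩)
  · have := hw (ρ - b) (b - a)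
    rw [sub_add_sub_cancel] at this
    exact this.trans (max_le k h)
  · have := na_sub hw (ρ - a) (b - a)
    rw [sub_sub_sub_cancel_right] at this
    exact this.trans (max_le k h)

/-- a derivative has exactly one root in the disc -/
theorem cnt_der [IsAlgClosed Ω] (hw : IsNonarchimedean w) (hn : ∀ m : ℕ, m ≠ 0 → w m = 1)
    {f : Polynomial Ω} (hf : f ≠ 0) {b : Ω} {s : ℝ} (hs : 0 < s) {Z : ℕ} (h : cnt w f b s = Z + 1) :
    hasseDeriv Z f ≠ 0 ∧ cnt w (hasseDeriv Z f) b s = 1 := by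
  obtain ⟨d, p⟩ := dom_cnt hw hf b hs
  rw [h] at d p
  have e : ∀ i, tm w (hasseDeriv Z f) b s i * s ^ Z = tm w f b s (i + Z) := fun i => by
    have := congrArg (fun L => L f) (hasseDeriv_comp (R := Ω) i Z)
    simp only [LinearMap.comp_apply, LinearMap.smul_apply] at this
    rw [tm, tm, this, nsmul_eq_mul, eval_mul, eval_natCast, map_mul,
      hn _ (Nat.choose_pos (by omega)).ne', one_mul, pow_add, mul_assoc]
  have z : 0 < s ^ Z := by positivity
  have h0 : hasseDeriv Z f ≠ 0 := fun k => by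
    have := e 1
    rw [add_comm, k, tm, map_zero, eval_zero, map_zero, zero_mul, zero_mul] at this
    exact p.ne this
  refine ⟨h0, (dom_cnt hw h0 b hs).1.uniq ⟨fun i => ?_, fun i hi => ?_⟩⟩
  · refine le_of_mul_le_mul_right ?_ z
    rw [e, e, add_comm 1]
    exact d.1 _
  · refine lt_of_mul_lt_mul_right ?_ z.le
    rw [e, e, add_comm 1]
    exact d.2 _ (by omega)

section field

variable {K : Subfield Ω}

/-- the two points define the same valuation -/
def Eqv (w : AbsoluteValue Ω ℝ) (K : Subfield Ω) (a β : Ω) : Prop :=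
  ∀ q : K[X], w (aeval β q) = w (aeval a q)

theorem hd_map (f : K[X]) (i : ℕ) :
    hasseDeriv i (f.map (algebraMap K Ω)) = (hasseDeriv i f).map (algebraMap K Ω) := by
  ext n
  simp [hasseDeriv_coeff]

theorem Eqv.cnt [IsAlgClosed Ω] (hw : IsNonarchimedean w) {a β : Ω} (h : Eqv w K a β) {f : K[X]}
    (hf : f ≠ 0) {s : ℝ} (hs : 0 < s) :
    cnt w (f.map (algebraMap K Ω)) β s = cnt w (f.map (algebraMap K Ω)) a s := by
  have f0 : f.map (algebraMap K Ω) ≠ 0 := Polynomial.map_ne_zero hf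
  have e : tm w (f.map (algebraMap K Ω)) β s = tm w (f.map (algebraMap K Ω)) a s := by
    funext i
    rw [tm, tm, hd_map, eval_map_algebraMap, eval_map_algebraMap, h]
  exact (dom_cnt hw f0 β hs).1.uniq (e ▸ (dom_cnt hw f0 a hs).1)

theorem norm_mem [IsAlgClosed Ω] {h : K[X]} (h0 : h ≠ 0) (q : K[X]) :
    ((h.map (algebraMap K Ω)).roots.map fun β => aeval β q).prod ∈ K := by
  have e := resultant_eq_prod_eval (h.map (algebraMap K Ω)) (q.map (algebraMap K Ω)) q.natDegree
    natDegree_map_le (IsAlgClosed.splits _)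
  rw [resultant_map_map, leadingCoeff_map] at e
  simp only [eval_map_algebraMap] at e
  have l0 : algebraMap K Ω h.leadingCoeff ^ q.natDegree ≠ 0 :=
    pow_ne_zero _ ((_root_.map_ne_zero _).2 (leadingCoeff_ne_zero.2 h0))
  rw [eq_inv_mul_iff_mul_eq₀ l0 |>.2 e.symm]
  exact mul_mem (inv_mem (pow_mem h.leadingCoeff.2 _)) (Subtype.prop _)

theorem ev_sep {ρ c T : ℝ} (h0 : 0 ≤ ρ) (h1 : ρ ≠ 1) (hc : 0 ≤ c) :
    ∀ᶠ N : ℕ in atTop, T * (ρ ^ N * c) < 1 ∨ T < ρ ^ N * c := by
  rcases hc.eq_or_lt with rfl | c0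
  · simp
  rcases h1.lt_or_gt with b | b
  · have := ((tendsto_pow_atTop_nhds_zero_of_lt_one h0 b).mul_const c).const_mul T
    exact (this.eventually (gt_mem_nhds (by simp))).mono fun _ a => Or.inl a
  · exact (((tendsto_pow_atTop_atTop_of_one_lt b).atTop_mul_const c0).eventually_gt_atTop T).mono
      fun _ a => Or.inr a

theorem ev_sep' {a : Ω} {p : K[X]} (p0 : aeval a p ≠ 0) {q : K[X]} (q0 : aeval a q ≠ 0)
    (m : Multiset Ω) (T : ℝ) : ∀ᶠ N : ℕ in atTop, ∀ β ∈ m,
      w (aeval β p) ≠ w (aeval a p) → T * w (aeval β (p ^ N * q)) < w (aeval a (p ^ N * q)) ∨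
        T * w (aeval a (p ^ N * q)) < w (aeval β (p ^ N * q)) := by
  classical
  simp only [← Multiset.mem_toFinset, Finset.eventually_all]
  intro β _
  by_cases k : w (aeval β p) = w (aeval a p)
  · exact .of_forall fun _ h => absurd k h
  have a1 := w.pos p0
  have a2 := w.pos q0
  refine (ev_sep (T := T) (ρ := w (aeval β p) / w (aeval a p)) (c := w (aeval β q) / w (aeval a q))
    (by positivity) (fun e => k ((div_eq_one_iff_eq a1.ne').1 e)) (by positivity)).mono
    fun N h _ => ?_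
  rw [div_pow, div_mul_div_comm, ← mul_div_assoc, div_lt_one (by positivity),
    lt_div_iff₀ (by positivity)] at h
  simpa only [map_mul, map_pow] using h

theorem exists_sep (hw : IsNonarchimedean w) {γ : Ω} (hγ : γ ∈ K) (γ1 : 1 < w γ) (a : Ω)
    (m : Multiset Ω) : ∃ p : K[X], aeval a p ≠ 0 ∧
      ∀ β ∈ m, ¬ Eqv w K a β → w (aeval β p) ≠ w (aeval a p) := by
  induction m using Multiset.induction_on with
  | empty => exact ⟨1, by simp, by simp⟩
  | cons β m ih =>
    obtain ⟨p, p0, hp⟩ := ih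
    by_cases k : ¬ Eqv w K a β → w (aeval β p) ≠ w (aeval a p)
    · exact ⟨p, p0, fun x hx => (Multiset.mem_cons.1 hx).elim (fun e => e ▸ k) (hp x)⟩
    push Not at k
    obtain ⟨q, q0, hq⟩ : ∃ q : K[X], aeval a q ≠ 0 ∧ w (aeval β q) ≠ w (aeval a q) := by
      obtain ⟨q, hq⟩ := not_forall.1 k.1
      by_cases q0 : aeval a q = 0
      · rw [q0, map_zero] at hq
        have b0 : 0 < w (aeval β q) := lt_of_le_of_ne (w.nonneg _) (Ne.symm hq)
        obtain ⟨n, hn⟩ := pow_unbounded_of_one_lt (w (aeval β q))⁻¹ γ1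
        rw [inv_lt_iff_one_lt_mul₀ b0] at hn
        refine ⟨C ⟨γ, hγ⟩ ^ n * q + 1, by simp [q0], ?_⟩
        have e : w (aeval β (C (⟨γ, hγ⟩ : K) ^ n * q)) = w γ ^ n * w (aeval β q) := by
          simp [Subfield.algebraMap_ofSubfield]
        rw [map_add, map_one, na_add_lt hw (by rwa [e, map_one]), e]
        simpa [q0] using hn.ne'
      · exact ⟨q, q0, hq⟩
    obtain ⟨N, hN⟩ := (ev_sep' (w := w) p0 q0 m 1).exists
    refine ⟨p ^ N * q, by simp [p0, q0], fun x hx h => ?_⟩
    rcases Multiset.mem_cons.1 hx with rfl | hx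
    · simp only [map_mul, map_pow, k.2]
      exact fun e => hq (mul_left_cancel₀ (pow_ne_zero _ (w.pos p0).ne') e)
    · simp only [one_mul] at hN
      exact (hN x hx (hp x hx h)).elim ne_of_lt ne_of_gt

open Classical in
theorem val_sep [IsAlgClosed Ω] (hw : IsNonarchimedean w) {γ : Ω} (hγ : γ ∈ K) (γ1 : 1 < w γ)
    {h : K[X]} (h0 : h ≠ 0) {a : Ω} {F : K[X]} (F0 : aeval a F ≠ 0)
    (hF : ∀ β ∈ (h.map (algebraMap K Ω)).roots, ¬ Eqv w K a β →
      w γ ^ 2 * w (aeval β F) < w (aeval a F) ∨ w γ ^ 2 * w (aeval a F) < w (aeval β F)) :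
    ∃ b ∈ K, w (aeval a F) ^ ((h.map (algebraMap K Ω)).roots.filter (Eqv w K a)).card = w b := by
  set x := w (aeval a F)
  have x0 : 0 < x := w.pos F0
  have g0 : 0 < w γ := by linarith
  obtain ⟨j, j1, j2⟩ := exists_mem_Ioc_zpow x0 γ1
  have hτ : γ ^ j ∈ K := zpow_mem hγ j
  have hσ : γ ^ 2 ∈ K := pow_mem hγ 2
  rw [zpow_add_one₀ g0.ne', ← map_zpow₀] at j2
  rw [← map_zpow₀] at j1
  set τ := γ ^ j
  have t0 : 0 < w τ := by
    rw [map_zpow₀]
    positivity
  have key : ∀ m : Multiset Ω, (∀ β ∈ m, ¬ Eqv w K a β →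
      w γ ^ 2 * w (aeval β F) < x ∨ w γ ^ 2 * x < w (aeval β F)) → ∃ c ∈ K, c ≠ 0 ∧
      (m.map fun β => aeval β (F - C ⟨τ, hτ⟩)).prod ≠ 0 ∧
      w (m.map fun β => aeval β (F - C ⟨τ * γ ^ 2, mul_mem hτ hσ⟩)).prod *
        x ^ (m.filter (Eqv w K a)).card =
          w (c * (m.map fun β => aeval β (F - C ⟨τ, hτ⟩)).prod) ∧
      (m.map fun β => aeval β (F - C ⟨τ * γ ^ 2, mul_mem hτ hσ⟩)).prod ≠ 0 := fun m => by
    induction m using Multiset.induction_on with
    | empty => exact fun _ => ⟨1, K.one_mem, by simp⟩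
    | cons β m ih =>
      intro hm
      obtain ⟨c, hc, c0, n0, e, n1⟩ := ih fun ρ hρ => hm ρ (by simp [hρ])
      simp only [Multiset.map_cons, Multiset.prod_cons, map_mul] at e ⊢
      have e0 : aeval β (F - C ⟨τ, hτ⟩) = aeval β F - τ := by
        simp [Subfield.algebraMap_ofSubfield]
      have e1 : aeval β (F - C ⟨τ * γ ^ 2, mul_mem hτ hσ⟩) = aeval β F - τ * γ ^ 2 := by
        simp [Subfield.algebraMap_ofSubfield]
      have s1 : w (τ * γ ^ 2) = w τ * w γ ^ 2 := by simp
      have lo : ∀ {y z : Ω}, w y < w z → w (y - z) = w z := fun k => by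
        rw [w.map_sub, na_sub_lt hw k]
      have fin : ∀ {c' : Ω} {y : ℝ}, c' ∈ K → c' ≠ 0 → 0 < w (aeval β F - τ) →
          0 < w (aeval β F - τ * γ ^ 2) →
          w (aeval β F - τ * γ ^ 2) * y = w c' * w (aeval β F - τ) → ∃ c₁ ∈ K, c₁ ≠ 0 ∧
          (aeval β F - τ) * (m.map fun β => aeval β (F - C ⟨τ, hτ⟩)).prod ≠ 0 ∧
          w (aeval β F - τ * γ ^ 2) *
            w (m.map fun β => aeval β (F - C ⟨τ * γ ^ 2, mul_mem hτ hσ⟩)).prod *
              (x ^ (m.filter (Eqv w K a)).card * y) = w c₁ * (w (aeval β F - τ) *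
                w (m.map fun β => aeval β (F - C ⟨τ, hτ⟩)).prod) ∧
          (aeval β F - τ * γ ^ 2) *
            (m.map fun β => aeval β (F - C ⟨τ * γ ^ 2, mul_mem hτ hσ⟩)).prod ≠ 0 :=
        fun {c' y} a1 a2 a3 a4 a5 => ⟨c * c', mul_mem hc a1, mul_ne_zero c0 a2,
          mul_ne_zero (w.pos_iff.1 a3) n0, (by
            rw [map_mul]
            linear_combination (w (aeval β F - τ * γ ^ 2) * y) * e + (w c *
              w (m.map fun β => aeval β (F - C ⟨τ, hτ⟩)).prod) * a5),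
          mul_ne_zero (w.pos_iff.1 a4) n1⟩
      rw [e0, e1]
      have y0 := w.nonneg (aeval β F)
      by_cases k : Eqv w K a β
      · have b : w (aeval β F) = x := k F
        have b0 : w (aeval β F - τ) = x := by rw [na_sub_lt hw (by rwa [b]), b]
        have b1 := lo (y := aeval β F) (z := τ * γ ^ 2) (by rw [b, s1]; nlinarith)
        rw [Multiset.filter_cons_of_pos _ k, Multiset.card_cons, pow_succ x]
        refine fin (mul_mem hτ hσ) (w.pos_iff.1 (by rw [s1]; positivity)) (by rwa [b0])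
          (by rw [b1, s1]; positivity) (by rw [b0, b1])
      · rw [Multiset.filter_cons_of_neg _ k, ← mul_one (x ^ _)]
        rcases hm β (by simp) k with b | b
        · have b2 : w (aeval β F) < w τ := by nlinarith
          have b0 := lo b2
          have b1 := lo (y := aeval β F) (z := τ * γ ^ 2)
            (by rw [s1]; nlinarith [one_lt_pow₀ γ1 two_ne_zero])
          refine fin hσ (w.pos_iff.1 (by rw [map_pow]; positivity)) (by rwa [b0])
            (by rw [b1, s1]; positivity) (by rw [b0, b1, s1, map_pow]; ring)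
        · have b0 := na_sub_lt hw (x := aeval β F) (y := τ) (by nlinarith)
          have b1 := na_sub_lt hw (x := aeval β F) (y := τ * γ ^ 2) (by rw [s1]; nlinarith)
          refine fin K.one_mem one_ne_zero (by rw [b0]; nlinarith) (by rw [b1]; nlinarith)
            (by rw [b0, b1, map_one]; ring)
  obtain ⟨c, hc, -, -, e, n1⟩ := key _ hF
  refine ⟨_, div_mem (mul_mem hc (norm_mem h0 (F - C ⟨τ, hτ⟩)))
    (norm_mem h0 (F - C ⟨τ * γ ^ 2, mul_mem hτ hσ⟩)), ?_⟩
  rw [map_div₀, eq_div_iff (w.pos n1).ne', mul_comm, e]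

open Classical in
theorem val_cls [IsAlgClosed Ω] (hw : IsNonarchimedean w) {γ : Ω} (hγ : γ ∈ K) (γ1 : 1 < w γ)
    {h : K[X]} (h0 : h ≠ 0) {a : Ω} {q : K[X]} (q0 : aeval a q ≠ 0) :
    ∃ b ∈ K, w (aeval a q) ^ ((h.map (algebraMap K Ω)).roots.filter (Eqv w K a)).card = w b := by
  obtain ⟨p, p0, hp⟩ := exists_sep hw hγ γ1 a (h.map (algebraMap K Ω)).roots
  obtain ⟨N, h1, h2⟩ := ((ev_sep' (w := w) p0 q0 (h.map (algebraMap K Ω)).roots (w γ ^ 2)).and
    (ev_sep' (w := w) p0 (q := 1) (by simp) (h.map (algebraMap K Ω)).roots (w γ ^ 2))).exists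
  obtain ⟨b, hb, e⟩ := val_sep hw hγ γ1 h0 (F := p ^ N * q) (by simp [p0, q0])
    fun β k l => h1 β k (hp β k l)
  obtain ⟨c, hc, e'⟩ := val_sep hw hγ γ1 h0 (F := p ^ N * 1) (by simp [p0])
    fun β k l => h2 β k (hp β k l)
  refine ⟨b / c, div_mem hb hc, ?_⟩
  have := w.pos p0
  rw [map_div₀, ← e, ← e', map_mul, map_mul, mul_one, mul_pow, mul_div_cancel_left₀]
  simp only [map_pow]
  positivity

end field

theorem dbl {α β : Type} (S : Multiset α) (R : Multiset β) (P : α → β → Prop)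
    [∀ a b, Decidable (P a b)] : (S.map fun a => (R.filter (P a)).card).sum =
      (R.map fun b => (S.filter (P · b)).card).sum := by
  have e : ∀ {γ : Type} (m : Multiset γ) (p : γ → Prop) [DecidablePred p],
      (m.filter p).card = (m.map fun a => if p a then 1 else 0).sum := fun m p _ => by
    induction m using Multiset.induction_on with
    | empty => simp
    | cons a m ih => by_cases k : p a <;> simp [k, ih, add_comm]
  simp only [e]
  exact Multiset.sum_map_sum_map S R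

end Mu

open Mu in
theorem mult : MULT := fun Ω _ _ w K W a r k hw hn ⟨γ, hγ, γ1⟩ hW hK k0 hk => by
  classical
  obtain ⟨f, rfl⟩ : W ∈ lifts (algebraMap K Ω) :=
    (lifts_iff_coeff_lifts W).2 fun i => ⟨⟨_, hK i⟩, rfl⟩
  rw [coe_mapRingHom] at hW hk ⊢
  have W0 := hW.ne_zero
  have f0 : f ≠ 0 := fun e => W0 (by simp [e])
  obtain ⟨Z, hZ⟩ : ∃ Z, cnt w (f.map (algebraMap K Ω)) a r = Z + 1 :=
    Nat.exists_eq_succ_of_ne_zero (k0.trans_le hk).ne'
  have r0 : 0 ≤ r := by
    obtain ⟨β, hβ⟩ := Multiset.card_pos_iff_exists_mem.1 (k0.trans_le hk)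
    exact (w.nonneg _).trans (Multiset.mem_filter.1 hβ).2
  have e : ∀ᶠ s in 𝓝[>] r, ∀ ρ ∈ ((f.map (algebraMap K Ω)).roots +
      ((hasseDeriv Z f).map (algebraMap K Ω)).roots).toFinset, w (ρ - a) ≤ s → w (ρ - a) ≤ r := by
    refine eventually_nhdsWithin_of_eventually_nhds ((Finset.eventually_all _).2 fun ρ _ => ?_)
    rcases le_or_gt (w (ρ - a)) r with l | l
    · exact .of_forall fun _ _ => l
    · exact (gt_mem_nhds l).mono fun _ a b => absurd b (not_le.2 a)
  obtain ⟨s, hs, rs⟩ := (e.and self_mem_nhdsWithin).exists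
  have rs : r < s := rs
  have s0 : 0 < s := r0.trans_lt rs
  have hZ' : cnt w (f.map (algebraMap K Ω)) a s = Z + 1 := by
    rw [← hZ]
    exact congrArg Multiset.card (Multiset.filter_congr fun ρ hρ =>
      ⟨hs ρ (by simp only [Multiset.mem_toFinset, Multiset.mem_add, hρ, true_or]),
        fun l => l.trans rs.le⟩)
  obtain ⟨h0, h1⟩ := cnt_der hw hn W0 s0 hZ'
  rw [hd_map] at h0 h1
  set h := hasseDeriv Z f
  have h0' : h ≠ 0 := fun l => h0 (by simp [l])
  obtain ⟨a', ha'⟩ := Multiset.card_pos_iff_exists_mem.1 (one_pos.trans_eq h1.symm)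
  obtain ⟨m1, m2⟩ := Multiset.mem_filter.1 ha'
  set S := (h.map (algebraMap K Ω)).roots.filter (Eqv w K a') with hS
  refine ⟨a', S.card, ⟨h, h0', ?_⟩,
    hs a' (by simp only [Multiset.mem_toFinset, Multiset.mem_add, m1, or_true]) m2,
    Multiset.card_pos_iff_exists_mem.2 ⟨a', Multiset.mem_filter.2 ⟨m1, fun _ => rfl⟩⟩, ?_, ?_⟩
  · rw [← eval_map_algebraMap]
    exact (mem_roots h0).1 m1
  · have c1 : ∀ β ∈ S, cnt w (f.map (algebraMap K Ω)) β s = Z + 1 := fun β hβ => by
      rw [(Multiset.mem_filter.1 hβ).2.cnt hw f0 s0, cnt_move hw _ m2, hZ']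
    have c2 : ∀ ρ, (S.filter fun β => w (ρ - β) ≤ s).card ≤ 1 := fun ρ => by
      rcases Nat.eq_zero_or_pos (S.filter fun β => w (ρ - β) ≤ s).card with z | z
      · omega
      obtain ⟨β, hβ⟩ := Multiset.card_pos_iff_exists_mem.1 z
      obtain ⟨b1, b2⟩ := Multiset.mem_filter.1 hβ
      rw [← h1, ← cnt_move hw _ m2, ← (Multiset.mem_filter.1 b1).2.cnt hw h0' s0,
        ← cnt_move hw _ b2]
      refine Multiset.card_le_card ?_
      simp only [w.map_sub ρ]
      exact Multiset.filter_le_filter _ (Multiset.filter_le _ _)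
    have d := dbl S (f.map (algebraMap K Ω)).roots fun β ρ => w (ρ - β) ≤ s
    have d1 : (S.map fun β => ((f.map (algebraMap K Ω)).roots.filter
        fun ρ => w (ρ - β) ≤ s).card).sum = S.card * (Z + 1) := by
      refine (congrArg Multiset.sum (Multiset.map_congr rfl c1)).trans ?_
      simp
    have d2 := Multiset.sum_le_card_nsmul ((f.map (algebraMap K Ω)).roots.map
      fun ρ => (S.filter fun β => w (ρ - β) ≤ s).card) 1 (by
        intro x hx
        obtain ⟨ρ, -, rfl⟩ := Multiset.mem_map.1 hx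
        exact c2 ρ)
    rw [← d, d1, Multiset.card_map, smul_eq_mul, mul_one] at d2
    exact (Nat.mul_le_mul_left _ (hk.trans_eq hZ)).trans (d2.trans (card_roots' _))
  · intro z hz
    have hz' : z ∈ IntermediateField.adjoin K {a'} := by
      change z ∈ Subfield.closure _
      convert hz
      ext z
      simp [Subfield.algebraMap_ofSubfield]
    obtain ⟨p, q, rfl⟩ := (IntermediateField.mem_adjoin_simple_iff _ _).1 hz'
    by_cases z0 : aeval a' p / aeval a' q = 0
    · refine ⟨0, K.zero_mem, ?_⟩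
      rw [z0, map_zero, zero_pow]
      exact (Multiset.card_pos_iff_exists_mem.2
        ⟨a', Multiset.mem_filter.2 ⟨m1, fun _ => rfl⟩⟩).ne'
    obtain ⟨p0, q0⟩ := div_ne_zero_iff.1 z0
    obtain ⟨b, hb, e1⟩ := val_cls hw hγ γ1 h0' p0
    obtain ⟨c, hc, e2⟩ := val_cls hw hγ γ1 h0' q0
    exact ⟨b / c, div_mem hb hc, by rw [map_div₀, map_div₀, div_pow, e1, e2]⟩

end Vale.Agent.P283B.Ls
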