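import Vale.Agent.P283B.LS.St
import Vale.Agent.P287D.Cb.Lg

/-!
# P283B, block LS: from the threshold of an ideal to the threshold of a function
-/

open Set

noncomputable section

namespace Vale.Agent.P283B.Ls

open P287D P287D.Cb

/-- **SLL** -/
theorem sll : SLL := fun be n lm ε q e0 q0 => by
  obtain ⟨τ, t0, H⟩ := lm ε q e0 q0
  have p : 0 < min τ 1 := lt_min t0 one_pos
  refine ⟨⌈(min τ 1)⁻¹⌉₊, Nat.ceil_pos.2 (inv_pos.2 p),
    fun K _ _ hK Λ Γ s₀ R₀ r sm nh cf el => ?_⟩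
  obtain ⟨s, ⟨f, hf⟩, hs, lc⟩ := H K hK Λ Γ s₀ R₀ r sm nh cf el
  have nz : ∃ f ∈ s, f ≠ 0 := ⟨f, hf, (hs f hf).1⟩
  obtain ⟨g, m, g0, -, -, b⟩ := be n K hK Λ (mx s₀) (Γ + (-min τ 1) • mx s) s ∅ r.pr.smp r.pr.big
    (smp_mx s₀) (add_mem r.pr.des.car (Submodule.smul_mem _ _ (mx_mem_Car s))) nz finite_empty
  have k : g ∈ fld (mx s₀) ∧ g ∈ Oz s₀ R₀ ∧ Mx R₀ g := by
    clear b g0
    induction m using Submodule.span_induction with
    | mem x hx => exact ⟨(hs x hx).2.1, (hs x hx).2.2.1, mx_iff.2 (.inr (hs x hx).2.2.2)⟩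
    | zero => exact ⟨zero_mem _, zero_mem _, mx_zero⟩
    | add x y _ _ u v => exact ⟨add_mem u.1 v.1, add_mem u.2.1 v.2.1, u.2.2.add v.2.2⟩
    | smul c x _ u =>
      exact ⟨IntermediateField.smul_mem _ u.1, Subalgebra.smul_mem _ u.2.1 c,
        Algebra.smul_def c x ▸ u.2.2.mul (R₀.con c)⟩
  have lc' : ∀ P, Ov s₀ R₀ P → 0 ≤ ld (n + 1) (Γ + (-min τ 1) • mx s) P := fun P o => by
    obtain ⟨f, hf, -, e⟩ := P.exists_mz nz
    have a : (0 : ℝ) ≤ P.ord f :=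
      Int.cast_nonneg_iff.2 (P297Z.Pl.ord_nonneg_of_mem _ ((hs f hf).2.2.1 P o))
    have c := lc P o
    have d := mul_le_mul_of_nonneg_right (min_le_left τ 1) a
    simp only [ld, dsc, Pi.add_apply, Pi.sub_apply, Pi.smul_apply, smul_eq_mul, mx_apply, e] at c ⊢
    push_cast at c ⊢
    linarith
  refine ⟨g, k.1, g0, (mx_iff.1 k.2.2).resolve_left g0, fun P o =>
    ⟨P297Z.Pl.ord_nonneg_of_mem _ (k.2.1 P o), ?_⟩⟩
  obtain ⟨P', c, h⟩ := b _ P p.le (min_le_right _ _) fun P' c => lc' P' (CLe.trans o c)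
  have h := (le_min (lc' P' (CLe.trans o c)) (sub_nonneg.2 (min_le_right _ _))).trans h
  have h' : min τ 1 * P.ord g ≤ ld (n + 1) Γ P := by
    simp only [ld, dsc, Pi.add_apply, Pi.sub_apply, Pi.smul_apply, smul_eq_mul, dv_apply] at h ⊢
    linarith
  exact ((le_inv_mul_iff₀ p).2 h').trans
    (mul_le_mul_of_nonneg_right (Nat.le_ceil _) (e0.le.trans (el P o)))

end Vale.Agent.P283B.Ls
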