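import Vale.Agent.P283B.LS.Tw
import Vale.Agent.P283B.BR.SmDf
import Vale.Agent.P283B.EB.WpA
import Vale.Agent.P287D.Ku.St

/-!
# P283B, block LS: smooth points of the base (statements)
-/

set_option linter.unusedVariables false

open Set MvPolynomial

noncomputable section

namespace Vale.Agent.P283B.Ls

open P287D Wp

section defs

variable {F : Type} [Field F] [Algebra ℂ F] {ι σ : Type}

/-- `F` is the field of rational functions in `y` -/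
structure Rf (y : ι → F) : Prop where
  ind : AlgebraicIndependent ℂ y
  gen : IntermediateField.adjoin ℂ (range y) = ⊤

/-- the centre lies in the affine space -/
def Fi (y : ι → F) (P : Pl F) : Prop := ∀ i, y i ∈ P.ring

/-- the centre is the origin -/
def Ce (y : ι → F) (P : Pl F) : Prop := ∀ i, 0 < P.ord (y i)

/-- generators of an ideal which is trivial outside the origin -/
structure Id (y : ι → F) (J : Finset F) : Prop where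
  pol : ∀ f ∈ J, ∃ p : MvPolynomial ι ℂ, f = aeval y p
  pri : ∀ P, Fi y P → ¬ Ce y P → mx J P = 0

/-- the log discrepancy of the pair `(𝔸, J ^ c)` -/
def psi [Fintype ι] (y : ι → F) (J : Finset F) (c : ℝ) : BD F := kq y + 1 + c • mx J

/-- the copy `j` -/
def cp {s : ℕ} (j : Fin s) : σ ⊕ ι → σ ⊕ ι × Fin s := Sum.map id fun i => (i, j)

/-- the diagonal -/
def dg {s : ℕ} : σ ⊕ ι × Fin s → σ ⊕ ι := Sum.map id Prod.fst

end defs

/-- **OT**: extension from the graph; a power of the uniformizer of `v` is a combination of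
adjoint sections -/
def OT : Prop := ForS fun n E _ _ => ∀ (L σ : Type) [Field L] [Algebra ℂ L] [Fintype σ]
  (z : σ → L) (φ : L →ₐ[ℂ] E) (Γ H : BD E) (C : AddSubmonoid (BD E)) (v : Pl L) (k : ℤ), Rf z →
  Nef H → (∀ G ∈ C, 0 ≤ G ∧ ∃ m : ℝ, 0 ≤ m ∧ G - m • H ∈ Prn E) →
  (∃ G ∈ C, Nef (G - Γ) ∧ Big (G - Γ)) → (∀ w, (∀ G ∈ C, G w = 0) → ∀ b, φ (z b) ∈ w.ring) →
  Fi z v → (∀ w, (∀ G ∈ C, G w = 0) → (Trv (φ : L →+* E) w → 0 < ld (n + 1) Γ w) ∧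
    (Lies (φ : L →+* E) w v → 0 < ld (n + 1) Γ w + k * w.ord (φ v.t))) →
  ∃ (r : ℕ) (g : Fin r → E) (e : Fin r → L),
    (∀ l w, (∀ G ∈ C, G w = 0) → Aj (n + 1) Γ w (g l)) ∧
    (∀ l, e l = 0 ∨ -kq z v ≤ v.ord (e l)) ∧ φ v.t ^ k = ∑ l, g l * φ (e l)

/-- **DIAG**: places of the fibre power and the restriction to the diagonal -/
def DIAG : Prop := ∀ (L F E σ ι : Type) [Field L] [Algebra ℂ L] [Field F] [Algebra ℂ F] [Field E]
  [Algebra ℂ E] [Fintype σ] [Fintype ι] (s : ℕ) (z : σ → L) (y : σ ⊕ ι → F)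
  (Y : σ ⊕ ι × Fin s → E) (φ : L →ₐ[ℂ] F) (φ' : L →ₐ[ℂ] E) (ψ : Fin s → F →ₐ[ℂ] E), 0 < s →
  Rf z → Rf y → Rf Y → (∀ b, φ (z b) = y (.inl b)) → (∀ b, φ' (z b) = Y (.inl b)) →
  (∀ j i, ψ j (y i) = Y (cp j i)) →
  (∀ w : Pl E, ∑ j, pb (ψ j : F →+* E) (kq y + 1) w - (s - 1) * pb (φ' : L →+* E) (kq z + 1) w ≤
    kq Y w + 1) ∧
  ∀ (P : Pl F) (p : MvPolynomial (σ ⊕ ι × Fin s) ℂ), ¬ Trv (φ : L →+* F) P →
    aeval y (rename dg p) ≠ 0 → ∃ w : Pl E, (∀ j, Lies (ψ j : F →+* E) w P) ∧ kq Y w + 1 =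
      ∑ j, pb (ψ j : F →+* E) (kq y + 1) w - (s - 1) * pb (φ' : L →+* E) (kq z + 1) w ∧
      ∀ j, w.ord (aeval Y p) ≤ w.ord (ψ j P.t) * P.ord (aeval y (rename dg p))

/-- **BERG**: polynomials with a lower bound at all places and an upper bound at a given point -/
def BERG : Prop := ∀ (L F σ ι : Type) [Field L] [Algebra ℂ L] [Field F] [Algebra ℂ F] [Fintype σ]
  [Fintype ι] (z : σ → L) (y : σ ⊕ ι → F) (φ : L →ₐ[ℂ] F) (J : Finset F) (c : ℝ) (s k : ℕ)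
  (v : Pl L), Rf z → Rf y → (∀ b, φ (z b) = y (.inl b)) → Id y J → 0 ≤ c → 0 < s → Fi z v →
  (∀ P, Lies (φ : L →+* F) P v → (∀ i, 0 < P.ord (y (.inr i))) →
    s * (pb (φ : L →+* F) (kq z + 1) P - psi y J c P) < (k + 1) * P.ord (φ v.t)) →
  ∀ (Ω : Type) [Field Ω] [Algebra ℂ Ω] (w : AbsoluteValue Ω ℝ) (ρ : L →ₐ[ℂ] Ω) (x : σ ⊕ ι → Ω),
    IsNonarchimedean w → (∀ f, f ∈ v.ring ↔ w (ρ f) ≤ 1) → (∀ b, x (.inl b) = ρ (z b)) →
    (∀ i, w (x i) ≤ 1) → ∃ g : MvPolynomial (σ ⊕ ι) ℂ,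
      (∀ P, Fi y P → ¬ Trv (φ : L →+* F) P → aeval y g ≠ 0 →
        s * (pb (φ : L →+* F) (kq z + 1) P - psi y J c P) - pb (φ : L →+* F) (kq z + 1) P ≤
          P.ord (aeval y g)) ∧ w (ρ v.t) ^ k ≤ w (aeval x g)

/-- **REAL**: places over a triangular point are triangular points -/
def REAL : Prop := ∀ n, ForE n fun Ω _ _ w E t u => ∀ (F : Type) [Field F] [Algebra ℂ F]
  (y : Fin n → F) (T : F) (c : ℕ) (γ : Fin n → Ω) (τ : F →ₐ[ℂ] Ω) (P : Pl F),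
  Rf (fun o : Option (Fin n) => o.elim T y) → Mono.Tri E u (fun j => τ (y j)) γ → τ T = t →
  (∀ f ∈ IntermediateField.adjoin ℂ (insert T (y '' {j | c ≤ j.1})), f ∈ P.ring ↔ w (τ f) ≤ 1) →
  ∃ (τ' : F →ₐ[ℂ] Ω) (γ' : Fin n → Ω), τ' T = t ∧ (∀ j : Fin n, c ≤ j.1 → τ' (y j) = τ (y j)) ∧
    Mono.Tri E u (fun j => τ' (y j)) γ' ∧ ∀ f, f ∈ P.ring ↔ w (τ' f) ≤ 1

/-- **S2**: the threshold of the maximal ideal for `ε`-lc pairs on the affine space -/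
def S2 : Prop := ∀ (n : ℕ) (ε : ℝ), 0 < ε → ∃ τ : ℝ, 0 < τ ∧ ∀ (F : Type) [Field F] [Algebra ℂ F]
  (y : Fin (n + 1) → F) (J : Finset F) (c : ℝ), Rf y → Id y J → 0 ≤ c →
  (∀ P, Ce y P → ε ≤ psi y J c P) → ∀ P, Ce y P → ∃ i, τ * P.ord (y i) ≤ psi y J c P

/-- leaf -/
def SBERG : Prop := OT → DIAG → BERG

/-- leaf -/
def BRI : Prop := TOWER → BERG → REAL → BERT → S2

/-- **PW**: powers of the fibration; functions on the base with a lower bound at all places near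
the point, whose combination is a power of the uniformizer of `v` -/
def PW : Prop := ForS fun n K _ _ => ∀ (L σ : Type) [Field L] [Algebra ℂ L] [Fintype σ]
  (z : σ → L) (φ : L →ₐ[ℂ] K) (Λ Γ : BD K) (s₀ : Finset K) (R₀ : Pl K) (c δ : ℝ) (s k : ℕ)
  (v : Pl L), Rf z → ¬ Hor (fld (mx s₀)) R₀ → Smp Λ → Big Λ → Dsc Λ (mx s₀) → Bdy n Λ Γ →
  Nef (c • mx s₀ - Γ) →
  Big (c • mx s₀ - Γ) → (∀ b, φ (z b) ∈ Oz s₀ R₀) → (∀ a, φ a ∈ fld (mx s₀)) →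
  (∀ f ∈ fld (mx s₀), IsAlgebraic φ.fieldRange f) → Fi z v → 0 < s →
  (∀ w, Trv (φ : L →+* K) w → 0 < ld (n + 1) Γ w) →
  (∀ w, Ov s₀ R₀ w → Lies (φ : L →+* K) w v → δ * w.ord (φ v.t) ≤ ld (n + 1) Γ w) →
  s * (kq z v + 1 - δ) < k + 1 → ∃ (r : ℕ) (f : Fin r → K) (e : Fin r → L),
    (∀ l, f l ∈ Oz s₀ R₀) ∧ (∀ l, e l ∈ v.ring) ∧ φ v.t ^ k = ∑ l, f l * φ (e l) ∧
    ∀ l w, Ov s₀ R₀ w → ¬ Trv (φ : L →+* K) w → f l ≠ 0 →
      s * (pb (φ : L →+* K) (kq z + 1) w - ld (n + 1) Γ w) - pb (φ : L →+* K) (kq z + 1) w ≤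
        w.ord (f l)

section et

variable {M ι : Type} [Field M] [Algebra ℂ M]

/-- the value of a polynomial in `y` and `θ` -/
def ey (y : ι → M) (θ : M) (a : Polynomial (MvPolynomial ι ℂ)) : M :=
  a.eval₂ (aeval y : MvPolynomial ι ℂ →ₐ[ℂ] M) θ

/-- `M = ℂ (y, θ)` is etale over the affine space at the centre of `P` -/
structure Eq (y : ι → M) (θ : M) (F : Polynomial (MvPolynomial ι ℂ)) (P : Pl M) : Prop where
  ind : AlgebraicIndependent ℂ y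
  gen : IntermediateField.adjoin ℂ (insert θ (range y)) = ⊤
  mon : F.Monic
  root : ey y θ F = 0
  ne : ey y θ F.derivative ≠ 0
  un : P.ord (ey y θ F.derivative) = 0
  fi : Fi y P

end et

/-- **UNR**: no ramification at etale points -/
def UNR : Prop := ∀ (L M ι : Type) [Field L] [Algebra ℂ L] [Field M] [Algebra ℂ M] [Fintype ι]
  (z : ι → L) (φ : L →ₐ[ℂ] M) (θ : M) (F : Polynomial (MvPolynomial ι ℂ)) (P : Pl M) (v : Pl L),
  Rf z → Eq (fun i => φ (z i)) θ F P → Lies (φ : L →+* M) P v → P.ord (φ v.t) = 1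

/-- **ETA**: the statement `S2` at etale points which need not be closed. The place `v` of `L`
lies under a place `u` with the same centre as `T`. -/
def ETA : Prop := ∀ (n : ℕ) (ε : ℝ), 0 < ε → ∃ τ : ℝ, 0 < τ ∧ ∀ (L M σ : Type) [Field L]
  [Algebra ℂ L] [Field M] [Algebra ℂ M] [Fintype σ] (z : σ ⊕ Fin (n + 1) → L) (φ : L →ₐ[ℂ] M)
  (θ : M) (F : Polynomial (MvPolynomial (σ ⊕ Fin (n + 1)) ℂ)) (T : Pl M)
  (q : Fin (n + 1) → Polynomial (MvPolynomial σ ℂ)) (l s : ℝ), Rf z →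
  Eq (fun i => φ (z i)) θ F T → AlgebraicIndependent ℂ (fun b => T.rd (φ (z (.inl b)))) →
  (∀ i, Irreducible (q i) ∧ 0 < T.ord (ey (fun b => φ (z (.inl b))) (φ (z (.inr i))) (q i))) →
  0 < s → (∀ u v, Lies (φ : L →+* M) u v → Fi (fun i => φ (z i)) u →
    (∀ a, 0 < u.ord (ey (fun i => φ (z i)) θ a) ↔ 0 < T.ord (ey (fun i => φ (z i)) θ a)) →
    ∃ a, ey (fun i => φ (z i)) θ a ≠ 0 ∧ l ≤ T.ord (ey (fun i => φ (z i)) θ a) ∧
      u.ord (ey (fun i => φ (z i)) θ a) ≤ s * (kq z v + 1 - ε)) →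
  ∃ i, τ * T.ord (ey (fun b => φ (z (.inl b))) (φ (z (.inr i))) (q i)) ≤
    pb (φ : L →+* M) (kq z + 1) T - l / s

/-- **LM**: the threshold of an ideal which is primary to the point -/
def LM (n : ℕ) : Prop := ∀ (ε : ℝ) (q : ℕ), 0 < ε → 0 < q → ∃ τ : ℝ, 0 < τ ∧
  ForN n fun K _ _ => ∀ (Λ Γ : BD K) (s₀ : Finset K) (R₀ : Pl K), Rel n Λ s₀ Γ → Smo K s₀ R₀ →
    ¬ Hor (fld (mx s₀)) R₀ → Cf n Λ Γ (Frq q) (Ov s₀ R₀) → ELc n ε Γ (Ov s₀ R₀) →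
    ∃ s : Finset K, s.Nonempty ∧ (∀ f ∈ s, f ≠ 0 ∧ f ∈ fld (mx s₀) ∧ f ∈ Oz s₀ R₀ ∧ 0 < R₀.ord f) ∧
      ∀ P, Ov s₀ R₀ P → 0 ≤ ld (n + 1) Γ P + τ * mx s P

/-- leaf -/
def SPW : Prop := OT → PW

/-- leaf -/
def SETA : Prop := S2 → UNR → ETA

/-- leaf -/
def SLM : Prop := PW → UNR → ETA → ∀ n, MS n → LM n

/-- leaf -/
def SLL : Prop := BERT → ∀ n, LM n → LL Smo n

theorem ll_of (tw : TOWER) (ot : OT) (di : DIAG) (re : REAL) (be : BERT) (un : UNR) (sb : SBERG)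
    (br : BRI) (pw : SPW) (et : SETA) (lm : SLM) (ll : SLL) (n : ℕ) (ms : MS n) : LL Smo n :=
  ll be n (lm (pw ot) un (et (br tw (sb ot di) re be) un) n ms)

end Vale.Agent.P283B.Ls
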