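import Vale.Agent.P283B.LS.BriA
import Vale.Agent.P287D.Gm.Trm

/-!
# P283B, block LS: the places of the fibre power and the restriction to the diagonal
-/

set_option linter.unusedVariables false
set_option linter.unusedSectionVars false

open Set MvPolynomial
open Vale.Agent.P285N.Brep (jac Fr)
open Vale.Agent.P297 (Place)
open Vale.Agent.P297Z Vale.Agent.P287D Vale.Agent.P287D.Cb

noncomputable section

namespace Vale.Agent.P283B.Ld

open Wp Ls

section tay

variable {O B α : Type} [CommRing O] [CommRing B] [Algebra ℂ B] [Fintype α]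

/-- derivations of a ring -/
structure Dv (d : α → O → O) : Prop where
  add : ∀ a f g, d a (f + g) = d a f + d a g
  mul : ∀ a f g, d a (f * g) = d a f * g + f * d a g

/-- the homogeneous terms of the Taylor series -/
def tm (c : O →+* B) (d : α → O → O) (ξ : α → B) : ℕ → O → B
  | 0, f => c f
  | n + 1, f => ((n : ℂ) + 1)⁻¹ • ∑ a, ξ a * tm c d ξ n (d a f)

variable {c : O →+* B} {d : α → O → O} {ξ : α → B}

theorem Dv.zero (h : Dv d) (a : α) : d a 0 = 0 := by simpa using h.add a 0 0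

theorem Dv.one (h : Dv d) (a : α) : d a 1 = 0 := by simpa using h.mul a 1 1

theorem tm_add (h : Dv d) (n : ℕ) (f g : O) :
    tm c d ξ n (f + g) = tm c d ξ n f + tm c d ξ n g := by
  induction n generalizing f g with
  | zero => exact map_add c f g
  | succ n ih => simp only [tm, h.add, ih, mul_add, Finset.sum_add_distrib, smul_add]

theorem tm_zero (h : Dv d) (n : ℕ) : tm c d ξ n 0 = 0 := by
  simpa using tm_add (c := c) (ξ := ξ) h n 0 0

theorem tm_cst (h : Dv d) {f : O} (hf : ∀ a, d a f = 0) (n : ℕ) : tm c d ξ (n + 1) f = 0 := by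
  simp [tm, hf, tm_zero h]

theorem tm_dvd (h : Dv d) {t : O} (ht : ∀ a, t ∣ d a t) (n : ℕ) {f : O} (hf : t ∣ f) :
    c t ∣ tm c d ξ n f := by
  induction n generalizing f with
  | zero => exact map_dvd c hf
  | succ n ih =>
    obtain ⟨g, rfl⟩ := hf
    rw [tm, Algebra.smul_def]
    exact (Finset.dvd_sum fun a _ => (ih (by
      rw [h.mul]; exact ((ht a).mul_right _).add (dvd_mul_right _ _))).mul_left _).mul_left _

open PowerSeries in
theorem tm_mul (h : Dv d) (n : ℕ) (f g : O) : tm c d ξ n (f * g) =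
    coeff n (mk (fun n => tm c d ξ n f) * mk fun n => tm c d ξ n g) := by
  have u : ∀ (n : ℕ) (x : B), (((n : ℂ) + 1)⁻¹ • x) * (n + 1) = x := fun n x => by
    rw [show (n + 1 : B) = algebraMap ℂ B (n + 1) by simp, mul_comm, ← Algebra.smul_def,
      smul_inv_smul₀ (Nat.cast_add_one_ne_zero n)]
  have e : ∀ f, derivative B (mk fun n => tm c d ξ n f) =
      ∑ a, PowerSeries.C (ξ a) * mk fun n => tm c d ξ n (d a f) := fun f => PowerSeries.ext fun n => by
    simp only [coeff_derivative, coeff_mk, tm, u, map_sum, PowerSeries.coeff_C_mul]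
  induction n generalizing f g with
  | zero => simp [tm]
  | succ n ih =>
    rw [tm, inv_smul_eq_iff₀ (Nat.cast_add_one_ne_zero n), Algebra.smul_def, mul_comm (algebraMap _ _ _), map_add,
      map_natCast, map_one, ← coeff_derivative, Derivation.leibniz, e, e, smul_eq_mul, smul_eq_mul,
      Finset.mul_sum, Finset.mul_sum, ← Finset.sum_add_distrib, map_sum]
    refine Finset.sum_congr rfl fun a _ => ?_
    rw [h.mul, tm_add h, ih, ih, ← map_add, ← PowerSeries.coeff_C_mul]
    congr 1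
    ring

variable (c ξ) in
/-- **the Taylor series** -/
def ty (h : Dv d) : O →+* PowerSeries B where
  toFun f := PowerSeries.mk fun n => tm c d ξ n f
  map_one' := PowerSeries.ext fun n => by
    rcases n with _ | n
    · simp [tm]
    · simp [tm_cst h h.one, PowerSeries.coeff_one]
  map_mul' f g := PowerSeries.ext fun n => by rw [PowerSeries.coeff_mk, tm_mul h]
  map_zero' := PowerSeries.ext fun n => by simp [tm_zero h]
  map_add' f g := PowerSeries.ext fun n => by simp [tm_add h]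

theorem ty_coeff (h : Dv d) (n : ℕ) (f : O) :
    PowerSeries.coeff n (ty c ξ h f) = tm c d ξ n f :=
  PowerSeries.coeff_mk n fun n => tm c d ξ n f

theorem ty_cc (h : Dv d) (f : O) : PowerSeries.constantCoeff (ty c ξ h f) = c f := by
  rw [← PowerSeries.coeff_zero_eq_constantCoeff_apply, ty_coeff, tm]

theorem ty_cst (h : Dv d) {f : O} (hf : ∀ a, d a f = 0) : ty c ξ h f = PowerSeries.C (c f) :=
  PowerSeries.ext fun n => by
    rcases n with _ | n
    · simp [ty_cc]
    · simp [ty_coeff, tm_cst h hf]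

theorem ty_lin [DecidableEq α] (h : Dv d) {f : O} {b : α}
    (hf : ∀ a, d a f = if a = b then 1 else 0) :
    ty c ξ h f = PowerSeries.C (c f) + PowerSeries.C (ξ b) * PowerSeries.X :=
  PowerSeries.ext fun n => by
    rcases n with _ | _ | n
    · simp [ty_cc]
    · simp [ty_coeff, tm, hf, PowerSeries.coeff_C, apply_ite c]
    · rw [ty_coeff, tm, Finset.sum_eq_zero fun a _ => by
        rw [hf, tm_cst h fun _ => by split_ifs; exacts [h.one _, h.zero _], mul_zero]]
      simp

end tay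

/-- the data of the completed fibre power -/
structure Cp {O A Q ι σ τ : Type} [CommRing O] [Algebra ℂ O] [CommRing A] [Algebra ℂ A]
    [Field Q] [Algebra ℂ Q] (d : ι → O → O) (t : O) (x : ι → O) (u : τ → O) (ν : A →ₐ[ℂ] Q)
    (T : σ → O →ₐ[ℂ] A) (c : O →ₐ[ℂ] A) (e : A →ₐ[ℂ] O) : Prop where
  eT : ∀ j f, e (T j f) = f
  ec : ∀ f, e (c f) = f
  cst : ∀ j f, (∀ a, d a f = 0) → T j f = c f
  ker : ∀ a, ν a = 0 ↔ c t ∣ a
  un : ∀ j, ∃ v : Aˣ, T j t = c t * v ∧ e v = 1
  ind : AlgebraicIndependent ℂ fun i =>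
    ν (Sum.elim (fun p : ι × σ => T p.2 (x p.1)) (fun m => c (u m)) i)

theorem exists_cp {O κ ι τ : Type} (σ : Type) [CommRing O] [IsDomain O] [IsNoetherianRing O]
    [Algebra ℂ O] [Field κ] [Algebra ℂ κ] [Fintype ι] [DecidableEq ι] [Finite σ]
    (ρ : O →ₐ[ℂ] κ) {d : ι → O → O} (h : Dv d) {t : O} {x : ι → O} {u : τ → O} (t0 : t ≠ 0)
    (hρ : ∀ a, ρ a = 0 ↔ t ∣ a) (hc : ∀ a c, d a (algebraMap ℂ O c) = 0) (ht : ∀ a, t ∣ d a t)
    (hx : ∀ a b, d a (x b) = if a = b then 1 else 0)
    (hu : AlgebraicIndependent ℂ fun m => ρ (u m)) :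
    ∃ (A Q : Type) (_ : CommRing A) (_ : IsDomain A) (_ : IsNoetherianRing A) (_ : Algebra ℂ A)
      (_ : Field Q) (_ : Algebra ℂ Q) (ν : A →ₐ[ℂ] Q) (T : σ → O →ₐ[ℂ] A) (c : O →ₐ[ℂ] A)
      (e : A →ₐ[ℂ] O), Cp d t x u ν T c e := by
  let B := MvPolynomial (ι × σ) O
  let B' := MvPolynomial (ι × σ) κ
  let ν₀ : PowerSeries B →ₐ[ℂ] PowerSeries B' := PowerSeries.mapAlgHom (mapAlgHom ρ)
  let i := IsScalarTower.toAlgHom ℂ (PowerSeries B') (FractionRing (PowerSeries B'))
  have inj : Function.Injective i := IsFractionRing.injective (PowerSeries B') _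
  let T : σ → O →+* PowerSeries B := fun j => ty C (fun a => X (a, j)) h
  have dv : ∀ a : PowerSeries B, (∀ n, C t ∣ PowerSeries.coeff n a) →
      PowerSeries.C (C t) ∣ a := fun a k => by
    choose b hb using k
    exact ⟨PowerSeries.mk b, PowerSeries.ext fun n => by
      rw [PowerSeries.coeff_C_mul, PowerSeries.coeff_mk, hb]⟩
  have mC : ∀ a, mapAlgHom ρ (C a : B) = C (ρ a) := map_C _
  have mX : ∀ a, mapAlgHom ρ (X a : B) = X a := map_X _
  have al : ∀ c, algebraMap ℂ (PowerSeries B) c = PowerSeries.C (C (algebraMap ℂ O c)) :=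
    fun c => by rw [PowerSeries.algebraMap_apply, MvPolynomial.algebraMap_apply]
  refine ⟨PowerSeries B, FractionRing (PowerSeries B'), _, inferInstance, inferInstance, _, _, _,
    i.comp ν₀, fun j => { T j with commutes' := fun c => (ty_cst h fun a => hc a c).trans (al c).symm },
    { (PowerSeries.C.comp C : O →+* PowerSeries B) with commutes' := fun c => (al c).symm },
    { (constantCoeff.comp PowerSeries.constantCoeff : PowerSeries B →+* O) with
      commutes' := fun c => by rw [al]; exact constantCoeff_C _ _ }, fun j f => ?_,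
    fun f => constantCoeff_C _ _,
    fun j f hf => ty_cst (c := C) (ξ := fun a => X (a, j)) h hf, fun a => ?_, fun j => ?_, ?_⟩
  · exact (congrArg constantCoeff (ty_cc (ξ := fun a => X (a, j)) h f)).trans (constantCoeff_C _ _)
  · refine (map_eq_zero_iff i inj).trans ⟨fun k => dv a fun n => (C_dvd_iff_dvd_coeff _ _).2
      fun m => (hρ _).1 ?_, ?_⟩
    · exact (coeff_map (ρ : O →+* κ) _ m).symm.trans
        (congrArg (fun z => coeff m (PowerSeries.coeff n z)) k)
    · rintro ⟨b, rfl⟩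
      refine (map_mul ν₀ _ _).trans (mul_eq_zero_of_left ?_ _)
      change PowerSeries.map _ (PowerSeries.C (C t)) = 0
      simp [mC, (hρ t).2 dvd_rfl]
  · obtain ⟨v, hv⟩ := dv (T j t) fun n => by rw [ty_coeff]; exact tm_dvd h ht n dvd_rfl
    have k : PowerSeries.constantCoeff v = 1 := by
      have := congrArg PowerSeries.constantCoeff hv
      rw [ty_cc, map_mul, PowerSeries.constantCoeff_C] at this
      exact (mul_eq_left₀ (C_ne_zero.2 t0)).1 this.symm
    obtain ⟨v, rfl⟩ := PowerSeries.isUnit_iff_constantCoeff.2 (k ▸ isUnit_one)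
    exact ⟨v, hv, (congrArg constantCoeff k).trans (map_one _)⟩
  · let g : Polynomial B' →ₐ[κ] PowerSeries B' :=
      (Polynomial.coeToPowerSeries.algHom B').restrictScalars κ
    let q : Polynomial B' →ₐ[κ] B' := (aeval fun p : ι × σ => (X p - C (ρ (x p.1)) : B')).comp
      ((Polynomial.aeval (1 : B')).restrictScalars κ)
    have a : AlgebraicIndependent κ fun p : ι × σ =>
        (Polynomial.C (C (ρ (x p.1))) + Polynomial.C (X p) * Polynomial.X : Polynomial B') :=
      .of_comp q (by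
        convert algebraicIndependent_X (ι × σ) κ using 1
        funext p
        simp [q, B'])
    have b := (hu.sumElim_comp (a.map' (f := g) fun _ _ k =>
      Polynomial.coe_injective B' (by simpa [g] using k))).map' inj
    refine (congrArg (fun w => AlgebraicIndependent ℂ w) (funext fun p => congrArg i ?_)).mpr b
    rcases p with p | m
    · change PowerSeries.map _ (ty C _ h (x p.1)) = _
      rw [ty_lin h fun a => hx a p.1]
      simp [g, mC, mX]
    · change PowerSeries.map _ (PowerSeries.C (C (u m))) = _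
      simp [PowerSeries.algebraMap_apply, mC, B']

theorem ap_congr {K ι κ : Type} [Field K] [Algebra ℂ K] [Fintype ι] [Fintype κ] {n : ℕ}
    (hK : FF K n) (h : Fintype.card ι = n) (e : ι ≃ κ) {y : ι → K} {z : κ → K} {P : Pl K}
    (k : ∀ i, z (e i) = y i) (a : Ap P y) : Ap P z := by
  rw [Ap, kq_congr hK h e k, a, ← e.sum_comp]
  simp only [k]

/-- one copy and the other copies -/
def on (τ ι : Type) {s : ℕ} (j : Fin s) : (τ ⊕ ι) ⊕ ι × {i // i ≠ j} ≃ τ ⊕ ι × Fin s where
  toFun := Sum.elim (cp j) fun p => .inr (p.1, p.2)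
  invFun := Sum.elim (fun b => .inl (.inl b)) fun p =>
    if h : p.2 = j then .inl (.inr p.1) else .inr (p.1, ⟨p.2, h⟩)
  left_inv := by rintro ((_ | _) | ⟨a, i, h⟩) <;> simp [cp, *]
  right_inv := by
    rintro (_ | ⟨a, i⟩)
    · rfl
    · by_cases h : i = j <;> simp [cp, h]

section pw

variable {L F E ι σ τ : Type} [Field L] [Field F] [Field E] [Algebra ℂ L] [Algebra ℂ F]
  [Algebra ℂ E] [Algebra L F] [IsScalarTower ℂ L F] [Fintype ι] [Fintype σ] [Fintype τ] {s k : ℕ}
  {φ : L →ₐ[ℂ] E} {ψ : Fin s → F →ₐ[ℂ] E}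

variable (ι k φ ψ) in
/-- `E` is the function field of the fibre power -/
structure Fp : Prop where
  fL : FF L k
  fF : FF F (Fintype.card ι + k)
  fE : FF E (k + Fintype.card ι * s)
  pos : 0 < s
  sq : ∀ j a, ψ j (algebraMap L F a) = φ a
  gen : ∀ S : IntermediateField ℂ E, (∀ j f, ψ j f ∈ S) → ∀ x, x ∈ S

/-- the frame of a factor -/
def g1 (t : τ → L) (x : ι → F) : τ ⊕ ι → F := Sum.elim (algebraMap L F ∘ t) x

variable (φ ψ) in
/-- the frame of the fibre power -/
def gs (t : τ → L) (x : Fin s → ι → F) : τ ⊕ ι × Fin s → E :=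
  Sum.elim (φ ∘ t) fun p => ψ p.2 (x p.2 p.1)

variable (φ ψ) in
/-- the defect of the frame -/
def df (t : τ → L) (x : Fin s → ι → F) : BD E :=
  kq (gs φ ψ t x) + 1 - ∑ j, pb (ψ j : F →+* E) (kq (g1 t (x j)) + 1) +
    (s - 1 : ℝ) • pb (φ : L →+* E) (kq t + 1)

theorem ind_g {t : τ → L} {x : ι → F} (a : AlgebraicIndependent ℂ t)
    (b : AlgebraicIndependent L x) : AlgebraicIndependent ℂ (g1 t x) :=
  (algebraicIndependent_equiv' (Equiv.sumComm _ _) (by funext i; rcases i with i | i <;> rfl)).1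
    (ind1 b a)

namespace Fp

variable (h : Fp ι k φ ψ) {t : τ → L} {z : σ → L} {x y : Fin s → ι → F}
include h

theorem cmp (j : Fin s) : (ψ j : F →+* E).comp (algebraMap L F) = φ := RingHom.ext (h.sq j)

theorem cp (j : Fin s) (i : τ ⊕ ι) : gs φ ψ t x (cp j i) = ψ j (g1 t (x j) i) := by
  rcases i with i | i
  exacts [(h.sq j _).symm, rfl]

variable (c : Fintype.card τ = k) (a : AlgebraicIndependent ℂ t)
  (b : ∀ j, AlgebraicIndependent L (x j))
include c

theorem c1 : Fintype.card (τ ⊕ ι) = Fintype.card ι + k := by rw [Fintype.card_sum, c, add_comm]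

theorem cs : Fintype.card (τ ⊕ ι × Fin s) = k + Fintype.card ι * s := by simp [c]

include a b

theorem ind : AlgebraicIndependent ℂ (gs φ ψ t x) :=
  Gm.ind_of_cl h.fE (h.gen _ fun j f => Gm.cl_map (ρ := (ψ j : F →+* E))
    (fun c => ⟨c, ((ψ j).commutes c).symm⟩) (forall_mem_range.2 fun i => Gm.sub_Cl ⟨_, h.cp j i⟩)
    (Gm.cl_basis h.fF (ind_g a (b j)) (h.c1 c).ge f)) (h.cs c).le

theorem one (j : Fin s) {u : ι → F} (d : AlgebraicIndependent L u) :
    df φ ψ t (Function.update x j u) = df φ ψ t x := by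
  have e : ∀ {x' : Fin s → ι → F}, (∀ i, i ≠ j → x' i = x i) → ∀ i, gs φ ψ t x' (on τ ι j i) =
      Sum.elim ((ψ j : F →+* E) ∘ g1 t (x' j)) (fun p : ι × {i // i ≠ j} => ψ p.2 (x p.2 p.1)) i := by
    rintro x' q (i | ⟨i, l, hl⟩)
    exacts [h.cp j i, congrArg (fun f => ψ l (f i)) (q l hl)]
  have n := (Fintype.card_congr (on τ ι j)).trans (h.cs c)
  have e1 := e (x' := x) fun _ _ => rfl
  have k := kq_chg (φ := (ψ j : F →+* E)) h.fF h.fE (ψ j).commutes (h.c1 c) (h.c1 c)
    (by rw [← n, Fintype.card_sum, h.c1 c]) (ind_g a d) (ind_g a (b j))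
    ((algebraicIndependent_equiv' (on τ ι j) (funext e1)).2 (h.ind c a b))
  rw [df, df, kq_congr h.fE n _ (e fun i hi => Function.update_of_ne hi _ _), kq_congr h.fE n _ e1,
    Function.update_self, k, ← Finset.add_sum_erase _ _ (Finset.mem_univ j),
    ← Finset.add_sum_erase _ _ (Finset.mem_univ j), Function.update_self, Finset.sum_congr rfl
      fun i hi => by rw [Function.update_of_ne (Finset.ne_of_mem_erase hi)]]
  simp only [pb_add, pb_sub]
  abel

/-- the defect does not depend on the frame -/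
theorem chg (c' : Fintype.card σ = k) (a' : AlgebraicIndependent ℂ z)
    (b' : ∀ j, AlgebraicIndependent L (y j)) : df φ ψ z y = df φ ψ t x := by
  classical
  have e : ∀ S : Finset (Fin s), df φ ψ t (S.piecewise y x) = df φ ψ t x := fun S => by
    induction S using Finset.induction_on with
    | empty => simp
    | insert j S _ ih =>
      rw [Finset.piecewise_insert, h.one c a (fun i => ?_) j (b' j), ih]
      rw [Finset.piecewise]
      split_ifs
      exacts [b' i, b i]
  have e1 : kq (gs φ ψ z y) = kq (gs φ ψ t y) + _ := kq_chg (φ := (φ : L →+* E)) h.fL h.fE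
    φ.commutes c' c (by simp) a' a (h.ind c a b')
  have e2 : ∀ j, kq (g1 z (y j)) = kq (g1 t (y j)) + _ := fun j => kq_chg h.fL h.fF (lin L F) c' c
    (add_comm _ _) a' a (ind_g a (b' j))
  have e3 : ∀ j D, pb (ψ j : F →+* E) (pb (algebraMap L F) D) = pb (φ : L →+* E) D := fun j D => by
    rw [← (h.fE.ok (ψ j)).pb_comp, h.cmp]
  rw [← e Finset.univ, Finset.piecewise_univ, df, df, e1]
  simp only [e2, pb_add, pb_sub, e3, Finset.sum_add_distrib, Finset.sum_const, Finset.card_univ,
    Fintype.card_fin, ← Nat.cast_smul_eq_nsmul ℝ]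
  module

omit a b in
theorem val {w : Pl E} (p : ∀ j, Trv (ψ j : F →+* E) w ∨ ∃ v, Lies (ψ j : F →+* E) w v ∧
      Ap v (g1 t (x j))) (q : Trv (φ : L →+* E) w ∨ ∃ v, Lies (φ : L →+* E) w v ∧ Ap v t) :
    df φ ψ t x w = kq (gs φ ψ t x) w + 1 - ∑ i, (w.ord (gs φ ψ t x i) : ℝ) := by
  simp only [df, Pi.add_apply, Pi.sub_apply, Finset.sum_apply, Pi.smul_apply, fun j => pb_ap (p j),
    pb_ap q]
  simp only [Fintype.sum_sum_type, g1, gs, Sum.elim_inl, Sum.elim_inr, Function.comp_apply, RingHom.coe_coe,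
    h.sq, Finset.sum_add_distrib, Finset.sum_const, Finset.card_univ, Fintype.card_fin,
    Fintype.sum_prod_type_right, smul_eq_mul, nsmul_eq_mul, Pi.one_apply]
  ring

omit a b in
theorem re {κ : Type} [Fintype κ] {u : κ → F} (e : Fintype.card κ = Fintype.card ι)
    (d : AlgebraicIndependent L u) {v : Pl F} (p : Ap v (f1 u t)) :
    AlgebraicIndependent L (u ∘ (Fintype.equivOfCardEq e).symm) ∧
      Ap v (g1 t (u ∘ (Fintype.equivOfCardEq e).symm)) :=
  ⟨d.comp _ (Equiv.injective _), ap_congr h.fF (by rw [Fintype.card_sum, e, c])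
    ((Equiv.sumComm _ _).trans ((Equiv.refl _).sumCongr (Fintype.equivOfCardEq e)))
    (by rintro (i | i) <;> simp [g1, f1]) p⟩

/-- **the inequality** -/
theorem ge (w : Pl E) : 0 ≤ df φ ψ t x w := by
  have key : ∀ {σ : Type} [Fintype σ] {z : σ → L}, Fintype.card σ = k → AlgebraicIndependent ℂ z →
      (∀ j, ∃ y, AlgebraicIndependent L y ∧ (Trv (ψ j : F →+* E) w ∨
        ∃ v, Lies (ψ j : F →+* E) w v ∧ Ap v (g1 (ι := ι) z y))) →
      (Trv (φ : L →+* E) w ∨ ∃ v, Lies (φ : L →+* E) w v ∧ Ap v z) → 0 ≤ df φ ψ t x w := by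
    intro σ _ z c' a' p q
    choose y b' p using p
    rw [← h.chg c a b c' a' b', h.val c' p q, sub_nonneg]
    exact sum_le_kq h.fE (h.cs c') (h.ind c' a' b') w
  rcases h.fE.ok φ w with r | ⟨u, l⟩
  · refine key c a (fun j => ?_) (.inl r)
    rcases h.fE.ok (ψ j) w with r' | ⟨v, l⟩
    · exact ⟨_, b j, .inl r'⟩
    · obtain ⟨σ, _, y, p, q, r'⟩ := ad_hr h.fL h.fF a c (v := v) fun f => (l _).2
        ((h.sq j f).symm ▸ r f :)
      exact ⟨_, (h.re c p q r').1, .inr ⟨v, l, (h.re c p q r').2⟩⟩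
  · obtain _ | k := k
    · exact (no_pl h.fL u).elim
    obtain ⟨z, hz⟩ := exists_az h.fL u
    refine key (by simp) hz.indep (fun j => ?_) (.inr ⟨u, l, hz.ap h.fL (by simp)⟩)
    rw [← h.cmp j] at l
    obtain ⟨v, l'⟩ := (h.fE.ok (ψ j) w).resolve_left fun s => l.not_trv (s.comp _)
    obtain ⟨y, -, p, q⟩ := ad_vt h.fL h.fF hz (by simp) (l'.of_comp l)
    have := h.re (by simp) (Fintype.card_fin _) p q
    exact ⟨_, this.1, .inr ⟨v, l', this.2⟩⟩

end Fp

end pw

end Vale.Agent.P283B.Ld
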