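import Vale.Agent.P283B.LS.Diag
import Vale.Agent.P287D.On.Val
import Vale.Agent.P287D.Gm.IrrA

/-!
# P283B, block LS: the component of the fibre power through the diagonal
-/

set_option linter.unusedVariables false
set_option linter.unusedSectionVars false

open Set MvPolynomial
open Vale.Agent.P297 (Place)
open Vale.Agent.P297Z Vale.Agent.P287D Vale.Agent.P287D.Cb

noncomputable section

namespace Vale.Agent.P283B.Ld

open Wp Ls Bi

theorem ind_ty {κ α τ : Type} [Field κ] [Algebra ℂ κ] (x : α → κ) {u : τ → κ}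
    (hu : AlgebraicIndependent ℂ u) : AlgebraicIndependent ℂ (Sum.elim (fun p => PowerSeries.C
      (C (x p)) + PowerSeries.C (X p) * PowerSeries.X) fun m => PowerSeries.C (C (u m)) :
        α ⊕ τ → PowerSeries (MvPolynomial α κ)) := by
  let B := MvPolynomial α κ
  let g : Polynomial B →ₐ[κ] PowerSeries B :=
    (Polynomial.coeToPowerSeries.algHom B).restrictScalars κ
  let q : Polynomial B →ₐ[κ] B := (aeval fun p => (X p - C (x p) : B)).comp
    ((Polynomial.aeval (1 : B)).restrictScalars κ)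
  have a : AlgebraicIndependent κ fun p =>
      (Polynomial.C (C (x p)) + Polynomial.C (X p) * Polynomial.X : Polynomial B) :=
    .of_comp q (by
      convert algebraicIndependent_X α κ using 1
      funext p
      simp [q, B])
  refine (congrArg (fun w => AlgebraicIndependent ℂ w) (funext ?_)).mp
    (hu.sumElim_comp (a.map' (f := g) fun _ _ k =>
      Polynomial.coe_injective B (by simpa [g] using k)))
  rintro (p | m)
  · simp [g]
  · simp [PowerSeries.algebraMap_apply, B]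

/-- the Taylor series along the diagonal -/
structure Cq {R O A Q α τ : Type} [CommRing R] [Algebra ℂ R] [CommRing O] [Algebra ℂ O]
    [CommRing A] [Algebra ℂ A] [Field Q] [Algebra ℂ Q] (d : α → R → R) (δ : R →ₐ[ℂ] O) (t : O)
    (x : α → R) (u : τ → O) (ν : A →ₐ[ℂ] Q) (T : R →ₐ[ℂ] A) (c : O →ₐ[ℂ] A) (e : A →ₐ[ℂ] O) :
    Prop where
  eT : ∀ f, e (T f) = δ f
  ec : ∀ f, e (c f) = f
  cst : ∀ f, (∀ a, d a f = 0) → T f = c (δ f)
  ker : ∀ a, ν a = 0 ↔ c t ∣ a
  un : ∀ f, δ f = t → (∀ a, f ∣ d a f) → ∃ v : Aˣ, T f = c t * v ∧ e v = 1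
  ind : AlgebraicIndependent ℂ fun i => ν (Sum.elim (fun a => T (x a)) (fun m => c (u m)) i)

theorem exists_cq {R O κ α τ : Type} [CommRing R] [Algebra ℂ R] [CommRing O] [IsDomain O]
    [IsNoetherianRing O] [Algebra ℂ O] [Field κ] [Algebra ℂ κ] [Fintype α] [DecidableEq α]
    (ρ : O →ₐ[ℂ] κ) (δ : R →ₐ[ℂ] O) {d : α → R → R} (h : Dv d) {t : O} {x : α → R} {u : τ → O}
    (t0 : t ≠ 0) (hρ : ∀ a, ρ a = 0 ↔ t ∣ a) (hc : ∀ a c, d a (algebraMap ℂ R c) = 0)
    (hx : ∀ a b, d a (x b) = if a = b then 1 else 0)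
    (hu : AlgebraicIndependent ℂ fun m => ρ (u m)) :
    ∃ (A Q : Type) (_ : CommRing A) (_ : IsDomain A) (_ : IsNoetherianRing A) (_ : Algebra ℂ A)
      (_ : Field Q) (_ : Algebra ℂ Q) (ν : A →ₐ[ℂ] Q) (T : R →ₐ[ℂ] A) (c : O →ₐ[ℂ] A)
      (e : A →ₐ[ℂ] O), Cq d δ t x u ν T c e := by
  let B := MvPolynomial α O
  let B' := MvPolynomial α κ
  let ν₀ : PowerSeries B →ₐ[ℂ] PowerSeries B' := PowerSeries.mapAlgHom (mapAlgHom ρ)
  let i := IsScalarTower.toAlgHom ℂ (PowerSeries B') (FractionRing (PowerSeries B'))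
  have inj : Function.Injective i := IsFractionRing.injective (PowerSeries B') _
  let c₀ : R →+* B := C.comp (δ : R →+* O)
  let T : R →+* PowerSeries B := ty c₀ X h
  have dv : ∀ a : PowerSeries B, (∀ n, C t ∣ PowerSeries.coeff n a) →
      PowerSeries.C (C t) ∣ a := fun a k => by
    choose b hb using k
    exact ⟨PowerSeries.mk b, PowerSeries.ext fun n => by
      rw [PowerSeries.coeff_C_mul, PowerSeries.coeff_mk, hb]⟩
  have mC : ∀ a, mapAlgHom ρ (C a : B) = C (ρ a) := map_C _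
  have mX : ∀ a, mapAlgHom ρ (X a : B) = X a := map_X _
  have al : ∀ c, algebraMap ℂ (PowerSeries B) c = PowerSeries.C (C (algebraMap ℂ O c)) :=
    fun c => by rw [PowerSeries.algebraMap_apply, MvPolynomial.algebraMap_apply]
  refine ⟨PowerSeries B, FractionRing (PowerSeries B'), _, inferInstance, inferInstance, _, _, _,
    i.comp ν₀, { T with commutes' := fun c => (ty_cst h fun a => hc a c).trans (by
      rw [al, ← δ.commutes]; rfl) },
    { (PowerSeries.C.comp C : O →+* PowerSeries B) with commutes' := fun c => (al c).symm },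
    { (constantCoeff.comp PowerSeries.constantCoeff : PowerSeries B →+* O) with
      commutes' := fun c => by rw [al]; exact constantCoeff_C _ _ }, fun f => ?_,
    fun f => constantCoeff_C _ _, fun f hf => ty_cst (c := c₀) (ξ := X) h hf, fun a => ?_,
    fun f e ht => ?_, ?_⟩
  · exact (congrArg constantCoeff (ty_cc (c := c₀) (ξ := X) h f)).trans (constantCoeff_C _ _)
  · refine (map_eq_zero_iff i inj).trans ⟨fun k => dv a fun n => (C_dvd_iff_dvd_coeff _ _).2
      fun m => (hρ _).1 ?_, ?_⟩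
    · exact (coeff_map (ρ : O →+* κ) _ m).symm.trans
        (congrArg (fun z => coeff m (PowerSeries.coeff n z)) k)
    · rintro ⟨b, rfl⟩
      refine (map_mul ν₀ _ _).trans (mul_eq_zero_of_left ?_ _)
      change PowerSeries.map _ (PowerSeries.C (C t)) = 0
      simp [mC, (hρ t).2 dvd_rfl]
  · subst e
    obtain ⟨v, hv⟩ := dv (T f) fun n => by rw [ty_coeff]; exact tm_dvd h ht n dvd_rfl
    have k : PowerSeries.constantCoeff v = 1 := by
      have := congrArg PowerSeries.constantCoeff hv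
      rw [ty_cc, map_mul, PowerSeries.constantCoeff_C] at this
      exact (mul_eq_left₀ (C_ne_zero.2 t0)).1 this.symm
    obtain ⟨v, rfl⟩ := PowerSeries.isUnit_iff_constantCoeff.2 (k ▸ isUnit_one)
    exact ⟨v, hv, (congrArg constantCoeff k).trans (map_one _)⟩
  · refine (congrArg (fun w => AlgebraicIndependent ℂ w) (funext fun p => congrArg i ?_)).mpr
      ((ind_ty (fun a => ρ (δ (x a))) hu).map' inj)
    rcases p with p | m
    · change PowerSeries.map _ (ty c₀ X h (x p)) = _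
      rw [ty_lin h fun a => hx a p]
      simp [c₀, mC, mX]
    · change PowerSeries.map _ (PowerSeries.C (C (u m))) = _
      simp [mC]

variable {L F E ι σ : Type} [Field L] [Field F] [Field E] [Algebra ℂ L] [Algebra ℂ F]
  [Algebra ℂ E] [Algebra L F] [IsScalarTower ℂ L F] [Fintype ι] [Fintype σ] {s k : ℕ}
  {φ : L →ₐ[ℂ] E} {ψ : Fin s → F →ₐ[ℂ] E} {v : Pl L} {P : Pl F} {z : Fin k → L} {x : ι → F}

/-- the ring generated by the copies -/
def Bd (ψ : Fin s → F →ₐ[ℂ] E) : Subalgebra ℂ E := Algebra.adjoin ℂ (⋃ j, range (ψ j))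

theorem mem_Bd (j : Fin s) (f : F) : ψ j f ∈ Bd ψ :=
  Algebra.subset_adjoin (mem_iUnion.2 ⟨j, f, rfl⟩)

theorem gen_fin {n : ℕ} (hF : FF F n) : ∃ S : Finset F, ∀ (E : Type) [Field E] [Algebra ℂ E]
    (a : F →ₐ[ℂ] E) (M : IntermediateField ℂ E), (∀ f ∈ S, a f ∈ M) → ∀ f, a f ∈ M := by
  have := hF.ess
  obtain ⟨S, g⟩ := (IntermediateField.fg_top_iff (F := ℂ) (E := F)).2 inferInstance
  exact ⟨S, fun E _ _ a M h f => (IntermediateField.adjoin_le_iff (T := M.comap a)).2 h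
    (g ▸ IntermediateField.mem_top)⟩

theorem exists_ty (s : ℕ) (hL : FF L k) (hF : FF F (Fintype.card ι + k))
    (hz : AlgebraicIndependent ℂ z) (hx : AlgebraicIndependent L x) :
    ∃ (A : Type) (_ : CommRing A) (_ : IsDomain A) (_ : Algebra ℂ A) (T : Fin s → F →ₐ[ℂ] A)
      (c : F →ₐ[ℂ] A) (e : A →ₐ[ℂ] F), (∀ j a, T j (algebraMap L F a) = c (algebraMap L F a)) ∧
      (∀ j f, e (T j f) = f) ∧ AlgebraicIndependent ℂ
        (Sum.elim (fun p : ι × Fin s => T p.2 (x p.1)) fun i => c (algebraMap L F (z i))) := by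
  classical
  have : CharZero L := charZero_of L
  choose D hD using fun a => P297.H927.exists_derivation_of_basis
    (hx.isTranscendenceBasis_of_trdeg_le_of_finite (by simp [trdegL hL hF]))
    fun b => if a = b then (1 : F) else 0
  have h : Dv fun a => D a := ⟨fun a => map_add _, fun a f g => ((D a).leibniz f g).trans (by
    simp; ring)⟩
  let B := MvPolynomial (ι × Fin s) F
  have al : ∀ c, algebraMap ℂ (PowerSeries B) c = PowerSeries.C (C (algebraMap ℂ F c)) :=
    fun c => by rw [PowerSeries.algebraMap_apply, MvPolynomial.algebraMap_apply]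
  have cs : ∀ j a, ty C (fun a => (X (a, j) : B)) h (algebraMap L F a) =
      PowerSeries.C (C (algebraMap L F a)) := fun j a => ty_cst h fun b => (D b).map_algebraMap a
  refine ⟨PowerSeries B, _, inferInstance, _, fun j => { ty C (fun a => (X (a, j) : B)) h with
      commutes' := fun c => by rw [al, ← lin L F]; exact cs j _ },
    { (PowerSeries.C.comp C : F →+* PowerSeries B) with commutes' := fun c => (al c).symm },
    { (constantCoeff.comp PowerSeries.constantCoeff : PowerSeries B →+* F) with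
      commutes' := fun c => by rw [al]; exact constantCoeff_C _ _ }, cs, fun j f =>
    (congrArg constantCoeff (ty_cc (ξ := fun a => X (a, j)) h f)).trans (constantCoeff_C _ _), ?_⟩
  refine (congrArg (fun w => AlgebraicIndependent ℂ w) (funext ?_)).mp
    (ind_ty (fun p : ι × Fin s => x p.1) (ind_ah (lin L F) hz))
  rintro (i | i)
  exacts [(ty_lin (c := C) (ξ := fun a => (X (a, i.2) : B)) h fun a => hD a i.1).symm, rfl]

/-- **existence** of the component through the diagonal -/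
theorem exists_fp (hL : FF L k) (hF : FF F (Fintype.card ι + k)) (s0 : 0 < s) :
    ∃ (E : Type) (_ : Field E) (_ : Algebra ℂ E) (φ : L →ₐ[ℂ] E) (ψ : Fin s → F →ₐ[ℂ] E)
      (δ : Bd ψ →ₐ[ℂ] F), Fp ι k φ ψ ∧ ∀ j f, δ ⟨_, mem_Bd j f⟩ = f := by
  classical
  obtain ⟨z, hz, -⟩ := id hL
  obtain ⟨x, hx⟩ := exists_y hL hF
  replace hx := hx.comp _ (Fintype.equivFin ι).injective
  generalize x ∘ Fintype.equivFin ι = y at hx
  obtain ⟨A, _, _, _, T, c, e, cs, eT, iT⟩ := exists_ty s hL hF hz hx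
  let μ := IsScalarTower.toAlgHom ℂ A (FractionRing A)
  have iμ : Function.Injective μ := IsFractionRing.injective A _
  obtain ⟨E, hE⟩ : ∃ E, E = IntermediateField.adjoin ℂ (⋃ j, range (μ.comp (T j))) := ⟨_, rfl⟩
  let ψ : Fin s → F →ₐ[ℂ] E := fun j => (μ.comp (T j)).codRestrict E.toSubalgebra fun f =>
    hE.ge (IntermediateField.subset_adjoin _ _ (mem_iUnion.2 ⟨j, f, rfl⟩))
  let φ := (ψ ⟨0, s0⟩).comp (IsScalarTower.toAlgHom ℂ L F)
  have sq : ∀ j a, ψ j (algebraMap L F a) = φ a := fun j a =>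
    Subtype.ext (congrArg μ ((cs j a).trans (cs _ a).symm))
  have gen : ∀ S : IntermediateField ℂ E, (∀ j f, ψ j f ∈ S) → ∀ x, x ∈ S := fun S k x => by
    obtain ⟨y, h1, h2⟩ := (IntermediateField.adjoin_le_iff (T := S.map E.val)).2
      (iUnion_subset fun j => range_subset_iff.2 fun f => ⟨_, k j f, rfl⟩) (hE.le x.2)
    exact (Subtype.ext h2 : y = x) ▸ h1
  have le : ∀ g : Bd ψ, (E.val.comp (Bd ψ).val) g ∈ μ.range := fun g =>
    (Algebra.adjoin_le (S := μ.range.comap E.val) (iUnion_subset fun j => range_subset_iff.2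
      fun f => ⟨T j f, rfl⟩)) g.2
  refine ⟨E, _, _, φ, ψ, e.comp ((AlgEquiv.ofInjective μ iμ).symm.toAlgHom.comp
    ((E.val.comp (Bd ψ).val).codRestrict _ le)), ⟨hL, hF, ?_, s0, sq, gen⟩, fun j f => ?_⟩
  · obtain ⟨S, hS⟩ := gen_fin hF
    have : Algebra.EssFiniteType ℂ E := IntermediateField.fg_top_iff.1
      ⟨Finset.univ.biUnion fun j => S.image (ψ j), eq_top_iff.2 fun x _ => gen _ (fun j => hS _ _ _
        fun f hf => IntermediateField.subset_adjoin _ _ (Finset.mem_coe.2 (Finset.mem_biUnion.2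
          ⟨j, Finset.mem_univ j, Finset.mem_image_of_mem _ hf⟩))) x⟩
    have i : AlgebraicIndependent ℂ (gs φ ψ z fun _ => y) := .of_comp E.val
      ((congrArg (fun w => AlgebraicIndependent ℂ w) (funext (by
        rintro (i | i)
        exacts [congrArg μ (cs _ _).symm, rfl]))).mp
        ((iT.comp _ (Equiv.sumComm _ _).injective).map' iμ))
    have al : Algebra.IsAlgebraic (Algebra.adjoin ℂ (range (gs φ ψ z fun _ => y))) E := ⟨fun x =>
      Gm.mem_Cl.1 (gen _ (fun j f => Gm.cl_map (ρ := (ψ j : F →+* E))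
        (fun c => ⟨c, ((ψ j).commutes c).symm⟩) (forall_mem_range.2 (by
          rintro (i | i)
          exacts [Gm.sub_Cl ⟨.inl i, (sq j _).symm⟩, Gm.sub_Cl ⟨.inr (i, j), rfl⟩]))
        (Gm.cl_basis hF (ind_g hz hx) (by simp [add_comm]) f)) x)⟩
    refine Gm.ff_of_ess ?_
    rw [← (i.isTranscendenceBasis_iff_isAlgebraic.2 al).cardinalMk_eq_trdeg]
    simp
  · exact (congrArg e ((AlgEquiv.ofInjective μ iμ).symm_apply_apply (T j f))).trans (eT j f)

/-- the derivations of the fibre power -/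
theorem Fp.der [DecidableEq ι] {τ : Type} [Fintype τ] (h : Fp ι k φ ψ) {z : τ → L}
    (c : Fintype.card τ = k) (hz : AlgebraicIndependent ℂ z) (hx : AlgebraicIndependent L x)
    {D : ι → Derivation L F F} (hD : ∀ a b, D a (x b) = if a = b then 1 else 0) :
    ∃ d : ι × Fin s → Derivation ℂ E E, ∀ p j f,
      d p (ψ j f) = if j = p.2 then ψ j (D p.1 f) else 0 := by
  classical
  choose d hd using fun p => P297.H927.exists_derivation_of_basis
    ((h.ind c hz fun _ => hx).isTranscendenceBasis_of_trdeg_le_of_finite (by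
      rw [h.fE.trdeg, Cardinal.mk_fintype, h.cs c])) fun i => if i = .inr p then (1 : E) else 0
  refine ⟨d, fun p j f => sub_eq_zero.1 ?_⟩
  have k : Dr (ψ j : F →+* E) fun f => d p (ψ j f) - if j = p.2 then ψ j (D p.1 f) else 0 :=
    ⟨fun a b => by split_ifs <;> simp [add_sub_add_comm],
      fun a b => by split_ifs <;> simp [add_sub_add_comm, mul_sub]⟩
  refine k.kill (fun c => by simp [← lin L F, h.sq]) (s := range (g1 z x)) ?_
    (Gm.mem_Cl.1 (Gm.cl_basis h.fF (ind_g hz hx) (h.c1 c).ge f))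
  rintro _ ⟨i, rfl⟩
  rw [← h.cp (x := fun _ => x), hd]
  rcases i with i | i
  · simp [g1, Ls.cp]
  · rcases p with ⟨a, l⟩
    by_cases e : j = l <;> simp [g1, Ls.cp, hD, e, apply_ite (ψ l), eq_comm]

theorem Fp.upg (h : Fp ι (k + 1) φ ψ) {δ : Bd ψ →ₐ[ℂ] F} (hδ : ∀ j f, δ ⟨_, mem_Bd j f⟩ = f)
    (av : Az v z) (l : Lies (algebraMap L F) P v) (az : Az P (g1 z x))
    (hx : AlgebraicIndependent L x) : ∃ w : Pl E, (∀ j, Lies (ψ j : F →+* E) w P) ∧
      Az w (gs φ ψ z fun _ => x) ∧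
      ∀ j (g : Bd ψ), δ g ≠ 0 → w.ord g ≤ w.ord (ψ j P.t) * P.ord (δ g) := by
  classical
  obtain ⟨D, hD, lg⟩ := exists_dv h.fL h.fF l az hx
  obtain ⟨dE, hd⟩ := h.der (by simp) av.indep hx hD
  let _ : Algebra ℂ P.ring := ((algebraMap ℂ F).codRestrict P.ring P.con).toAlgebra
  have := P.dvr
  let ρ : P.ring →ₐ[ℂ] P.κ :=
    { IsLocalRing.residue P.ring with commutes' := fun _ => rfl }
  obtain ⟨R, hR⟩ : ∃ R, R = Algebra.adjoin ℂ (⋃ j, ψ j '' P.ring) := ⟨_, rfl⟩
  have mR : ∀ j f, f ∈ P.ring → ψ j f ∈ R := fun j f m =>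
    hR.ge (Algebra.subset_adjoin (mem_iUnion.2 ⟨j, f, m, rfl⟩))
  have le : R ≤ Bd ψ := hR.trans_le (Algebra.adjoin_mono (iUnion_mono fun j => image_subset_range _ _))
  have iR : ∀ r (hr : r ∈ R), δ ⟨r, le hr⟩ ∈ P.ring ∧ ∀ p, dE p r ∈ R := fun r hr => by
    subst hR
    induction hr using Algebra.adjoin_induction with
    | mem a ha =>
      obtain ⟨j, f, m, rfl⟩ := mem_iUnion.1 ha
      refine ⟨(hδ j f).symm ▸ m, fun p => ?_⟩
      rw [hd]
      split_ifs
      exacts [mR _ _ ((lg _).2.rg (lg _).1 _ m), zero_mem _]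
    | algebraMap a => exact ⟨(δ.commutes a).symm ▸ P.con a, fun p => by simp⟩
    | add a b ka kb ha hb =>
      exact ⟨(map_add δ ⟨a, le ka⟩ ⟨b, le kb⟩).symm ▸ add_mem ha.1 hb.1,
        fun p => map_add (dE p) a b ▸ add_mem (ha.2 p) (hb.2 p)⟩
    | mul a b ka kb ha hb =>
      exact ⟨(map_mul δ ⟨a, le ka⟩ ⟨b, le kb⟩).symm ▸ mul_mem ha.1 hb.1,
        fun p => (dE p).leibniz a b ▸ add_mem (mul_mem ka (hb.2 p)) (mul_mem kb (ha.2 p))⟩
  let δ' : R →ₐ[ℂ] P.ring :=
    { ((δ.comp (Subalgebra.inclusion le) : R →ₐ[ℂ] F) : R →+* F).codRestrict P.ring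
      fun r => (iR r r.2).1 with
      commutes' := fun c => Subtype.ext ((δ.comp (Subalgebra.inclusion le)).commutes c) }
  let d : ι × Fin s → R → R := fun p r => ⟨dE p r, (iR r r.2).2 p⟩
  let t : P.ring := ⟨P.t, t_mem P⟩
  let u : Fin k ⊕ ι → P.ring := fun i => ⟨_, az.mem i⟩
  let i : Fin s → P.ring → R := fun j f => ⟨ψ j f, mR j f f.2⟩
  have δi : ∀ j f, δ' (i j f) = f := fun j f => Subtype.ext (hδ j f)
  have dv : ∀ a : P.ring, t ∣ a ↔ Mx P a := fun a =>
    ⟨fun ⟨b, e⟩ => e ▸ mx_t b.2, fun m => ⟨⟨_, m⟩, Subtype.ext (mul_div_cancel₀ _ P.t_ne).symm⟩⟩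
  have t0 : t ≠ 0 := fun e => P.t_ne (congrArg Subtype.val e)
  obtain ⟨A, Q, _, _, _, _, _, _, ν, T, c, e, q⟩ := exists_cq ρ δ' (d := d) (t := t)
    (x := fun p => i p.2 (u (.inr p.1))) (u := u) ⟨fun a f g => Subtype.ext (map_add _ _ _),
      fun a f g => Subtype.ext (((dE a).leibniz _ _).trans (by simp [d]; ring))⟩ t0
    (fun a => by rw [dv, ← rd_eq_zero a.2, rd_of a.2]; rfl)
    (fun a c => Subtype.ext ((dE a).map_algebraMap c))
    (fun a b => Subtype.ext ((hd a b.2 (x b.1)).trans (by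
      rcases a with ⟨a, j⟩
      rcases b with ⟨b, l⟩
      by_cases e : j = l <;> by_cases e' : a = b <;> simp [hD, e, e', @eq_comm _ l j])))
    ((congrArg (fun w => AlgebraicIndependent ℂ w) (funext fun i => rd_of (az.mem i))).mp az.ind)
  have un : ∀ j, ∃ o : Aˣ, T (i j t) = c t * o ∧ e o = 1 := fun j => q.un _ (δi j t) fun p => by
    by_cases k : j = p.2
    · obtain ⟨b, hb⟩ := (dv ⟨_, (lg p.1).2.rg (lg p.1).1 _ t.2⟩).2 ((lg p.1).2 _)
      exact ⟨i j b, Subtype.ext ((hd p j _).trans ((if_pos k).trans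
        ((congrArg (fun a : P.ring => ψ j a) hb).trans (map_mul _ _ _))))⟩
    · exact ⟨0, Subtype.ext ((hd p j _).trans ((if_neg k).trans (by simp)))⟩
  have cs : ∀ j (f : P.ring), (f : F) ∈ range (algebraMap L F) → T (i j f) = c f :=
    fun j f ⟨a, ha⟩ => (q.cst _ fun p => Subtype.ext ((hd p j f).trans (by simp [← ha]))).trans
      (congrArg c (δi j f))
  let j₀ : Fin s := ⟨0, h.pos⟩
  let G : Fin k ⊕ ι × Fin s → R :=
    Sum.elim (fun m => i j₀ (u (.inl m))) fun p => i p.2 (u (.inr p.1))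
  have iG : AlgebraicIndependent ℂ fun i => ν (T (G i)) :=
    (congrArg (fun w => AlgebraicIndependent ℂ w) (funext (by
      rintro (m | m)
      exacts [congrArg ν (cs _ _ ⟨_, rfl⟩).symm, rfl]))).mp
      (q.ind.comp (Sum.elim (fun m => .inr (.inl m)) .inl : Fin k ⊕ ι × Fin s → _) (by
        rintro (i | i) (j | j) <;> simp))
  have nz : c t ≠ 0 := fun z => t0 (by rw [← q.ec t, z, map_zero])
  have mx : ∀ j f, Mx P (f : P.ring) → ν (T (i j f)) = 0 := fun j f m => by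
    obtain ⟨g, rfl⟩ := (dv f).2 m
    obtain ⟨o, o1, -⟩ := un j
    rw [q.ker, show i j (t * g) = i j t * i j g from Subtype.ext (map_mul _ _ _), map_mul, o1,
      mul_assoc]
    exact dvd_mul_right _ _
  have z0 : ∀ j f, T (i j f) = 0 → (f : F) = 0 := fun j f z => congrArg Subtype.val
    ((δi j f).symm.trans ((q.eT _).symm.trans ((congrArg e z).trans (map_zero e))))
  let tv : P.ring := ⟨_, (l _).1 (t_mem v)⟩
  have iT : Function.Injective T := (injective_iff_map_eq_zero _).2 fun r hr => by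
    have a : AlgebraicIndependent ℂ (T ∘ fun o : Option _ => o.elim (i j₀ tv) G) :=
      (congrArg (fun w => AlgebraicIndependent ℂ w) (funext (by rintro (_ | _) <;> rfl))).mp
        (Pb.option_ind0 ν (T ∘ G) iG _ (fun z => (map_ne_zero _).2 v.t_ne (z0 j₀ tv z))
          (mx _ _ (mx_iff.2 (.inr l.e_pos))))
    by_contra r0
    obtain ⟨⟨b, hb⟩, b0, g, hg⟩ := (((a.of_comp T).isTranscendenceBasis_of_trdeg_le_of_finite
      ((trdeg_le_of_injective R.val Subtype.val_injective).trans (by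
        rw [h.fE.trdeg, Cardinal.mk_fintype, Nat.cast_le]; simp; omega))).isAlgebraic.1
        r).exists_nonzero_dvd (mem_nonZeroDivisors_of_ne_zero r0)
    rw [Algebra.adjoin_range_eq_range_aeval] at hb
    obtain ⟨p, rfl⟩ := hb
    have := congrArg T hg
    rw [map_mul, hr, zero_mul] at this
    obtain rfl := algebraicIndependent_iff.1 a p ((comp_aeval_apply _ T p).symm.trans this)
    exact b0 (Subtype.ext (map_zero _))
  let Ω := FractionRing A
  let μ := IsScalarTower.toAlgHom ℂ A Ω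
  have iμ : Function.Injective μ := IsFractionRing.injective A Ω
  have : IsFractionRing R E := .of_field _ _ fun g => by
    obtain ⟨a, ha, b, hb, e⟩ := IntermediateField.mem_adjoin_iff_div.1 (h.gen
      (IntermediateField.adjoin ℂ (⋃ j, ψ j '' P.ring)) (fun j f => (P.ring.mem_or_inv_mem f).elim
        (fun m => IntermediateField.subset_adjoin _ _ (mem_iUnion.2 ⟨j, f, m, rfl⟩)) fun m =>
        inv_mem_iff.1 (IntermediateField.subset_adjoin _ _ (mem_iUnion.2 ⟨j, _, m, map_inv₀ _ _⟩))) g)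
    exact ⟨⟨a, hR.ge ha⟩, ⟨b, hR.ge hb⟩, e⟩
  obtain ⟨Θ, hΘ⟩ : ∃ Θ : E →ₐ[ℂ] Ω, ∀ r : R, Θ r = μ (T r) := by
    have i : Function.Injective ((μ.comp T : R →ₐ[ℂ] Ω) : R →+* Ω) := iμ.comp iT
    have k : ∀ f : R, IsFractionRing.lift i (f : E) = μ (T f) := IsFractionRing.lift_algebraMap i
    exact ⟨ah _ fun a => (k (algebraMap ℂ _ a)).trans ((μ.comp T).commutes a), k⟩
  have hτ : ∀ j (f : P.ring), Θ (ψ j f) = μ (T (i j f)) := fun j f => hΘ (i j f)
  have pr := RingHom.ker_isPrime ν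
  obtain ⟨V, hV⟩ := Gm.Ga.mk_place (E := Ω) (RingHom.ker ν) ((q.ker _).2 dvd_rfl) nz
    fun a ha => let ⟨b, e⟩ := (q.ker a).1 ha; ⟨b, e.trans (mul_comm _ _)⟩
  have V1 : ∀ a o, ν o ≠ 0 → μ a / μ o ∈ V.ring := fun a o k => (hV _).2 ⟨a, o, k, div_eq_mul_inv _ _⟩
  have V2 : ∀ a, ν a = 0 → (μ a)⁻¹ ∈ V.ring → a = 0 := fun a k m => by
    obtain ⟨a', o, o1, o2⟩ := (hV _).1 m
    by_contra a0
    have o0 : μ o ≠ 0 := (map_ne_zero_iff _ iμ).2 fun z => o1 (by simp [z])
    have a1 := (map_ne_zero_iff _ iμ).2 a0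
    refine o1 (RingHom.mem_ker.2 ?_)
    rw [show o = a * a' from iμ (by rw [map_mul, show μ a' = (μ a)⁻¹ * μ o from
      ((eq_mul_inv_iff_mul_eq₀ o0).1 o2).symm, mul_inv_cancel_left₀ a1]), map_mul, k, zero_mul]
  have li : ∀ j f, f ∈ P.ring ↔ Θ (ψ j f) ∈ V.ring := fun j f => by
    refine ⟨fun m => by simpa [hτ j ⟨f, m⟩] using V1 (T (i j ⟨f, m⟩)) 1 (by simp), fun m => ?_⟩
    by_contra n
    have m' := (P.ring.mem_or_inv_mem f).resolve_left n
    exact n (inv_eq_zero.1 (z0 _ _ (V2 _ (mx j ⟨_, m'⟩ (by_contra fun z => n (inv_inv f ▸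
      inv_mem_of z))) (by rwa [← hτ, map_inv₀, map_inv₀, inv_inv]))) ▸ zero_mem _)
  have ΘG : ∀ i, Θ (gs φ ψ z (fun _ => x) i) = μ (T (G i)) := by
    rintro (i | i)
    exacts [(congrArg Θ (h.sq j₀ _).symm).trans (hτ _ (u (.inl i))), hτ _ (u (.inr i.1))]
  let a : Fin (k + Fintype.card ι * s) ≃ Fin k ⊕ ι × Fin s :=
    (Fintype.equivFinOfCardEq (by simp)).symm
  have iU : AlgebraicIndependent ℂ (gs φ ψ z fun _ => x) := .of_comp Θ
    ((congrArg (fun w => AlgebraicIndependent ℂ w) (funext ΘG)).mpr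
      ((AlgebraicIndependent.of_comp (x := fun i => T (G i)) ν iG).map' iμ))
  obtain ⟨w, hw, aw⟩ := Gm.pl_of (n := k + Fintype.card ι * s) (by convert h.fE using 1; omega)
    ⟨_, Pb.dvr_comap (Θ : E →+* Ω) V fun z => not_mx_one ((li j₀ _).2
      (z ▸ ValuationSubring.mem_top _ : ψ j₀ (1 / P.t) ∈ V.ring.comap (Θ : E →+* Ω)))⟩
    (IntermediateField.adjoin ℂ (range (gs φ ψ z fun _ => x))) (fun f => by
      obtain ⟨r, o, e⟩ := (IntermediateField.mem_adjoin_range_iff ℂ _ _).1 f.2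
      change Θ f.1 ∈ V.ring
      by_cases o0 : o = 0
      · simp [e, o0]
      rw [e, map_div₀, comp_aeval_apply, comp_aeval_apply, funext ΘG, ← comp_aeval_apply _ μ,
        ← comp_aeval_apply _ μ]
      exact V1 _ _ fun z => o0 (algebraicIndependent_iff.1 iG _ (comp_aeval_apply _ ν o ▸ z)))
    (iU.comp _ a.injective) fun i => IntermediateField.subset_adjoin _ _ ⟨_, rfl⟩
  have W : ∀ f, f ∈ w.ring ↔ Θ f ∈ V.ring := fun f => by rw [hw]; rfl
  have lw : ∀ j, Lies (ψ j : F →+* E) w P := fun j f => by rw [li j, W]; rfl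
  refine ⟨w, lw, ⟨fun i => a.apply_symm_apply i ▸ aw.mem _,
    (algebraicIndependent_equiv' a rfl).1 aw.ind⟩, fun j ⟨g, hg⟩ hp => ?_⟩
  obtain ⟨n, a, h1, h2⟩ : ∃ (n : ℕ) (a : A), Θ g * μ (c t) ^ n = μ a ∧
      δ ⟨g, hg⟩ * P.t ^ n = e a := by
    clear hp
    induction hg using Algebra.adjoin_induction with
    | mem g hg =>
      obtain ⟨j, f, rfl⟩ := mem_iUnion.1 hg
      obtain ⟨n, hn⟩ := exists_pow P fun _ : Unit => f
      obtain ⟨o, o1, o2⟩ := un j
      refine ⟨n, T (i j ⟨_, hn ()⟩) * ↑o⁻¹ ^ n, ?_, ?_⟩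
      · rw [map_mul, ← hτ, map_mul, map_mul, map_pow, map_pow, hτ j t, o1, mul_right_comm, map_pow,
          ← mul_pow, ← map_mul μ, Units.mul_inv_cancel_right, mul_comm]
      · have : e ↑o⁻¹ = 1 := by rw [← one_mul (e _), ← o2, ← map_mul, o.mul_inv, o2, map_one]
        rw [map_mul, map_pow, this, one_pow, mul_one, q.eT, δi, hδ, mul_comm]
    | algebraMap a => exact ⟨0, algebraMap ℂ A a, by simp, by
        rw [pow_zero, mul_one, e.commutes]; exact δ.commutes a⟩
    | add p r kp kr hp hr =>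
      obtain ⟨n, a, h1, h2⟩ := hp
      obtain ⟨m, a', h3, h4⟩ := hr
      refine ⟨n + m, a * c t ^ m + a' * c t ^ n, ?_, ?_⟩
      · simp only [map_add, map_mul, map_pow, ← h1, ← h3]
        ring
      · rw [show δ ⟨p + r, _⟩ = _ from map_add δ ⟨p, kp⟩ ⟨r, kr⟩]
        simp only [map_add, map_mul, map_pow, q.ec]
        push_cast
        rw [← h2, ← h4]
        ring
    | mul p r kp kr hp hr =>
      obtain ⟨n, a, h1, h2⟩ := hp
      obtain ⟨m, a', h3, h4⟩ := hr
      refine ⟨n + m, a * a', ?_, ?_⟩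
      · simp only [map_mul, ← h1, ← h3]
        ring
      · rw [show δ ⟨p * r, _⟩ = _ from map_mul δ ⟨p, kp⟩ ⟨r, kr⟩, map_mul]
        push_cast
        rw [← h2, ← h4]
        ring
  have f0 := mul_ne_zero hp (pow_ne_zero n P.t_ne)
  have a0 : a ≠ 0 := fun z => f0 (by simp [h2, z])
  have g0 : g ≠ 0 := fun z => a0 (iμ (by rw [← h1, z, map_zero, map_zero, zero_mul]))
  obtain ⟨m, a', n1, rfl⟩ := WfDvdMonoid.max_power_factor' (x := c t) a0
    fun z => (z.map ν).ne_zero ((q.ker _).2 dvd_rfl)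
  obtain ⟨o, o1, -⟩ := un j
  have s0 := (map_ne_zero (ψ j)).2 P.t_ne
  have i1 := Pl.ord_nonneg_of_mem _ ((W (ψ j P.t ^ m / (g * ψ j P.t ^ n))).2 (by
    rw [map_div₀, map_mul, map_pow, map_pow, hτ j t, o1, map_mul,
      mul_pow, mul_pow, ← mul_assoc, h1, map_mul, map_pow, mul_assoc,
      mul_div_mul_left _ _ (pow_ne_zero _ ((map_ne_zero_iff _ iμ).2 nz)), ← map_pow, ← map_pow,
      ← map_mul]
    exact V1 _ _ (by
      rw [map_mul, map_pow]
      exact mul_ne_zero (mt (q.ker _).1 n1) (pow_ne_zero _ (o.isUnit.map ν).ne_zero))))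
  rw [Pl.ord_div _ (pow_ne_zero _ s0) (mul_ne_zero g0 (pow_ne_zero _ s0)),
    Pl.ord_mul _ g0 (pow_ne_zero _ s0), Pl.ord_pow, Pl.ord_pow] at i1
  rw [map_mul, map_pow, q.ec, MulMemClass.coe_mul, SubmonoidClass.coe_pow] at h2
  have i2 := congrArg P.ord h2
  have i3 := Pl.ord_nonneg_of_mem _ (e a').2
  have i4 : 0 < w.ord (ψ j P.t) := (lw j).e_pos
  rw [Pl.ord_mul _ hp (pow_ne_zero _ P.t_ne), Pl.ord_mul _ (pow_ne_zero _ P.t_ne)
    (right_ne_zero_of_mul (h2 ▸ f0)), Pl.ord_pow, Pl.ord_pow, P.ord_t] at i2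
  change w.ord g ≤ _
  nlinarith

/-- **the place over a vertical place** -/
theorem Fp.eq (h : Fp ι k φ ψ) {δ : Bd ψ →ₐ[ℂ] F} (hδ : ∀ j f, δ ⟨_, mem_Bd j f⟩ = f)
    {z : σ → L} {y : Fin s → ι → F} (c : Fintype.card σ = k) (hz : AlgebraicIndependent ℂ z)
    (hy : ∀ j, AlgebraicIndependent L (y j)) (t : ¬ Trv (algebraMap L F) P) :
    ∃ w : Pl E, (∀ j, Lies (ψ j : F →+* E) w P) ∧ df φ ψ z y w = 0 ∧
      ∀ j (g : Bd ψ), δ g ≠ 0 → w.ord g ≤ w.ord (ψ j P.t) * P.ord (δ g) := by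
  obtain ⟨v, l⟩ := (okL h.fF P).resolve_left t
  obtain _ | k := k
  · exact (no_pl h.fL v).elim
  obtain ⟨u, hu⟩ := exists_az h.fL v
  obtain ⟨x, a1, a2, a3⟩ := ad_vt h.fL h.fF hu (by simp) l
  have r := h.re (by simp) (Fintype.card_fin _) a2 a3
  obtain ⟨w, lw, aw, k⟩ := h.upg hδ hu l (by
    let e := (Equiv.sumComm _ _).trans ((Fintype.equivOfCardEq (Fintype.card_fin _)).symm.sumCongr
      (.refl (Fin k)) : ι ⊕ _ ≃ _)
    exact ⟨by rintro (i | i); exacts [a1.mem (.inr i), a1.mem (.inl _)],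
      (congrArg (fun w => AlgebraicIndependent ℂ w) (funext (by rintro (i | i) <;> rfl))).mp
        (a1.ind.comp e e.injective)⟩) r.1
  have lv : Lies (φ : L →+* E) w v := h.cmp ⟨0, h.pos⟩ ▸ (lw _).comp l
  refine ⟨w, lw, ?_, k⟩
  rw [h.chg (by simp) hu.indep (fun _ => r.1) c hz hy, h.val (by simp)
    (fun j => .inr ⟨P, lw j, r.2⟩) (.inr ⟨v, lv, hu.ap h.fL (by simp)⟩), sub_eq_zero]
  exact ap_of h.fE (h.cs (by simp)) (oL _ _) lv.e_pos
    (by rintro (i | i); exacts [aw.mem (.inl i), aw.mem (.inr i)])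
    ((congrArg (fun w => AlgebraicIndependent ℂ w) (funext (by rintro (i | i) <;> rfl))).mp aw.ind)

open Polynomial in
/-- integral elements of a simple extension -/
theorem int_step {E : Type} [Field E] {R B : Subring E} {K : Subfield E} (le : R ≤ K.toSubring)
    (h : ∀ g ∈ K, IsIntegral R g → g ∈ B) {θ : E} (hθ : θ ∈ B) {m : R[X]} (mm : m.Monic)
    (r : aeval θ m = 0) {g : E} (hg : g ∈ IntermediateField.adjoin K {θ}) (i : IsIntegral R g) :
    aeval θ m.derivative * g ∈ B := by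
  let _ : Algebra R K := (Subring.inclusion le).toAlgebra
  have : IsScalarTower R K E := .of_algebraMap_eq fun _ => rfl
  have i0 : IsIntegral K θ := IsIntegral.tower_top ⟨m, mm, r⟩
  have ev : ∀ p : K[X], (∀ n, IsIntegral R (p.coeff n)) → aeval θ p ∈ B := fun p hp => by
    rw [aeval_eq_sum_range]
    exact sum_mem fun n _ => mul_mem (h _ (p.coeff n).2 ((hp n).map (IsScalarTower.toAlgHom R K E)))
      (pow_mem hθ n)
  obtain ⟨q, hq⟩ := minpoly.dvd K θ (p := m.map (algebraMap R K)) (by rwa [Polynomial.aeval_map_algebraMap])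
  have mq : q.Monic := (minpoly.monic i0).of_mul_monic_left (hq ▸ mm.map _)
  let M := (aeval θ : K[X] →ₐ[K] E).range
  have gM : g ∈ M := by
    rw [← IntermediateField.mem_toSubalgebra,
      IntermediateField.adjoin_simple_toSubalgebra_of_isAlgebraic i0.isAlgebraic,
      Algebra.adjoin_singleton_eq_range_aeval] at hg
    exact hg
  obtain ⟨G, h1, h2⟩ := exists_derivative_mul_eq_and_isIntegral_coeff (R := R)
    (φ := (aeval θ : K[X] →ₐ[K] E).rangeRestrict.restrictScalars R)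
    (AlgHom.rangeRestrict_surjective _) (minpoly.monic i0)
    (isIntegral_coeff_of_dvd m _ mm (minpoly.monic i0) ⟨q, hq⟩)
    ((RingHom.ker_rangeRestrict _).trans (minpoly.ker_aeval_eq_span_minpoly K θ)) (y := ⟨g, gM⟩)
    ((isIntegral_algHom_iff (M.val.restrictScalars R) Subtype.val_injective).1 i)
  have e := congrArg (fun p => Polynomial.aeval θ (derivative p)) hq
  simp only [derivative_map, Polynomial.aeval_map_algebraMap, derivative_mul, map_add, map_mul,
    minpoly.aeval, zero_mul, add_zero] at e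
  rw [e, mul_right_comm]
  exact mul_mem ((show Polynomial.aeval θ G = Polynomial.aeval θ (derivative (minpoly K θ)) * g from
    (congrArg Subtype.val h1).symm) ▸ ev G h2)
    (ev q (isIntegral_coeff_of_dvd m _ mm mq ⟨_, hq.trans (mul_comm _ _)⟩))

theorem Fp.icl (h : Fp ι k φ ψ) (hz : AlgebraicIndependent ℂ z) (hx : AlgebraicIndependent L x) :
    IsIntegrallyClosed (Algebra.adjoin ℂ
      (⋃ j, ψ j '' IntermediateField.adjoin ℂ (range (g1 z x)))) := by
  obtain ⟨R, hR⟩ : ∃ R, R = Algebra.adjoin ℂ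
    (⋃ j, ψ j '' IntermediateField.adjoin ℂ (range (g1 z x))) := ⟨_, rfl⟩
  rw [← hR]
  have mR : ∀ j f, f ∈ IntermediateField.adjoin ℂ (range (g1 z x)) → ψ j f ∈ R := fun j f m =>
    hR.ge (Algebra.subset_adjoin (mem_iUnion.2 ⟨j, f, m, rfl⟩))
  have ev : ∀ j (p : MvPolynomial _ ℂ), aeval (gs φ ψ z fun _ => x) (rename (Ls.cp j) p) =
      ψ j (aeval (g1 z x) p) := fun j p => by
    rw [aeval_rename, comp_aeval_apply, ← funext (h.cp (x := fun _ => x) j)]; rfl
  have iW := h.ind (x := fun _ => x) (by simp) hz fun _ => hx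
  have mW : ∀ i, gs φ ψ z (fun _ => x) i ∈ R := by
    rintro (i | ⟨i, j⟩)
    · exact h.cp (x := fun _ => x) ⟨0, h.pos⟩ (.inl i) ▸ mR _ _
        (IntermediateField.subset_adjoin _ _ ⟨_, rfl⟩)
    · exact mR j _ (IntermediateField.subset_adjoin _ _ ⟨.inr i, rfl⟩)
  generalize gs φ ψ z (fun _ => x) = W at ev iW mW
  let Y : Fin k ⊕ ι × Fin s → R := fun i => ⟨W i, mW i⟩
  have iY : AlgebraicIndependent ℂ Y := .of_comp R.val iW
  have eY : ∀ p : MvPolynomial _ ℂ, ((aeval Y p : R) : E) = aeval W p := comp_aeval_apply Y R.val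
  let _ := (aeval Y : MvPolynomial _ ℂ →ₐ[ℂ] R).toAlgebra
  let U := (IsUnit.submonoid R).comap (aeval Y : MvPolynomial _ ℂ →ₐ[ℂ] R)
  have sj : ∀ r (hr : r ∈ R), ∃ p q, q ∈ U ∧ ⟨r, hr⟩ * aeval Y q = aeval Y p := fun r hr => by
    subst hR
    induction hr using Algebra.adjoin_induction with
    | mem a ha =>
      obtain ⟨j, f, m, rfl⟩ := mem_iUnion.1 ha
      obtain ⟨p, q, rfl⟩ := (IntermediateField.mem_adjoin_range_iff ℂ _ _).1 m
      by_cases q0 : aeval (g1 z x) q = 0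
      · exact ⟨0, 1, one_mem _, Subtype.ext (by simp [q0])⟩
      exact ⟨rename (Ls.cp j) p, rename (Ls.cp j) q, .of_mul_eq_one ⟨_, mR j (aeval (g1 z x) q)⁻¹
        ((IntermediateField.mem_adjoin_range_iff ℂ _ _).2 ⟨1, q, by simp⟩)⟩
        (Subtype.ext (by simp [eY, ev, q0])), Subtype.ext (by simp [eY, ev, q0])⟩
    | algebraMap a => exact ⟨C a, 1, one_mem _, by rw [map_one, mul_one, aeval_C]; rfl⟩
    | add a b ka kb ha hb =>
      obtain ⟨p, q, h1, h2⟩ := ha
      obtain ⟨p', q', h3, h4⟩ := hb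
      exact ⟨p * q' + p' * q, q * q', mul_mem h1 h3, by
        rw [map_add, map_mul, map_mul, map_mul, ← h2, ← h4, ← AddMemClass.mk_add_mk _ _ _ ka kb]
        ring⟩
    | mul a b ka kb ha hb =>
      obtain ⟨p, q, h1, h2⟩ := ha
      obtain ⟨p', q', h3, h4⟩ := hb
      exact ⟨p * p', q * q', mul_mem h1 h3, by
        rw [map_mul, map_mul, ← h2, ← h4, ← MulMemClass.mk_mul_mk _ _ _ ka kb]
        ring⟩
  have : IsLocalization U R := ⟨fun u => u.2, fun r =>
    let ⟨p, q, a, b⟩ := sj r r.2; ⟨(p, ⟨q, a⟩), b⟩, fun e => ⟨1, by rw [iY e]⟩⟩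
  exact isIntegrallyClosed_of_isLocalization R U fun q hq => mem_nonZeroDivisors_of_ne_zero
    fun z => IsUnit.ne_zero hq (by rw [z, map_zero])

/-- **normality** of the ring generated by the copies -/
theorem Fp.nrm (h : Fp ι k φ ψ) {g : E}
    (hg : ∀ w : Pl E, (∀ j, Trv (ψ j : F →+* E) w) → g ∈ w.ring) : g ∈ Bd ψ := by
  classical
  obtain ⟨z, hz, -⟩ := id h.fL
  obtain ⟨x, hx⟩ := exists_y h.fL h.fF
  replace hx := hx.comp _ (Fintype.equivFin ι).injective
  generalize x ∘ Fintype.equivFin ι = x at hx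
  have ic := h.icl hz hx
  have fi := h.fF.fin ((ind_g hz hx).comp _
    (Fintype.equivFinOfCardEq (h.c1 (Fintype.card_fin k))).symm.injective)
  rw [(Equiv.surjective _).range_comp] at fi
  generalize IntermediateField.adjoin ℂ (range (g1 z x)) = F₀ at ic fi
  obtain ⟨R, hR⟩ : ∃ R, R = Algebra.adjoin ℂ (⋃ j, ψ j '' F₀) := ⟨_, rfl⟩
  rw [← hR] at ic
  have : CharZero F₀ := charZero_of F₀
  obtain ⟨θ, hθ⟩ := Field.exists_primitive_element F₀ F
  have le : R ≤ Bd ψ := hR.trans_le (Algebra.adjoin_mono (iUnion_mono fun j => image_subset_range _ _))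
  let ρ : Fin s → F₀ →+* R.toSubring := fun j => ((ψ j : F →+* E).comp (algebraMap F₀ F)).codRestrict
    _ fun a => hR.ge (Algebra.subset_adjoin (mem_iUnion.2 ⟨j, a, a.2, rfl⟩))
  have ev : ∀ j f (p : Polynomial F₀), Polynomial.aeval (ψ j f) (p.map (ρ j)) =
      ψ j (Polynomial.aeval f p) := fun j f p => by
    rw [Polynomial.aeval_def, Polynomial.eval₂_map]
    exact (Polynomial.hom_eval₂ p _ (ψ j : F →+* E) f).symm
  have it : ∀ j f, IsIntegral R.toSubring (ψ j f) := fun j f => ⟨_, (minpoly.monic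
    (Algebra.IsIntegral.isIntegral (R := F₀) f)).map (ρ j), (ev j f _).trans (by simp)⟩
  let K : Finset (Fin s) → Subfield E := fun S => Subfield.closure (R ∪ (fun j => ψ j θ) '' S)
  have RK : ∀ S, R.toSubring ≤ (K S).toSubring := fun S a ha => Subfield.subset_closure (.inl ha)
  have A : ∀ S, ∀ g ∈ K S, IsIntegral R.toSubring g → g ∈ (Bd ψ).toSubring := fun S => by
    induction S using Finset.induction_on with
    | empty =>
      intro g hg i
      obtain ⟨a, ha, b, hb, rfl⟩ := Subfield.mem_closure_iff.1 hg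
      rw [Finset.coe_empty, image_empty, union_empty] at ha hb
      obtain ⟨p, hp⟩ := Gm.Ir.int_frac (A := R) (e := R.val.toRingHom) Subtype.val_injective
        (r := ⟨a, (Subring.closure_eq R.toSubring).le ha⟩)
        (s := ⟨b, (Subring.closure_eq R.toSubring).le hb⟩) i
      exact hp ▸ le p.2
    | insert j S _ ih =>
      intro g hg i
      have i0 : IsIntegral F₀ θ := Algebra.IsIntegral.isIntegral θ
      have := int_step (RK S) ih (mem_Bd j θ) ((minpoly.monic i0).map (ρ j))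
        ((ev j θ _).trans (by simp)) ((Subfield.closure_le
          (t := (IntermediateField.adjoin (K S) {ψ j θ}).toSubfield)).2 (by
          rintro a (ha | ⟨l, hl, rfl⟩)
          · exact IntermediateField.algebraMap_mem _ (⟨a, RK S ha⟩ : K S)
          · rcases Finset.mem_insert.1 hl with rfl | hl
            · exact IntermediateField.mem_adjoin_simple_self _ _
            · exact IntermediateField.algebraMap_mem _
                (⟨_, Subfield.subset_closure (.inr ⟨l, hl, rfl⟩)⟩ : K S)) hg) i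
      rw [Polynomial.derivative_map, ev] at this
      have := mul_mem (mem_Bd j (Polynomial.aeval θ (minpoly F₀ θ).derivative)⁻¹) this
      rwa [← mul_assoc, ← map_mul, inv_mul_cancel₀ ((minpoly.irreducible i0).separable
        |>.aeval_derivative_ne_zero (minpoly.aeval _ _)), map_one, one_mul] at this
  refine A Finset.univ g (h.gen ((K _).toIntermediateField fun c => RK _ (R.algebraMap_mem c))
    (fun j f => (IntermediateField.adjoin_simple_le_iff (K := ((K _).comap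
      (ψ j : F →+* E)).toIntermediateField fun a => RK _ (ρ j a).2)).2 (Subfield.subset_closure
        (.inr ⟨j, Finset.mem_univ j, rfl⟩)) (hθ ▸ IntermediateField.mem_top)) g) (by_contra fun n => ?_)
  obtain ⟨V, h1, h2⟩ := Subring.exists_le_valuationSubring_of_isIntegrallyClosedIn
    (R := (integralClosure R.toSubring E).toSubring) n
  have := h.fF.ess
  obtain ⟨S, hS⟩ := (IntermediateField.fg_top_iff (F := ℂ) (E := F)).2 inferInstance
  obtain ⟨w, w1, w2⟩ := On.apx (k := ℂ) h.fE V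
    (B := Algebra.adjoin ℂ (insert g⁻¹ (⋃ j, ψ j '' S))) (Subalgebra.fg_def.2 ⟨_, (finite_iUnion
      fun j => S.finite_toSet.image _).insert _, rfl⟩) (fun a ha => (Algebra.adjoin_le
        (S := { V.toSubring with
          algebraMap_mem' := fun c => (ψ ⟨0, h.pos⟩).commutes c ▸ h1 (it _ _) })
        (insert_subset ((V.mem_or_inv_mem g).resolve_left h2) (iUnion_subset fun j => by
          rintro _ ⟨f, -, rfl⟩; exact h1 (it j f)))) ha)
    ⟨g⁻¹, Algebra.subset_adjoin (mem_insert _ _), by rwa [inv_inv]⟩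
  refine h2 (inv_inv g ▸ (w2 _ (Algebra.subset_adjoin (mem_insert _ _))).1 ((inv_inv g).symm ▸
    hg w fun j f => ?_))
  obtain ⟨a, ha, b, hb, rfl⟩ := IntermediateField.mem_adjoin_iff_div.1
    (hS ▸ IntermediateField.mem_top : f ∈ IntermediateField.adjoin ℂ (S : Set F))
  have m : ∀ a ∈ Algebra.adjoin ℂ (S : Set F), ψ j a ∈
      Algebra.adjoin ℂ (insert g⁻¹ (⋃ j, ψ j '' S)) := fun a ha => (Algebra.adjoin_le
    (S := Subalgebra.comap (ψ j) (Algebra.adjoin ℂ (insert g⁻¹ (⋃ j, ψ j '' S))))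
      fun f hf => Algebra.subset_adjoin (mem_insert_of_mem _ (mem_iUnion.2 ⟨j, f, hf, rfl⟩))) ha
  rw [map_div₀, div_eq_mul_inv]
  exact mul_mem (w1 _ (m a ha)) ((w2 _ (m b hb)).2 (map_inv₀ (ψ j) b ▸ h1 (it j _)))

theorem df_apply (z : σ → L) (y : Fin s → ι → F) (w : Pl E) : df φ ψ z y w =
    kq (gs φ ψ z y) w + 1 - (∑ j, pb (ψ j : F →+* E) (kq (g1 z (y j)) + 1) w -
      (s - 1) * pb (φ : L →+* E) (kq z + 1) w) := by
  simp only [df, Pi.add_apply, Pi.sub_apply, Finset.sum_apply, Pi.smul_apply, smul_eq_mul,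
    Pi.one_apply]
  ring

/-- **the general form of DIAG** -/
theorem gdiag (hL : FF L k) (hF : FF F (Fintype.card ι + k)) (s0 : 0 < s) :
    ∃ (E : Type) (_ : Field E) (_ : Algebra ℂ E) (φ : L →ₐ[ℂ] E) (ψ : Fin s → F →ₐ[ℂ] E)
      (δ : Bd ψ →ₐ[ℂ] F), Fp ι k φ ψ ∧ (∀ j f, δ ⟨_, mem_Bd j f⟩ = f) ∧
      (∀ g, (∀ w : Pl E, (∀ j, Trv (ψ j : F →+* E) w) → g ∈ w.ring) → g ∈ Bd ψ) ∧
      ∀ (σ : Type) [Fintype σ] (z : σ → L) (y : ι → F), Fintype.card σ = k →
        AlgebraicIndependent ℂ z → AlgebraicIndependent L y →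
        (∀ w : Pl E, ∑ j, pb (ψ j : F →+* E) (kq (g1 z y) + 1) w -
          (s - 1) * pb (φ : L →+* E) (kq z + 1) w ≤ kq (gs φ ψ z fun _ => y) w + 1) ∧
        ∀ P : Pl F, ¬ Trv (algebraMap L F) P → ∃ w : Pl E, (∀ j, Lies (ψ j : F →+* E) w P) ∧
          kq (gs φ ψ z fun _ => y) w + 1 = ∑ j, pb (ψ j : F →+* E) (kq (g1 z y) + 1) w -
            (s - 1) * pb (φ : L →+* E) (kq z + 1) w ∧
          ∀ j (g : Bd ψ), δ g ≠ 0 → w.ord g ≤ w.ord (ψ j P.t) * P.ord (δ g) := by
  obtain ⟨E, _, _, φ, ψ, δ, h, hδ⟩ := exists_fp hL hF s0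
  refine ⟨E, _, _, φ, ψ, δ, h, hδ, fun g => h.nrm, fun σ _ z y c hz hy => ⟨fun w =>
    sub_nonneg.1 (df_apply z (fun _ => y) w ▸ h.ge c hz (fun _ => hy) w), fun P t => ?_⟩⟩
  obtain ⟨w, a, b, d⟩ := h.eq hδ c hz (fun _ => hy) t
  exact ⟨w, a, sub_eq_zero.1 (df_apply z (fun _ => y) w ▸ b), d⟩

end Vale.Agent.P283B.Ld
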