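import Vale.Agent.P283B.MONO.St

/-!
# P283B, block LS: the tower of discs (definitions and statements, valued fields only)

The coordinates are `t` and `x j`; the level `j` is generic over the levels `i > j` and `t`.
-/

open Set

noncomputable section

namespace Vale.Agent.P283B.Ls

open Mono

/-- polynomials in `t` and `x` -/
abbrev Pn (n : ℕ) := MvPolynomial (Fin n) (Polynomial ℂ)

section defs

variable {Ω : Type} [Field Ω] [Algebra ℂ Ω] {n : ℕ}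

/-- the value of a polynomial -/
def ev (t : Ω) (x : Fin n → Ω) : Pn n →+* Ω :=
  MvPolynomial.eval₂Hom (Polynomial.aeval t : Polynomial ℂ →ₐ[ℂ] Ω).toRingHom x

/-- the value at the origin -/
def c0 : Pn n →+* ℂ := ev (0 : ℂ) 0

/-- the additive valuation -/
def vl (w : AbsoluteValue Ω ℝ) (z : Ω) : ℝ := -Real.log (w z)

/-- the minimum of `vl w z` and `l` -/
def mv (w : AbsoluteValue Ω ℝ) (z : Ω) (l : ℝ) : ℝ := -Real.log (max (w z) (Real.exp (-l)))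

/-- the open polydisc -/
def Op (w : AbsoluteValue Ω ℝ) (x : Fin n → Ω) : Prop := ∀ j, w (x j) < 1

/-- the setting -/
structure Se (w : AbsoluteValue Ω ℝ) (E : Subfield Ω) (t : Ω) (u : Fin n → Ω) : Prop where
  vs : VS w E
  tw : Tw w E u
  cE : ∀ c, algebraMap ℂ Ω c ∈ E
  c1 : ∀ c, c ≠ 0 → w (algebraMap ℂ Ω c) = 1
  tE : t ∈ E
  t0 : t ≠ 0
  t1 : w t < 1
  rat : ∀ z, z ≠ 0 → ∃ (N : ℕ) (M : ℤ), 0 < N ∧ w z ^ N = w t ^ M

/-- triangular points of the open polydisc -/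
structure Pt (w : AbsoluteValue Ω ℝ) (E : Subfield Ω) (u x γ : Fin n → Ω) : Prop where
  tri : Tri E u x γ
  op : Op w x

/-- the log discrepancy of the point `(t, x j : c ≤ j)` -/
def aa (w : AbsoluteValue Ω ℝ) (t : Ω) (c : ℕ) (γ : Fin n → Ω) : ℝ :=
  vl w t + ∑ j ∈ Finset.univ.filter fun j : Fin n => c ≤ j.1, vl w (γ j)

/-- the lower bound (L) at all triangular points; `Ψ x` is the log discrepancy of the pair -/
def Lw (w : AbsoluteValue Ω ℝ) (E : Subfield Ω) (t : Ω) (u : Fin n → Ω) (Ψ : (Fin n → Ω) → ℝ)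
    (c s : ℕ) (g : Pn n) : Prop := ∀ x γ, Pt w E u x γ →
  w (ev t x g) ≤ Real.exp (-(s * (aa w t c γ - Ψ x) - aa w t c γ))

/-- what the tower uses about the pair -/
structure Bg (w : AbsoluteValue Ω ℝ) (E : Subfield Ω) (t : Ω) (u : Fin n → Ω)
    (Ψ : (Fin n → Ω) → ℝ) (ε : ℝ) : Prop where
  lc : ∀ x γ, Pt w E u x γ → 0 ≤ Ψ x
  up : ∀ x γ, Pt w E u x γ → Ψ x ≤ aa w t 0 γ
  ber : ∀ x γ (j : Fin n), Pt w E u x γ →
    vl w t + ∑ i, vl w (x i) - (n + 1) * vl w (x j) ≤ Ψ x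
  ms : ∀ x γ (g : ℝ), Pt w E u x γ → 0 < g →
    (∀ p, p ≠ 0 → ∃ z : ℤ, vl w (ev t x p) = z * g) → ε * g ≤ Ψ x
  lu : ∀ (c : Fin n) (s : ℕ) (η γ : Fin n → Ω) (φ : ℝ), 0 < s → Pt w E u η γ → 0 ≤ φ →
    (∀ x γ', Pt w E u x γ' → (∀ j, c ≤ j → x j = η j) → aa w t c γ - Ψ x ≤ φ) →
    ∀ x, Op w x → (∀ j, c ≤ j → x j = η j) → ∃ g, Lw w E t u Ψ c s g ∧
      Real.exp (-(s * φ + vl w (η c))) ≤ w (ev t x g)

/-- a correspondence of degree `d` over the coordinates `j ≥ c` -/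
structure Cor (w : AbsoluteValue Ω ℝ) (t : Ω) (c d : ℕ)
    (X : (Fin n → Ω) → Multiset (Fin n → Ω)) : Prop where
  pos : 0 < d
  card : ∀ η, Op w η → (X η).card = d
  mem : ∀ η, Op w η → ∀ x ∈ X η, Op w x ∧ ∀ j : Fin n, c ≤ j.1 → x j = η j
  chi : ∀ H : Pn n, ∃ χ : Polynomial (Pn n), ∀ η, Op w η →
    χ.map (ev t η) = ((X η).map fun x => Polynomial.X - Polynomial.C (ev t x H)).prod

/-- the truncated sum of the values of `H` on the sheets -/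
def fv (w : AbsoluteValue Ω ℝ) (t : Ω) (S : Multiset (Fin n → Ω)) (H : Pn n) (l : ℝ) : ℝ :=
  (S.map fun x => mv w (ev t x H) l).sum

/-- the part `κ` of the sheets is as good as the point `x` -/
def Gd (w : AbsoluteValue Ω ℝ) (t : Ω) (S : Multiset (Fin n → Ω)) (κ : ℝ) (x : Fin n → Ω)
    (H : Pn n) : Prop := ∀ l₁ l₂, l₁ ≤ l₂ → w (ev t x H) ≤ Real.exp (-l₂) →
  κ * S.card * (l₂ - l₁) ≤ fv w t S H l₂ - fv w t S H l₁

/-- the coordinates below `c` are set to zero -/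
def cut (c : ℕ) (x : Fin n → Ω) : Fin n → Ω := fun j => if c ≤ j.1 then x j else 0

/-- the polynomial in the coordinate `c` -/
def sub (c : Fin n) : Pn n →+* Polynomial (Pn n) :=
  MvPolynomial.eval₂Hom (Polynomial.C.comp MvPolynomial.C) fun j =>
    if j = c then Polynomial.X else Polynomial.C (MvPolynomial.X j)

/-- distinguished polynomials -/
def Dis (W : Polynomial (Pn n)) : Prop := W.Monic ∧ W.map c0 = Polynomial.X ^ W.natDegree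

end defs

/-- a statement for all settings -/
def ForE (n : ℕ) (A : ∀ (Ω : Type) [Field Ω] [Algebra ℂ Ω], AbsoluteValue Ω ℝ → Subfield Ω → Ω →
    (Fin n → Ω) → Prop) : Prop :=
  ∀ (Ω : Type) [Field Ω] [Algebra ℂ Ω] [IsAlgClosed Ω] (w : AbsoluteValue Ω ℝ) (E : Subfield Ω)
    (t : Ω) (u : Fin n → Ω), Se w E t u → A Ω w E t u

/-- **TOWER** -/
def TOWER : Prop := ∀ (n : ℕ) (ε : ℝ), 0 < ε → ∃ τ : ℝ, 0 < τ ∧ ForE n fun _ _ _ w E t u =>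
  ∀ Ψ, Bg w E t u Ψ ε → ∀ x γ, Pt w E u x γ → τ * vl w t ≤ Ψ x

/-- **NP0**: the zeros in the open unit disc -/
def NP0 : Prop := ∀ (Ω : Type) [Field Ω] [IsAlgClosed Ω] (w : AbsoluteValue Ω ℝ)
  (f : Polynomial Ω) (k : ℕ), IsNonarchimedean w → (∀ i, w (f.coeff i) ≤ 1) →
  (∀ i < k, w (f.coeff i) < 1) → w (f.coeff k) = 1 → ∃ B : Multiset Ω, B.card = k ∧
    (∀ β ∈ B, w β < 1 ∧ f.IsRoot β) ∧
    ∀ y, w y < 1 → w (f.eval y) = (B.map fun β => w (y - β)).prod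

/-- **EV**: values of polynomials on the open polydisc -/
def EV : Prop := ∀ n, ForE n fun _ _ _ w _ t _ => ∀ η, Op w η → ∃ q : ℝ, 0 ≤ q ∧ q < 1 ∧
  (∀ r, w t ≤ r → (∀ j, w (η j) ≤ r) → q ≤ r) ∧ ∀ p : Pn n, w (ev t η p) ≤ 1 ∧
    (c0 p ≠ 0 → w (ev t η p) = 1) ∧ ∀ M, p ∈ RingHom.ker (c0 (n := n)) ^ M → w (ev t η p) ≤ q ^ M

/-- **AW**: approximate preparation -/
def AW : Prop := ∀ (n : ℕ) (f : Polynomial (Pn n)) (M : ℕ), f.map c0 ≠ 0 →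
  ∃ W U : Polynomial (Pn n), Dis W ∧ W.natDegree = (f.map c0).natTrailingDegree ∧
    c0 (U.coeff 0) ≠ 0 ∧ ∀ i, (f - W * U).coeff i ∈ RingHom.ker (c0 (n := n)) ^ M

open Classical in
/-- **MULT**: a disc which contains many roots has few conjugates -/
def MULT : Prop := ∀ (Ω : Type) [Field Ω] [IsAlgClosed Ω] (w : AbsoluteValue Ω ℝ)
  (K : Subfield Ω) (W : Polynomial Ω) (a : Ω) (r : ℝ) (k : ℕ), IsNonarchimedean w →
  (∀ m : ℕ, m ≠ 0 → w m = 1) → (∃ γ ∈ K, 1 < w γ) → W.Monic → (∀ i, W.coeff i ∈ K) → 0 < k →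
  k ≤ (W.roots.filter fun β => w (β - a) ≤ r).card → ∃ (a' : Ω) (ν : ℕ), IsAlgebraic K a' ∧
    w (a' - a) ≤ r ∧ 0 < ν ∧ ν * k ≤ W.natDegree ∧
    ∀ z ∈ Subfield.closure ((K : Set Ω) ∪ {a'}), ∃ b ∈ K, w z ^ ν = w b

open Classical in
/-- **COMP**: composition of correspondences -/
def COMP : Prop := ∀ n, ForE n fun Ω _ _ w E t u => ∀ (c : Fin n) (d k : ℕ)
  (X : (Fin n → Ω) → Multiset (Fin n → Ω)) (x γ : Fin n → Ω) (W : Polynomial (Pn n)) (a b : Ω)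
  (A : Set (Pn n)), Cor w t c d X → Pt w E u x γ → Dis W → 0 < k → a ∈ Lv E u c → b ∈ E → b ≠ 0 →
  w a < 1 → w b < 1 → k ≤ ((W.map (ev t (cut (c + 1) x))).roots.filter
    fun β => w (β - a) ≤ w b).card → A.Countable →
  ∃ d' X', Cor w t (c + 1) d' X' ∧ ∀ H ∈ A, ∀ κ x₀, 0 ≤ κ →
    Gd w t (X (Function.update (cut (c + 1) x) c (a + b * u c))) κ x₀ H →
    Gd w t (X' (cut (c + 1) x)) (κ * k / W.natDegree) x₀ H

/-- **SS**: a correspondence with a fixed part of good sheets -/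
def SS (n c : ℕ) : Prop := ∃ C κ σ : ℝ, 1 ≤ C ∧ 0 < κ ∧ 0 < σ ∧ ForE n fun _ _ _ w E t u =>
  ∀ Ψ ε (A : Set (Pn n)), Bg w E t u Ψ ε → A.Countable → ∀ x γ s, Pt w E u x γ → 0 < s →
    Ψ x ≤ s → s ≤ σ * vl w t → ∃ x' γ' d X, Pt w E u x' γ' ∧ (∀ j : Fin n, c ≤ j.1 → x' j = x j) ∧
      Ψ x' ≤ C * s ∧ Cor w t c d X ∧ ∀ H ∈ A, Gd w t (X (cut c x)) κ x' H

open Classical in
/-- **KEY**: large radii, the Lipschitz property, many zeros near the disc -/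
def KEY (n : ℕ) (c : Fin n) : Prop := ∃ C θ σ : ℝ, 1 ≤ C ∧ 0 < θ ∧ 0 < σ ∧
  ForE n fun _ _ _ w E t u => ∀ Ψ ε, Bg w E t u Ψ ε → ∀ x γ s, Pt w E u x γ → 0 < s → Ψ x ≤ s →
    s ≤ σ * vl w t → θ * vl w t ≤ vl w (γ c) ∧
    (∀ a ∈ Lv E u c, ∀ b ∈ E, b ≠ 0 → w a < 1 → w b < 1 → ∃ x' γ', Pt w E u x' γ' ∧
      (∀ j, c < j → x' j = x j) ∧ x' c = a + b * u c ∧
      Ψ x' ≤ C * (s + vl w (γ c) + vl w b - 2 * mv w (x c - a) (vl w b))) ∧
    ∃ b ∈ E, b ≠ 0 ∧ w b < 1 ∧ vl w (γ c) - C * s ≤ vl w b ∧ vl w b ≤ vl w (γ c) ∧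
      ∃ (W : Polynomial (Pn n)) (k : ℕ), Dis W ∧ 0 < k ∧ θ * W.natDegree ≤ k ∧
        k ≤ ((W.map (ev t (cut (c + 1) x))).roots.filter
          fun β => w (β - (x c - γ c * u c)) ≤ w b).card

/-- leaf -/
def KEYS : Prop := NP0 → EV → AW → ∀ n (c : Fin n), SS n c → KEY n c

/-- leaf -/
def STEP : Prop := COMP → ∀ n, SS n 0 ∧ ∀ c : Fin n, SS n c → KEY n c → SS n (c + 1)

/-- leaf -/
def ROUNDS : Prop := MULT → (∀ n c, KEY n c) → TOWER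

theorem tower_of (np : NP0) (ev : EV) (aw : AW) (mu : MULT) (co : COMP) (ke : KEYS) (st : STEP)
    (ro : ROUNDS) : TOWER := by
  refine ro mu fun n c => ke np ev aw n c ?_
  have : ∀ k, k ≤ n → SS n k := fun k => by
    induction k with
    | zero => exact fun _ => (st co n).1
    | succ k ih =>
      exact fun h => (st co n).2 ⟨k, h⟩ (ih (Nat.le_of_succ_le h))
        (ke np ev aw n ⟨k, h⟩ (ih (Nat.le_of_succ_le h)))
  exact this c c.2.le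

end Vale.Agent.P283B.Ls
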